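import Crest.Agent.N255.Tg.Wt

/-!
# Row 255 (helper23): ideal arithmetic for the vertex absorption, the weighted Morse lemma
-/

set_option autoImplicit false
open Set Function

noncomputable section

namespace Crest.Agent.N255.Tg

open _root_.N255.Dr _root_.N255.Dr.O Cs

section Gen

variable {K A : Type*} [CommRing K] [CommRing A] [Algebra K A]

/-- the trivial grading -/
def triv (K A : Type*) [CommRing K] [CommRing A] [Algebra K A] : Gr Unit K A where
  pr _ := LinearMap.id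
  sum x := by simp
  idem a b x := by simp
  mul _ _ _ _ := rfl
  one := rfl

theorem triv_hg (a : Unit) (x : A) : (triv K A).Hg a x := rfl

theorem triv_id (I : Ideal A) : (triv K A).Id I := fun _ _ h => h

end Gen

variable {A : Type*} [CommRing A] {X : Type} {m : Ideal A} {Fl : ℤ → Ideal A}

/-- order at least `i` and weight at least `n` -/
def WW (m : Ideal A) (Fl : ℤ → Ideal A) (i : ℕ) (n : ℤ) : Ideal A := m ^ i ⊓ Fl n

theorem WW_le (fl : Flt Fl) {i j : ℕ} {n l : ℤ} (hi : j ≤ i) (hn : l ≤ n) :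
    WW m Fl i n ≤ WW m Fl j l := inf_le_inf (Ideal.pow_le_pow_right hi) (fl.anti hn)

theorem WW_mul (fl : Flt Fl) {i i' j : ℕ} {n n' l : ℤ} (hi : j ≤ i + i') (hn : l ≤ n + n') :
    WW m Fl i n * WW m Fl i' n' ≤ WW m Fl j l :=
  le_inf ((Ideal.mul_mono inf_le_left inf_le_left).trans
    (by rw [← pow_add]; exact Ideal.pow_le_pow_right hi)) (fl.mul_le inf_le_right inf_le_right hn)

theorem WW_top (fl : Flt Fl) : WW m Fl 0 0 = ⊤ := by simp [WW, fl.zero]

theorem WW_zero (fl : Flt Fl) (i : ℕ) : WW m Fl i 0 = m ^ i := by simp [WW, fl.zero]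

theorem WW_mul0 (fl : Flt Fl) {i i' j : ℕ} {n n' : ℤ} (hi : j ≤ i + i') :
    WW m Fl i n * WW m Fl i' n' ≤ WW m Fl j 0 := by
  rw [WW_zero fl]
  exact (Ideal.mul_mono inf_le_left inf_le_left).trans
    (by rw [← pow_add]; exact Ideal.pow_le_pow_right hi)

/-- a hyperbolic index set with weights -/
structure Hyp (X : Type) where
  bar : X → X
  ty : X → Bool
  F : X → ℤ
  bb : ∀ q, bar (bar q) = q
  tb : ∀ q, ty (bar q) = !ty q

namespace Hyp

variable (h : Hyp X)

/-- the weight of the coefficient of `r a` in a shift of the coordinate `q` -/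
def mw (q a : X) : ℤ := max (h.F q + 1 - h.F a) (h.F (h.bar a) + 1 - h.F (h.bar q))

/-- shifts in the Morse lemma -/
def JM (m : Ideal A) (Fl : ℤ → Ideal A) (r : X → A) (k : ℕ) (q : X) : Ideal A :=
  ⨆ a, Ideal.span {r a} * WW m Fl (if h.ty q = true then 0 else 1) (h.mw q a + k)

/-- shifts of the Gaussian variables in the final absorption -/
def Jz (m : Ideal A) (Fl : ℤ → Ideal A) (μ : ℤ) (ρ : X → A) (Λ K : Ideal A) (k : ℕ) (q : X) :
    Ideal A :=
  Λ * WW m Fl (if h.ty q = true then (k + 1) / 2 else k / 2 + 1) (h.F q + 1 - μ) ⊔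
    K * WW m Fl (if h.ty q = true then k / 2 else (k + 1) / 2) 0 ⊔
    ⨆ a, Ideal.span {ρ a} * WW m Fl ((k + 1) / 2 + 1) (h.mw q a)

end Hyp

/-- shifts of the far variables in the final absorption -/
def Jf (m : Ideal A) (Fl : ℤ → Ideal A) (Λ K : Ideal A) (k : ℕ) : Ideal A :=
  Λ * WW m Fl ((k + 1) / 2) 0 ⊔ K * WW m Fl (k / 2) 0

theorem Hyp.JM_mul (h : Hyp X) (fl : Flt Fl) (r : X → A) (k : ℕ) (q : X) {E : Ideal A}
    (hE : ∀ a, h.JM m Fl r (k + 1) (h.bar a) * Ideal.span {r a} ≤ E) :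
    h.JM m Fl r k q * h.JM m Fl r 0 (h.bar q) ≤ E := by
  simp only [Hyp.JM, Submodule.iSup_mul, Submodule.mul_iSup, iSup_le_iff]
  intro b a
  refine le_trans ?_ (hE a)
  rw [mul_mul_mul_comm, mul_comm (Ideal.span {r a}), mul_right_comm]
  refine Ideal.mul_mono_left (le_iSup_of_le b (Ideal.mul_mono_right (WW_mul fl ?_ ?_)))
  · rw [h.tb q]; cases h.ty q <;> split_ifs <;> simp_all
  · simp only [Hyp.mw, h.bb]; push_cast; omega

/-- change of generators -/
theorem Hyp.conv (h : Hyp X) {r ρ : X → A} (hρ : ∀ q, ρ q - r q ∈ h.JM m Fl r 0 q)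
    {B : ℕ → X → Ideal A} {N : ℕ} (hN : ∀ a, B N a = ⊥) (ha : ∀ n a, B (n + 1) a ≤ B n a)
    (hB : ∀ n q a, WW m Fl (if h.ty q = true then 0 else 1) (h.mw q a) * B n q ≤ B (n + 1) a) :
    ⨆ a, Ideal.span {r a} * B 0 a ≤ ⨆ a, Ideal.span {ρ a} * B 0 a := by
  have key : ∀ k n, n + k = N →
      ⨆ a, Ideal.span {r a} * B n a ≤ ⨆ a, Ideal.span {ρ a} * B n a := by
    intro k
    induction k with
    | zero => intro n hn; simp [show n = N from hn, hN]
    | succ k ih =>
      intro n hn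
      refine iSup_le fun q => ?_
      have h1 : Ideal.span {r q} ≤ Ideal.span {ρ q} ⊔ h.JM m Fl r 0 q :=
        (Ideal.span_singleton_le_iff_mem _).2 (by
          simpa using sub_mem (Ideal.mem_sup_left (Ideal.mem_span_singleton_self (ρ q)))
            (Ideal.mem_sup_right (hρ q)))
      refine (Ideal.mul_mono_left h1).trans ?_
      rw [Ideal.sup_mul]
      refine sup_le (le_iSup (fun a => Ideal.span {ρ a} * B n a) q) (le_trans ?_
        ((ih (n + 1) (by omega)).trans (iSup_mono fun a => Ideal.mul_mono_right (ha n a))))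
      rw [Hyp.JM, Submodule.iSup_mul]
      refine iSup_mono fun a => ?_
      rw [mul_assoc, Nat.cast_zero, add_zero]
      exact Ideal.mul_mono_right (hB n q a)
  exact key N 0 (zero_add N)

/-- the two phase estimate -/
theorem Hyp.phase (h : Hyp X) (fl : Flt Fl) {μ κ : ℤ} (hκ : ∀ q, h.F q < κ) {ρ : X → A}
    {Λ K H T J0 J1 : Ideal A} {E : ℕ → Ideal A} (hH : ∀ k, H ≤ E k) (KK : K * K ≤ H)
    (hz : ∀ k a, h.Jz m Fl μ ρ Λ K k (h.bar a) * Ideal.span {ρ a} ≤ E k)
    (hf : ∀ k, Jf m Fl Λ K k * J1 ≤ E k)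
    (hJ : J0 ≤ J1 ⊔ ⨆ q, Ideal.span {ρ q} *
      WW m Fl (if h.ty q = true then 1 else 0) (h.F (h.bar q) + 1 - μ))
    (hΛ : Λ ≤ J0 ⊔ T) (hT : T ≤ Λ) (hT' : T ≤ K ⊔ ⨆ a, Ideal.span {ρ a} * WW m Fl 1 (κ - h.F a)) :
    Λ * (J0 ⊔ T) ≤ E 0 ∧ (∀ k, Jf m Fl Λ K k * Jf m Fl Λ K 0 * m ≤ E (k + 1)) ∧
      ∀ k q, h.Jz m Fl μ ρ Λ K k q * h.Jz m Fl μ ρ Λ K 0 (h.bar q) ≤ E (k + 1) := by
  have Kr : ∀ k a {I : Ideal A}, I ≤ WW m Fl (if h.ty a = true then (k + 1) / 2 else k / 2) 0 →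
      K * (Ideal.span {ρ a} * I) ≤ E k := fun k a I hI => by
    refine le_trans ?_ (hz k a)
    rw [mul_comm _ I, ← mul_assoc]
    refine Ideal.mul_mono_left (le_sup_of_le_left (le_sup_of_le_right
      (Ideal.mul_mono_right (hI.trans (WW_le fl ?_ le_rfl)))))
    rw [h.tb]; cases h.ty a <;> simp
  have Lr : ∀ k a {I : Ideal A}, I ≤ WW m Fl (if h.ty a = true then k / 2 + 1 else (k + 1) / 2)
      (h.F (h.bar a) + 1 - μ) → Λ * (Ideal.span {ρ a} * I) ≤ E k := fun k a I hI => by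
    refine le_trans ?_ (hz k a)
    rw [mul_comm _ I, ← mul_assoc]
    refine Ideal.mul_mono_left (le_sup_of_le_left (le_sup_of_le_left
      (Ideal.mul_mono_right (hI.trans (WW_le fl ?_ le_rfl)))))
    rw [h.tb]; cases h.ty a <;> simp
  have rr : ∀ k a b {I : Ideal A}, I ≤ WW m Fl ((k + 1) / 2 + 1) (h.mw (h.bar a) b) →
      Ideal.span {ρ a} * (Ideal.span {ρ b} * I) ≤ E k := fun k a b I hI => by
    refine le_trans ?_ (hz k a)
    rw [mul_comm]
    exact Ideal.mul_mono_left (le_sup_of_le_right (le_iSup_of_le b (Ideal.mul_mono_right hI)))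
  have KE : ∀ k (I : Ideal A), K * K * I ≤ E k := fun k I =>
    Ideal.mul_le_left.trans (KK.trans (hH k))
  have jL : ∀ k i, (k + 1) / 2 ≤ i → Λ * J0 * WW m Fl i 0 ≤ E k := fun k i hi => by
    refine (Ideal.mul_mono_left (Ideal.mul_mono_right hJ)).trans ?_
    simp only [Ideal.mul_sup, Ideal.sup_mul, Submodule.iSup_mul, Submodule.mul_iSup, sup_le_iff,
      iSup_le_iff]
    refine ⟨le_trans ?_ (hf k), fun q => ?_⟩
    · rw [mul_right_comm]
      exact Ideal.mul_mono_left (le_sup_of_le_left (Ideal.mul_mono_right (WW_le fl hi le_rfl)))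
    · rw [mul_assoc, mul_assoc]
      exact Lr k q (WW_mul fl (by split_ifs <;> omega) (by omega))
  have jK : ∀ k i, k / 2 ≤ i → K * J0 * WW m Fl i 0 ≤ E k := fun k i hi => by
    refine (Ideal.mul_mono_left (Ideal.mul_mono_right hJ)).trans ?_
    simp only [Ideal.mul_sup, Ideal.sup_mul, Submodule.iSup_mul, Submodule.mul_iSup, sup_le_iff,
      iSup_le_iff]
    refine ⟨le_trans ?_ (hf k), fun q => ?_⟩
    · rw [mul_right_comm]
      exact Ideal.mul_mono_left (le_sup_of_le_right (Ideal.mul_mono_right (WW_le fl hi le_rfl)))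
    · rw [mul_assoc, mul_assoc]
      exact Kr k q (WW_mul0 fl (by split_ifs <;> omega))
  have KT : ∀ k i, k / 2 ≤ i → K * T * WW m Fl i 0 ≤ E k := fun k i hi => by
    refine (Ideal.mul_mono_left (Ideal.mul_mono_right hT')).trans ?_
    simp only [Ideal.mul_sup, Ideal.sup_mul, Submodule.iSup_mul, Submodule.mul_iSup, sup_le_iff,
      iSup_le_iff]
    refine ⟨KE k _, fun q => ?_⟩
    rw [mul_assoc, mul_assoc]
    exact Kr k q (WW_mul0 fl (by split_ifs <;> omega))
  have TT : ∀ k i, (k + 1) / 2 ≤ i → T * T * WW m Fl i 0 ≤ E k := fun k i hi => by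
    refine (Ideal.mul_mono_left (Ideal.mul_mono_left hT')).trans ?_
    rw [Ideal.sup_mul, Ideal.sup_mul]
    refine sup_le (KT k i (by omega)) ((Ideal.mul_mono_left (Ideal.mul_mono_right hT')).trans ?_)
    simp only [Ideal.mul_sup, Ideal.sup_mul, Submodule.iSup_mul, Submodule.mul_iSup, sup_le_iff,
      iSup_le_iff]
    refine ⟨fun q => ?_, fun b a => ?_⟩
    · rw [mul_comm _ K, mul_assoc, mul_assoc]
      exact Kr k q (WW_mul0 fl (by split_ifs <;> omega))
    · rw [mul_mul_mul_comm, mul_assoc, mul_assoc]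
      refine rr k a b ((Ideal.mul_mono_left (WW_mul (j := 2) fl le_rfl le_rfl)).trans
        (WW_mul fl (by omega) ?_))
      have := hκ a; have := hκ b; have := hκ (h.bar a); have := hκ (h.bar b)
      simp only [Hyp.mw, h.bb]; omega
  have LL' : ∀ k i, (k + 1) / 2 ≤ i → Λ * (J0 ⊔ T) * WW m Fl i 0 ≤ E k := fun k i hi => by
    rw [Ideal.mul_sup, Ideal.sup_mul]
    refine sup_le (jL k i hi) ((Ideal.mul_mono_left (Ideal.mul_mono_left hΛ)).trans ?_)
    rw [Ideal.sup_mul, Ideal.sup_mul, mul_comm J0]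
    exact sup_le ((Ideal.mul_mono_left (Ideal.mul_mono_left hT)).trans (jL k i hi)) (TT k i hi)
  have LL : ∀ k i, (k + 1) / 2 ≤ i → Λ * Λ * WW m Fl i 0 ≤ E k := fun k i hi =>
    (Ideal.mul_mono_left (Ideal.mul_mono_right hΛ)).trans (LL' k i hi)
  have KL : ∀ k i, k / 2 ≤ i → K * Λ * WW m Fl i 0 ≤ E k := fun k i hi => by
    refine (Ideal.mul_mono_left (Ideal.mul_mono_right hΛ)).trans ?_
    rw [Ideal.mul_sup, Ideal.sup_mul]
    exact sup_le (jK k i hi) (KT k i hi)
  refine ⟨by simpa [WW_top fl] using LL' 0 0 le_rfl, fun k => ?_, fun k q => ?_⟩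
  · have e1 : ∀ I J I' J' M : Ideal A, I * J * (I' * J') * M = I * I' * (J * J' * M) :=
      fun _ _ _ _ _ => by ring
    have e2 : ∀ i j, WW m Fl i 0 * WW m Fl j 0 * m ≤ WW m Fl (i + 1) 0 := fun i j => by
      simp only [WW_zero fl, pow_succ]
      exact Ideal.mul_mono_left Ideal.mul_le_left
    simp only [Jf, Ideal.mul_sup, Ideal.sup_mul, sup_le_iff, e1, mul_comm Λ K]
    exact ⟨⟨(Ideal.mul_mono_right (e2 _ _)).trans (LL _ _ (by omega)),
      (Ideal.mul_mono_right (e2 _ _)).trans (KL _ _ (by omega))⟩,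
      (Ideal.mul_mono_right (e2 _ _)).trans (KL _ _ (by omega)), KE _ _⟩
  · have e1 : ∀ I J I' J' : Ideal A, I * J * (I' * J') = I * I' * (J * J') := fun _ _ _ _ => by ring
    have e2 : ∀ I J I' J' : Ideal A, I * J * (I' * J') = I * (I' * (J * J')) := fun _ _ _ _ => by
      ring
    have e3 : ∀ I J I' J' : Ideal A, I * J * (I' * J') = I' * (I * (J * J')) := fun _ _ _ _ => by
      ring
    have t := h.tb q
    simp only [Hyp.Jz, Ideal.mul_sup, Ideal.sup_mul, Submodule.iSup_mul, Submodule.mul_iSup,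
      sup_le_iff, iSup_le_iff, t]
    refine ⟨⟨⟨⟨?_, ?_⟩, fun a => ?_⟩, ⟨?_, ?_⟩, fun a => ?_⟩, fun b => ⟨⟨?_, ?_⟩, fun a => ?_⟩⟩
    · rw [e1]
      refine (Ideal.mul_mono_right (WW_mul0 fl le_rfl)).trans (LL _ _ ?_)
      cases h.ty q <;> simp <;> omega
    · rw [e1]
      refine (Ideal.mul_mono_right (WW_mul0 fl le_rfl)).trans (KL _ _ ?_)
      cases h.ty q <;> simp; omega
    · rw [e3]
      refine Lr _ a (WW_mul fl ?_ ?_)
      · cases h.ty q <;> split_ifs <;> simp_all <;> omega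
      · simp only [Hyp.mw]; omega
    · rw [e1, mul_comm Λ]
      refine (Ideal.mul_mono_right (WW_mul0 fl le_rfl)).trans (KL _ _ ?_)
      cases h.ty q <;> simp; omega
    · rw [e1]; exact KE _ _
    · rw [e3]
      refine Kr _ a (WW_mul0 fl ?_)
      split_ifs <;> omega
    · rw [e2]
      refine Lr _ b (WW_mul fl ?_ ?_)
      · split_ifs <;> omega
      · simp only [Hyp.mw, h.bb]; omega
    · rw [e2]
      refine Kr _ b (WW_mul0 fl ?_)
      split_ifs <;> omega
    · rw [e2]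
      refine rr _ a b (WW_mul fl (by omega) ?_)
      simp only [Hyp.mw, h.bb]; omega

/-! ### the hyperbolic quadratic form -/

variable [Fintype X] {p : ℕ} {K : Type} [CommRing K] [Algebra K A] (h : Hyp X)

/-- the hyperbolic form -/
def Hyp.QQ (c : X → K) (ζ : X → A) : A :=
  ∑ q, if h.ty q = true then 0 else c q • (ζ q * ζ (h.bar q))

theorem Hyp.sum_bar {M : Type*} [AddCommMonoid M] (f : X → M) :
    ∑ q, f q = ∑ q, if h.ty q = true then 0 else f q + f (h.bar q) := by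
  have e := Equiv.sum_comp (⟨h.bar, h.bar, h.bb, h.bb⟩ : X ≃ X) fun q => if h.ty q = true then f q else 0
  have : ∀ q, (if h.ty q = true then 0 else f q + f (h.bar q)) = (if h.ty q = true then 0 else f q) +
      if h.ty (h.bar q) = true then f (h.bar q) else 0 := fun q => by
    rw [h.tb]; cases h.ty q <;> simp
  simp only [this, Finset.sum_add_distrib]
  rw [show ∑ q, (if h.ty (h.bar q) = true then f (h.bar q) else 0) = _ from e,
    ← Finset.sum_add_distrib]
  exact Finset.sum_congr rfl fun q _ => by split_ifs <;> simp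

theorem Hyp.map_QQ {B : Type*} [CommRing B] [Algebra K B] (ψ : A →ₐ[K] B) (c : X → K) (ζ : X → A) :
    ψ (h.QQ c ζ) = h.QQ c fun q => ψ (ζ q) := by
  simp [Hyp.QQ, apply_ite ψ]

theorem Hyp.QQ_add {c : X → K} (hc : ∀ q, c (h.bar q) = c q) (x r : X → A) :
    h.QQ c (x + r) = h.QQ c x + ∑ q, r q * c q • x (h.bar q) + h.QQ c r := by
  rw [h.sum_bar fun q => r q * c q • x (h.bar q)]
  simp only [Hyp.QQ, ← Finset.sum_add_distrib, hc, h.bb, Pi.add_apply, Algebra.smul_def]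
  exact Finset.sum_congr rfl fun q _ => by split_ifs <;> ring

theorem Hyp.der_QQ {c : X → K} (hc : ∀ q, c (h.bar q) = c q) (D : Derivation K A A) (ζ : X → A) :
    D (h.QQ c ζ) = ∑ q, D (ζ q) * c q • ζ (h.bar q) := by
  rw [h.sum_bar]
  simp only [Hyp.QQ, map_sum, apply_ite D, map_zero, hc, h.bb, Derivation.map_smul,
    Derivation.leibniz, smul_eq_mul]
  simp only [Algebra.smul_def]
  exact Finset.sum_congr rfl fun q _ => by split_ifs <;> ring

theorem Hyp.QQ_mem (c : X → K) {ζ : X → A} (hz : ∀ q, ζ q ∈ m) : h.QQ c ζ ∈ m ^ 2 :=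
  sum_mem fun q _ => by
    split_ifs
    · exact zero_mem _
    · exact Submodule.smul_of_tower_mem _ _ (sq m ▸ Ideal.mul_mem_mul (hz _) (hz _))

variable [Fact ((p : K) = 0)] {σ : Type}

theorem Hyp.pd_QQ {c : X → K} (hc : ∀ q, c (h.bar q) = c q) {e : X → σ} (he : Injective e) (q : X) :
    pd (e q) (h.QQ c fun a => (z (e a) : O p K σ)) = c q • z (e (h.bar q)) := by
  rw [h.der_QQ hc, Finset.sum_eq_single q (fun a _ ha => by
    rw [pd_z_ne (he.ne ha.symm), zero_mul]) (by simp)]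
  simp

theorem Hyp.pd_QQ_not {c : X → K} (hc : ∀ q, c (h.bar q) = c q) {e : X → σ} {u : σ}
    (hu : u ∉ range e) : pd u (h.QQ c fun a => (z (e a) : O p K σ)) = 0 := by
  rw [h.der_QQ hc]
  exact Finset.sum_eq_zero fun a _ => by rw [pd_z_ne fun h => hu ⟨a, h.symm⟩, zero_mul]

omit [Fintype X] in
theorem span_smul {c : K} (hc : IsUnit c) (x : A) : Ideal.span {c • x} = Ideal.span {x} := by
  rw [Algebra.smul_def]
  exact Ideal.span_singleton_mul_left_unit (hc.map _) x

omit [Fact ((p : K) = 0)] in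
theorem Hyp.JM_bot (fl : Flt Fl) {N : ℕ} (hN : Fl N = ⊥) (r : X → A) :
    ∃ n, ∀ q, h.JM m Fl r n q = ⊥ := by
  obtain ⟨B, hB⟩ := (finite_range fun x : X × X => (N : ℤ) - h.mw x.1 x.2).bddAbove
  refine ⟨B.toNat, fun q => le_bot_iff.1 (iSup_le fun a => Ideal.mul_le_right.trans
    (inf_le_right.trans ((fl.anti ?_).trans hN.le)))⟩
  have := hB ⟨(q, a), rfl⟩
  simp only at this
  omega

/-- **the weighted Morse lemma** -/
theorem Hyp.morse [Fact p.Prime] (fl : Flt Fl) {N : ℕ} (hN : Fl N = ⊥) (hp : ∀ x ∈ m, x ^ p = 0)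
    {c : X → K} (hc : ∀ q, c (h.bar q) = c q) (hu : ∀ q, IsUnit (c q)) {r : X → A}
    (hr : ∀ q, r q ∈ m) {P : A}
    (hP : P ∈ ⨆ a, h.JM m Fl r 0 (h.bar a) * Ideal.span {r a}) :
    ∃ ρ : X → A, (∀ q, ρ q - r q ∈ h.JM m Fl r 0 q) ∧ h.QQ c ρ = h.QQ c r + P := by
  classical
  let φ : O p K X →ₐ[K] A := lift r fun q => hp _ (hr q)
  have hz : ∀ q, φ (z q) = r q := fun q => lift_z _ _ _
  have hd : ∀ q, φ (pd q (h.QQ c z)) = c q • r (h.bar q) := fun q => by
    rw [show pd q (h.QQ c z) = _ from h.pd_QQ hc injective_id q, map_smul, hz, id]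
  have hE : ∀ k a, h.JM m Fl r k (h.bar a) * Ideal.span {r a} ≤
      EE (h.JM m Fl r k) (fun q => φ (pd q (h.QQ c z))) ⊥ := fun k a => by
    have := le_EE (h.JM m Fl r k) (fun q => φ (pd q (h.QQ c z))) ⊥ (h.bar a)
    rwa [hd, span_smul (hu _), h.bb] at this
  obtain ⟨n, hn⟩ := h.JM_bot (m := m) fl hN r
  obtain ⟨ψ, h1, h2⟩ := toug_w (GO := triv K _) (G := triv K A) (d := fun _ => ()) (D := ())
    (fun _ => rfl) (W := h.QQ c z) rfl (I := fun _ => m) (fun _ => hp) (J := h.JM m Fl r) (H := ⊥)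
    (fun _ _ => triv_id _) (triv_id _)
    (fun k q => iSup_mono fun a => Ideal.mul_mono_right (WW_le fl le_rfl (by omega)))
    (fun q => iSup_le fun a => Ideal.mul_le_left.trans
      ((Ideal.span_singleton_le_iff_mem _).2 (hr a))) (φ := φ) (fun q => ⟨rfl, hz q ▸ hr q⟩)
    (fun k x y => by
      rcases eq_or_ne y (h.bar x) with rfl | hy
      · exact Ideal.mul_le_left.trans (h.JM_mul fl r k x (hE _))
      · rw [show pd y (h.QQ c z) = _ from h.pd_QQ hc injective_id y, Derivation.map_smul, id,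
          pd_z_ne (by rintro rfl; exact hy (h.bb y).symm), smul_zero, Car_zero, Ideal.mul_bot]
        exact bot_le) (P := P) rfl (iSup_le (hE 0) hP) n
  refine ⟨fun q => ψ (z q), fun q => hz q ▸ (h1 q).2, ?_⟩
  simp only [EE, hn, Ideal.bot_mul, iSup_bot, sup_bot_eq, Ideal.mem_bot, h.map_QQ, hz] at h2
  linear_combination h2

end Crest.Agent.N255.Tg

end
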