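import Crest.Agent.N255.Sl.All

/-! Row 255 (helper23, after helper56's `Sl/All`): step 2 with weighted direct rows. -/

set_option autoImplicit false

noncomputable section

namespace Crest.Agent.N255.Tg

open _root_.N255.Sl

variable {K A A0 : Type*} [Field K] [CommRing A] [CommRing A0] [Algebra K A] [Algebra K A0]
  {κ α ι : Type*} {Z : Zn A κ α ι} {π : A →ₐ[K] A0} {W0 : ℕ → Ideal A0}

/-- The data of step 2.  `Ψ` is the value of the action after step 1.  Generators `E a` are of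
three types: `Ea a` (coefficient of an auxiliary variable), Gaussian (`aX q`, read off from the
derivative `DX q`), or directly detected. -/
structure TwoW (Z : Zn A κ α ι) (π : A →ₐ[K] A0) (W0 : ℕ → Ideal A0) (H : Ideal A) (Ψ : A)
    (T0 : Ideal A0) (X : Type*) [Fintype X] [DecidableEq X] where
  fl : Fl W0
  bot : ∃ n, W0 n = ⊥
  aug : ∀ r : A0, ∃ c : K, r - algebraMap K A0 c ∈ W0 Z.μ
  hW : ∀ n, ∀ f ∈ Z.Wt n, π f ∈ W0 n
  hε : ∀ b, π (Z.ε b) = 0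
  hE : ∀ b, π (Z.E b) ∈ W0 Z.μ
  Ea : α → Prop
  D : α → Derivation K A A
  D0 : ∀ a, Ea a → ∀ b, b ≠ a → π (D a (Z.ε b)) = 0
  D1 : ∀ a, Ea a → π (D a (Z.ε a)) = 1
  DE : ∀ a, Ea a → ∀ b, π (D a (Z.E b)) ∈ W0 Z.μ
  DΨ : ∀ a, Ea a → W0 (Z.pa a - 3 * Z.γ) * Ideal.span {π (D a Ψ)} ≤ T0
  DH : ∀ a, Ea a → ∀ r ∈ H, W0 (Z.pa a - 3 * Z.γ) * Ideal.span {π (D a r)} ≤ T0
  aX : X → α
  pX : ∀ q, Z.pa (aX q) ≤ 3 * Z.γ
  DX : X → Derivation K A A
  X0 : ∀ q b, π (DX q (Z.ε b)) = 0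
  XΨ : ∀ q, π (DX q Ψ) ∈ T0
  XH : ∀ q, ∀ r ∈ H, π (DX q r) ∈ T0
  lam : X → A0 →ₗ[K] K
  Jm : Ideal A0
  lJ : ∀ q, ∀ f ∈ Jm, lam q f = 0
  J1 : ∀ b, b ∉ Set.range aX → W0 (Z.pa b - 3 * Z.γ) * Ideal.span {π (Z.E b)} ≤ Jm
  J2 : W0 Z.μ * W0 Z.μ ≤ Jm
  J3 : ∀ q, ∀ r ∈ H, π (DX q r) ∈ Jm
  un : IsUnit (Matrix.of fun q q' => lam q' (π (DX q Ψ))).det
  dir : ∀ a, ¬ Ea a → a ∉ Set.range aX → π (Z.E a) ∈ T0 ⊔ Z.At0 π W0 a ∨
    W0 (Z.pa a - 3 * Z.γ) ≤ T0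

/-- **Step 2**: the located ideal is detected -/
theorem step2w [Fintype α] (h : Z.Ok) {H : Ideal A} {Ψ : A} {T0 : Ideal A0} {X : Type*}
    [Fintype X] [DecidableEq X] (t : TwoW Z π W0 H Ψ T0 X)
    (hΨ : Ψ - ∑ b, Z.ε b * Z.E b ∈ Z.Rs ⊔ H) : Z.Loc0 π W0 ≤ T0 := by
  classical
  have g := h.gap
  obtain ⟨n, hn⟩ := t.bot
  let E0 : α → A0 := fun a => π (Z.E a)
  let Q : α → Ideal A0 := fun a => T0.colon (W0 (Z.pa a - 3 * Z.γ))
  have hQ : ∀ a, W0 (Z.pa a - 3 * Z.γ) * Q a ≤ T0 := fun a => Ideal.mul_le.2 fun u hu v hv => by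
    rw [mul_comm]; exact Submodule.mem_colon.1 hv u hu
  have hQ' : ∀ a f, W0 (Z.pa a - 3 * Z.γ) * Ideal.span {f} ≤ T0 → f ∈ Q a := fun a f hf =>
    Submodule.mem_colon.2 fun u hu => by
      rw [smul_eq_mul, mul_comm]
      exact hf (Ideal.mul_mem_mul hu (Ideal.mem_span_singleton_self _))
  have hT : ∀ a, T0 ≤ Q a := fun a f hf => hQ' a f
    (Ideal.mul_le_right.trans ((Ideal.span_singleton_le_iff_mem _).2 hf))
  let C1 : Ideal A0 := Cb W0 (fun b => Z.pa b - 3 * Z.γ + 1) E0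
  let At : α → Ideal A0 := fun a =>
    Cb W0 (fun b => max (Z.pa b) (3 * Z.γ) - max (Z.pa a) (3 * Z.γ) + 1) E0
  have r1 : ∀ a, a ∉ Set.range t.aX → E0 a ∈ Q a ⊔ At a := fun a ha => by
    have m1 : Z.At0 π W0 a ≤ At a := t.fl.Cb_mono fun b => by omega
    by_cases hE : t.Ea a
    · obtain ⟨r, hr, e⟩ := h.row t.fl t.hW t.hε (t.D0 a hE) (t.D1 a hE)
        (fun b => ⟨t.hE b, t.DE a hE b⟩) hΨ
      have := sub_mem (Ideal.mem_sup_left (T := At a) (sub_mem (hQ' a _ (t.DΨ a hE))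
        (hQ' a _ (t.DH a hE r hr)))) (Ideal.mem_sup_right (m1 e))
      simpa using this
    · rcases t.dir a hE ha with h1 | h1
      · exact sup_le_sup (hT a) m1 h1
      · exact Ideal.mem_sup_left (hQ' a _ (Ideal.mul_le_left.trans h1))
  let N' : Ideal A0 := ⨆ (b) (_ : b ∉ Set.range t.aX), W0 (Z.pa b - 3 * Z.γ) * Ideal.span {E0 b}
  let N : Ideal A0 := N' ⊔ W0 Z.μ * Z.Loc0 π W0
  have hL : Z.Loc0 π W0 ≤ W0 Z.μ :=
    Cb_le_span.trans (Ideal.span_le.2 (by rintro _ ⟨b, rfl⟩; exact t.hE b))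
  have hNJ : N ≤ t.Jm := sup_le (iSup₂_le fun b hb => t.J1 b hb) ((Ideal.mul_mono_right hL).trans t.J2)
  have hN : N ≤ T0 ⊔ C1 := by
    refine sup_le (iSup₂_le fun b hb => ?_) (le_sup_of_le_right (t.fl.mul_Cb fun b => by omega))
    refine (Ideal.mul_mono_right ((Ideal.span_singleton_le_iff_mem _).2 (r1 b hb))).trans ?_
    rw [Ideal.mul_sup]
    exact sup_le_sup (hQ b) (t.fl.mul_Cb fun b => by omega)
  have hS : ∀ f ∈ Z.Loc0 π W0, ∃ b : X → K, f - ∑ q, b q • E0 (t.aX q) ∈ N := fun f hf => by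
    induction hf using Submodule.iSup_induction' with
    | mem a f hf =>
      by_cases ha : a ∈ Set.range t.aX
      · obtain ⟨q, rfl⟩ := ha
        obtain ⟨u, hu, rfl⟩ := Ideal.mem_mul_span_singleton.1 hf
        obtain ⟨c, hc⟩ := t.aug u
        refine ⟨Pi.single q c, Ideal.mem_sup_right ?_⟩
        have e1 : ∑ q', (Pi.single q c : X → K) q' • E0 (t.aX q') = c • E0 (t.aX q) := by
          simp [Pi.single_apply]
        have e2 : u * E0 (t.aX q) - c • E0 (t.aX q) = (u - algebraMap K A0 c) * E0 (t.aX q) := by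
          rw [Algebra.smul_def, sub_mul]
        rw [e1]
        exact e2 ▸ Ideal.mul_mem_mul hc (t.fl.span_le_Cb (g := fun a => Z.pa a - 3 * Z.γ)
          (x := E0) (Nat.sub_eq_zero_of_le (t.pX q)) (Ideal.mem_span_singleton_self _))
      · exact ⟨0, by simpa using Ideal.mem_sup_left (Ideal.mem_iSup_of_mem a
          (Ideal.mem_iSup_of_mem ha hf))⟩
    | zero => exact ⟨0, by simp⟩
    | add f f' _ _ h1 h2 =>
      obtain ⟨b, hb⟩ := h1
      obtain ⟨b', hb'⟩ := h2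
      refine ⟨b + b', ?_⟩
      convert add_mem hb hb' using 1
      simp only [Pi.add_apply, add_smul, Finset.sum_add_distrib]
      ring
  obtain ⟨f, hf, r, hr, e⟩ := Submodule.mem_sup.1 hΨ
  have eG : ∀ q, π (t.DX q f) = π (t.DX q Ψ) - π (t.DX q r) := fun q => by
    have e2 : Ψ = f + r + ∑ b, Z.ε b * Z.E b := by rw [e]; ring
    have e3 := congrArg (fun x => π (t.DX q x)) e2
    simp only [map_add, map_sum, Derivation.leibniz, smul_eq_mul, map_mul, t.hε, t.X0, zero_mul,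
      mul_zero, add_zero, Finset.sum_const_zero] at e3
    rw [e3]; ring
  have r2 : ∀ q, E0 (t.aX q) ∈ T0 ⊔ C1 := fun q => by
    have := gauss (g := fun q => E0 (t.aX q)) (G := fun q => π (t.DX q f)) t.lam
      (fun q f hf => t.lJ q f (hNJ hf)) (fun q => hS _ (Zn.der_Rs' t.hW t.hε (t.X0 q) hf))
      (by simpa only [eG, map_sub, fun q q' => t.lJ q' _ (t.J3 q r hr), sub_zero] using t.un) q
    refine (sup_le (le_sup_of_le_left (Ideal.span_le.2 ?_)) hN : _ ≤ _) this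
    rintro _ ⟨q, rfl⟩
    simp only [eG]
    exact sub_mem (t.XΨ q) (t.XH q r hr)
  have key := t.fl.neu hn (pa := fun a => max (Z.pa a) (3 * Z.γ)) (E := E0) (Q := Q) (fun a => by
    by_cases ha : a ∈ Set.range t.aX
    · obtain ⟨q, rfl⟩ := ha
      exact sup_le_sup (hT _) (t.fl.Cb_mono fun b => by omega) (r2 q)
    · exact r1 a ha) (3 * Z.γ)
  refine (t.fl.Cb_mono fun b => by omega).trans (key.trans (iSup_le fun a => le_trans ?_ (hQ a)))
  exact Ideal.mul_mono_left (t.fl.anti (by omega))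

end Crest.Agent.N255.Tg

end
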