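import Crest.Agent.N255.Tg.PA
import Crest.Agent.N255.Tg.TwoW

/-!
# Row 255 (helper23): located identity over `V ⊕ far` gives `VxH` (steps 2 and A)
-/

set_option autoImplicit false
open Set Function Sum

noncomputable section

namespace Crest.Agent.N255.Tg

open _root_.N255.Dr _root_.N255.Dr.O
open _root_.N255.Core (Wall Ok Xi Hi lin vw yi VxH)
open _root_.N255.Sl (Zn)

section Adic

variable {p : ℕ} {K : Type} [CommRing K] {σ τ : Type} [Fintype σ] [Fintype τ]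

/-- the adic filtration with step `μ` -/
def Wm (p : ℕ) (K σ : Type) [CommRing K] [Fintype σ] (μ n : ℕ) : Ideal (O p K σ) :=
  Ge p K (fun _ => μ) n

theorem fl_Wm (μ : ℕ) : _root_.N255.Sl.Fl (Wm p K σ μ) where
  zero := (flt_Ge _).zero
  anti h := (flt_Ge _).anti (by omega)
  mul a b := (flt_Ge _).mul_le le_rfl le_rfl (by omega)

theorem mx_le_Ge' {F : σ → ℕ} {n : ℤ} (h : ∀ v, n ≤ F v) : mx ≤ Ge p K F n :=
  Ideal.span_le.2 (by rintro _ ⟨i, rfl⟩; exact (flt_Ge F).anti (h i) (z_mem_Ge F i))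

theorem sq_le_Ge {F : σ → ℕ} {μ : ℕ} (h : ∀ v, μ ≤ F v) {n : ℤ} (hn : n ≤ 2 * μ) :
    mx ^ 2 ≤ Ge p K F n := by
  have : mx ≤ Ge p K F μ := mx_le_Ge' fun v => by have := h v; omega
  rw [sq]; exact (flt_Ge F).mul_le this this (by omega)

theorem mx_le_Wm (μ : ℕ) : mx ≤ Wm p K σ μ μ := mx_le_Ge' fun _ => le_rfl

theorem map_Wm {μ n : ℕ} {ψ : O p K σ →ₐ[K] O p K τ} (h : ∀ v, ψ (z v) ∈ mx) {f : O p K σ}
    (hf : f ∈ Wm p K σ μ n) : ψ f ∈ Wm p K τ μ n :=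
  map_Ge (flt_Ge _) (fun v => mx_le_Wm μ (h v)) hf

variable [Fact p.Prime] [Fact ((p : K) = 0)]

/-- only the linear part matters below twice the minimal weight -/
theorem mem_Ge_of_lin {F : σ → ℕ} {μ : ℕ} (h : ∀ v, μ ≤ F v) {n : ℤ} (hn : n ≤ 2 * μ)
    {f : O p K σ} (hf : f ∈ mx) (hl : ∀ v, (F v : ℤ) < n → pd v f ∈ mx) : f ∈ Ge p K F n := by
  classical
  refine mem_Ge.2 fun a ha => ?_
  induction a using pi_ind with
  | h0 => exact absurd ((cf_zero f).trans (mem_mx.1 hf)) ha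
  | h a j ih =>
    clear ih
    induction a using pi_ind with
    | h0 =>
      by_contra h1
      rw [zero_add, wt_single] at h1
      exact cf_pd_ne.2 ha ((cf_zero _).trans (mem_mx.1 (hl j (by omega))))
    | h a i _ =>
      have := h i; have := h j
      simp only [wt_add, wt_single]; omega

/-- elements of `mx` without linear terms in the variables of `S` -/
def Lz (p : ℕ) [Fact p.Prime] (K : Type) [CommRing K] [Fact ((p : K) = 0)] {σ : Type} (S : Set σ) :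
    Ideal (O p K σ) where
  carrier := {f | f ∈ mx ∧ ∀ v ∈ S, aug (pd v f) = 0}
  add_mem' h h' := ⟨add_mem h.1 h'.1, fun v hv => by simp [h.2 v hv, h'.2 v hv]⟩
  zero_mem' := ⟨zero_mem _, fun _ _ => by simp⟩
  smul_mem' a f h := ⟨Ideal.mul_mem_left _ _ h.1, fun v hv => by
    simp [Derivation.leibniz, mem_mx.1 h.1, h.2 v hv]⟩

omit [Fintype σ] in
theorem mm_Lz (S : Set σ) : mx * mx ≤ Lz p K S := fun _ hf => ⟨Ideal.mul_le_left hf, fun x _ =>
  mem_mx.1 (pd_sq (sq (mx : Ideal (O p K σ)) ▸ hf) x)⟩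

end Adic

variable {p : ℕ} [Fact p.Prime] {Γ : Type} [AddCommGroup Γ] {δ : Γ} {s : Fin 3 → Type}
  [∀ i, Fintype (s i)] {w : ∀ i, Wall p Γ δ (s i)} {t : Fin 3 → Bool} {V B : Type} [Fintype V]
  [Fintype B]

omit [Fintype V] [Fintype B] in
theorem pz_mx (u : V ⊕ B) : pz p V B (z u) ∈ mx := by
  rcases u with x | b
  · rw [pz_inl]; exact z_mem _
  · rw [pz_inr]; exact zero_mem _

theorem pd_pz (x : V) (f : O p (ZMod p) (V ⊕ B)) : pd x (pz p V B f) = pz p V B (pd (inl x) f) := by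
  classical
  rw [chain, Finset.sum_eq_single (inl x) (by
    rintro (y | b) - hy
    · rw [pz_inl, pd_z_ne (by rintro rfl; exact hy rfl), smul_zero]
    · rw [pz_inr, map_zero, smul_zero]) (by simp)]
  simp

/-- the variables `m` -/
abbrev Xm (w : ∀ i, Wall p Γ δ (s i)) (t : Fin 3 → Bool) : Type := {q : Xi w t // q.1.2 = true}

/-- A located vertex identity over the ring with the far variables `B`. -/
structure PVxZ (w : ∀ i, Wall p Γ δ (s i)) (t : Fin 3 → Bool) (N La : ℕ) (V B κ α ι : Type)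
    [Fintype V] [Fintype B] [Fintype α] where
  em : (Σ i, s i) × Bool → V
  inj : Set.InjOn em {q | Ok w t q}
  FV : V → ℕ
  hF : ∀ i x, Ok w t (⟨i, x⟩, false) → FV (em (⟨i, x⟩, false)) = N + (w i).F x
  hm : ∀ i x, Ok w t (⟨i, x⟩, true) → 0 < FV (em (⟨i, x⟩, true)) ∧ FV (em (⟨i, x⟩, true)) ≤ La
  pos : ∀ i x, 0 < N + (w i).F x
  hLa : 0 < La
  om : Fin 3 → V → ℕ
  om_le : ∀ i v, om i v ≤ FV v
  om_em : ∀ i x, Ok w t (⟨i, x⟩, false) → om i (em (⟨i, x⟩, false)) = N + (w i).F x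
  Bad : Finset V
  cheap : ∀ i q, Ok w t q → q.1.1 ≠ i → em q ∉ Bad → 3 * om i (em q) ≤ FV (em q)
  bad : ∀ q : Xi w t, em q.1 ∈ Bad
  small : 4 * (p * ∑ v ∈ Bad, FV v) < La
  ob : Fin 3 → B → ℕ
  io : ∀ i, O p (ZMod p) (s i) →ₐ[ZMod p] O p (ZMod p) (V ⊕ B)
  near : ∀ i x, (w i).kd x ≠ some (!t i) →
    Hi (Sum.elim (om i) (ob i)) (N + (w i).F x) (io i (z x) - z (inl (em (⟨i, x⟩, false))))
  far : ∀ i x, (w i).kd x = some (!t i) → Hi (Sum.elim (om i) (ob i)) (N + (w i).F x) (io i (z x))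
  hy : ∀ i x, (w i).kd x = none → io i (z x) - z (inl (em (⟨i, x⟩, false))) ∈
    Ideal.span {f | ∃ y, (w i).kd y = none ∧ f = z (inl (em (⟨i, y⟩, false)))} * mx
  c : ∀ i, s i → ZMod p
  hc : ∀ i x, t i = false → (w i).kd x = none → c i x ≠ 0
  Ps : O p (ZMod p) V
  Ps2 : Ps ∈ (mx : Ideal (O p (ZMod p) V)) ^ 2
  hPs : Ps ∈ _root_.N255.Core.Ge (vw w t La em FV) (3 * La)
  Z : Zn (O p (ZMod p) (V ⊕ B)) κ α ι
  ok : Z.Ok
  hW : ∀ n, ∀ f ∈ Z.Wt n, pz p V B f ∈ Wm p (ZMod p) V Z.μ n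
  N1 : ℕ
  lt1 : Z.μ < N1
  le1 : N1 ≤ 2 * Z.μ
  lo : ∀ i v, Z.μ ≤ om i v
  fm : ∀ q : Xm w t, FV (em q.1.1) ≤ Z.μ
  fv : ∀ v, (∀ q : Xm w t, v ≠ em q.1.1) → Z.μ < FV v
  fy : ∀ q : Xi w t, FV (em q.1) < 2 * Z.μ
  be : B → α
  be_inj : Injective be
  eps : ∀ b, Z.ε (be b) = z (inr b)
  eps0 : ∀ a, a ∉ range be → Z.ε a = 0
  hob : ∀ i b, ob i b ≤ N1 + (Z.pa (be b) - 3 * Z.γ)
  hE : ∀ a, pz p V B (Z.E a) ∈ mx
  DE : ∀ b a, pz p V B (pd (inr b) (Z.E a)) ∈ mx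
  G2 : GA w t io Ps ∈ mx ^ 2
  Gm : ∀ q : Xm w t, pd (inl (em q.1.1)) (GA w t io Ps) ∈ mx ^ 2
  iso : ∀ b b', pd (inr b) (pd (inr b') (GA w t io Ps)) ∈ mx
  hD : ∀ i b, pz p V B (pd (inr b) (GA w t io Ps)) ∈ Ge p (ZMod p) (om i) N1
  HS : Ideal (O p (ZMod p) (V ⊕ B))
  K : Ideal (O p (ZMod p) V)
  H : Ideal (O p (ZMod p) V)
  SH : ∀ r ∈ HS, pz p V B r ∈ H
  SK : ∀ r ∈ HS, ∀ b, Wm p (ZMod p) V Z.μ (Z.pa (be b) - 3 * Z.γ) *
    Ideal.span {pz p V B (pd (inr b) r)} ≤ K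
  hK1 : ∀ i, K ≤ Ge p (ZMod p) (om i) N1
  hKq : ∀ q : Xi w t, K ≤ Ge p (ZMod p) FV (FV (em q.1) + 1)
  KK : K * K ≤ H
  HK : ∀ R ∈ H, ∀ q : Xi w t, pd (em q.1) R ∈ K
  H2 : H ≤ mx ^ 2
  Hw : ∀ R ∈ H, Hi (vw w t La em FV) (3 * La) R
  aX : Xm w t → α
  pX : ∀ q, Z.pa (aX q) ≤ 3 * Z.γ
  J1 : ∀ a, a ∉ range be → a ∉ range aX → Z.pa a ≤ 3 * Z.γ →
    ∀ q : Xm w t, lin (em q.1.1) (pz p V B (Z.E a)) = 0
  dir : ∀ a, a ∉ range be → a ∉ range aX → pz p V B (Z.E a) ∈ (sp fun q : Xi w t =>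
      pz p V B (pd (inl (em q.1)) (Ga w t c (fun q => z (inl (em q))) + GA w t io Ps))) ⊔ K ⊔
    Z.At0 (pz p V B) (Wm p (ZMod p) V Z.μ) a ∨ Wm p (ZMod p) V Z.μ (Z.pa a - 3 * Z.γ) ≤ K
  id : Ga w t c (fun q => z (inl (em q))) + GA w t io Ps - ∑ a, Z.ε a * Z.E a ∈ Z.Rs ⊔ HS

namespace PVxZ

variable {N La : ℕ} {κ α ι : Type} [Fintype α] (v : PVxZ w t N La V B κ α ι)

/-- the vertex potential -/
abbrev Phi : O p (ZMod p) (V ⊕ B) := Ga w t v.c (fun q => z (inl (v.em q))) + GA w t v.io v.Ps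

/-- the detected ideal -/
def T0 : Ideal (O p (ZMod p) V) :=
  (⨆ b, Wm p (ZMod p) V v.Z.μ (v.Z.pa (v.be b) - 3 * v.Z.γ) *
    Ideal.span {pz p V B (pd (inr b) v.Phi)}) ⊔
  (sp fun q : Xi w t => pz p V B (pd (inl (v.em q.1)) v.Phi)) ⊔ v.K

theorem mu_pos : 0 < v.Z.μ := by have := v.ok.gap; omega

theorem lo' (x : V) : v.Z.μ ≤ v.FV x := (v.lo 0 x).trans (v.om_le 0 x)

theorem em_inj : Injective fun q : Xi w t => v.em q.1 := fun q q' h =>
  Subtype.ext (v.inj (xi_ok q) (xi_ok q') h)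

theorem eQ : Ga w t v.c (fun q => (z (inl (v.em q)) : O p (ZMod p) (V ⊕ B))) =
    (hyp w t fun q => v.FV (v.em q)).QQ (fun q => v.c q.1.1.1 q.1.1.2)
      fun q => z (inl (v.em q.1)) := (QQ_eq _ v.c fun q => z (inl (v.em q))).symm

theorem pd_b (b : B) : pd (inr b) v.Phi = pd (inr b) (GA w t v.io v.Ps) := by
  rw [map_add, eQ, Hyp.pd_QQ_not _ (fun _ => rfl) (by simp), zero_add]

theorem pd_q (q : Xi w t) : pd (inl (v.em q.1)) v.Phi =
    v.c q.1.1.1 q.1.1.2 • z (inl (v.em (bar q).1)) + pd (inl (v.em q.1)) (GA w t v.io v.Ps) := by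
  have he : Injective fun q : Xi w t => (inl (v.em q.1) : V ⊕ B) := inl_injective.comp v.em_inj
  rw [map_add, eQ, Hyp.pd_QQ _ (fun _ => rfl) he]; rfl

theorem Gm' (q : Xm w t) (u : V ⊕ B) : pd (inl (v.em q.1.1)) (pd u (GA w t v.io v.Ps)) ∈ mx := by
  rw [pd_comm]; exact pd_sq (v.Gm q) u

theorem eps_pz (a : α) : pz p V B (v.Z.ε a) = 0 := by
  by_cases h : a ∈ range v.be
  · obtain ⟨b, rfl⟩ := h; rw [v.eps, pz_inr]
  · rw [v.eps0 a h, map_zero]

theorem D0 (b : B) (a : α) (ha : a ≠ v.be b) : pz p V B (pd (inr b) (v.Z.ε a)) = 0 := by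
  by_cases h : a ∈ range v.be
  · obtain ⟨b', rfl⟩ := h
    rw [v.eps, pd_z_ne (by rintro ⟨⟩; exact ha rfl), map_zero]
  · rw [v.eps0 a h, map_zero, map_zero]

theorem K_Lz : v.K ≤ Lz p (ZMod p) (range fun q : Xm w t => v.em q.1.1) := fun _ hf =>
  ⟨Ge_le_mx (by have := v.lt1; omega) (v.hK1 0 hf), by
    rintro _ ⟨q, rfl⟩
    exact mem_mx.1 (Ge_le_mx (by omega) (pd_Ge (v.hKq q.1 hf) (v.em q.1.1)))⟩

theorem E_Lz (b : B) (hb : v.Z.pa (v.be b) ≤ 3 * v.Z.γ) :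
    pz p V B (v.Z.E (v.be b)) ∈ Lz p (ZMod p) (range fun q : Xm w t => v.em q.1.1) := by
  obtain ⟨r, hr, e⟩ := v.ok.row (D := pd (inr b)) (fl_Wm _) v.hW v.eps_pz (v.D0 b)
    (by rw [v.eps]; simp) (fun a => ⟨mx_le_Wm _ (v.hE a), mx_le_Wm _ (v.DE b a)⟩) v.id
  have h1 : pz p V B (pd (inr b) v.Phi) ∈ Lz p (ZMod p) (range fun q : Xm w t => v.em q.1.1) := by
    rw [pd_b]
    refine ⟨map_mx _ pz_mx (pd_sq v.G2 _), ?_⟩
    rintro _ ⟨q, rfl⟩
    rw [pd_pz]; exact mem_mx.1 (map_mx _ pz_mx (v.Gm' q _))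
  have h2 : v.Z.At0 (pz p V B) (Wm p (ZMod p) V v.Z.μ) (v.be b) ≤
      Lz p (ZMod p) (range fun q : Xm w t => v.em q.1.1) :=
    _root_.N255.Sl.Cb_le fun a => (Ideal.mul_mono (Ge_le_mx (by omega))
      ((Ideal.span_singleton_le_iff_mem _).2 (v.hE a))).trans (mm_Lz _)
  have h3 := (fl_Wm v.Z.μ).top (Nat.sub_eq_zero_of_le hb) _ |>.trans (v.SK r hr b)
  have := sub_mem (sub_mem h1 (v.K_Lz (h3 (Ideal.mem_span_singleton_self _)))) (h2 e)
  rwa [sub_sub_cancel] at this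

open Classical in
/-- the data of step 2 -/
def two : TwoW v.Z (pz p V B) (Wm p (ZMod p) V v.Z.μ) v.HS v.Phi v.T0 (Xm w t) where
  fl := fl_Wm _
  bot := by
    obtain ⟨n, hn⟩ := Ge_bot (p := p) (K := ZMod p) fun _ : V => v.Z.μ
    exact ⟨n, hn n le_rfl⟩
  aug r := ⟨_, mx_le_Wm _ (sub_aug_mem r)⟩
  hW := v.hW
  hε := v.eps_pz
  hE a := mx_le_Wm _ (v.hE a)
  Ea a := a ∈ range v.be
  D := extend v.be (fun b => pd (inr b)) 0
  D0 := by rintro _ ⟨b, rfl⟩ a ha; rw [v.be_inj.extend_apply]; exact v.D0 b a ha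
  D1 := by rintro _ ⟨b, rfl⟩; rw [v.be_inj.extend_apply, v.eps]; simp
  DE := by rintro _ ⟨b, rfl⟩ a; rw [v.be_inj.extend_apply]; exact mx_le_Wm _ (v.DE b a)
  DΨ := by
    rintro _ ⟨b, rfl⟩
    rw [v.be_inj.extend_apply]
    exact le_sup_of_le_left (le_sup_of_le_left (le_iSup_of_le b le_rfl))
  DH := by
    rintro _ ⟨b, rfl⟩ r hr
    rw [v.be_inj.extend_apply]
    exact le_sup_of_le_right (v.SK r hr b)
  aX := v.aX
  pX := v.pX
  DX q := pd (inl (v.em (bar q.1).1))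
  X0 q a := by
    by_cases h : a ∈ range v.be
    · obtain ⟨b', rfl⟩ := h
      rw [v.eps, pd_z_ne (by simp), map_zero]
    · rw [v.eps0 a h, map_zero, map_zero]
  XΨ q := Ideal.mem_sup_left (Ideal.mem_sup_right
    (mem_sp (fun q : Xi w t => pz p V B (pd (inl (v.em q.1)) v.Phi)) (bar q.1)))
  XH q r hr := Ideal.mem_sup_right (pd_pz _ r ▸ v.HK _ (v.SH r hr) (bar q.1))
  lam q := (aug : O p (ZMod p) V →ₐ[ZMod p] _).toLinearMap ∘ₗ
    (pd (v.em q.1.1) : Derivation (ZMod p) (O p (ZMod p) V) _).toLinearMap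
  Jm := Lz p (ZMod p) (range fun q : Xm w t => v.em q.1.1)
  lJ q f hf := hf.2 _ ⟨q, rfl⟩
  J1 a ha := by
    by_cases h : v.Z.pa a ≤ 3 * v.Z.γ
    · refine Ideal.mul_le_right.trans ((Ideal.span_singleton_le_iff_mem _).2 ?_)
      by_cases h' : a ∈ range v.be
      · obtain ⟨b, rfl⟩ := h'; exact v.E_Lz b h
      · exact ⟨v.hE a, by rintro _ ⟨q, rfl⟩; exact v.J1 a h' ha h q⟩
    · exact (Ideal.mul_mono (Ge_le_mx (by omega))
        ((Ideal.span_singleton_le_iff_mem _).2 (v.hE a))).trans (mm_Lz _)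
  J2 := by
    have : Wm p (ZMod p) V v.Z.μ v.Z.μ ≤ mx := Ge_le_mx (by have := v.mu_pos; omega)
    exact (Ideal.mul_mono this this).trans (mm_Lz _)
  J3 q r hr := v.K_Lz (pd_pz _ r ▸ v.HK _ (v.SH r hr) (bar q.1))
  un := by
    rw [show (Matrix.of _ : Matrix (Xm w t) (Xm w t) (ZMod p)) =
      Matrix.diagonal fun q => v.c q.1.1.1.1 q.1.1.1.2 from ?_, Matrix.det_diagonal]
    · exact (Finset.prod_ne_zero_iff.2 fun q _ => v.hc _ _ q.1.2.1 q.1.2.2).isUnit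
    ext q q'
    have h1 := mem_mx.1 (map_mx (pz p V B) pz_mx (v.Gm' q' (inl (v.em (bar q.1).1))))
    rw [← pd_pz] at h1
    have h2 : v.em q'.1.1 = v.em q.1.1 ↔ q = q' := by
      rw [eq_comm]; exact v.em_inj.eq_iff.trans Subtype.coe_inj
    simp only [Matrix.of_apply, v.pd_q, map_add, map_smul, pz_inl, LinearMap.comp_apply,
      Derivation.coeFn_coe, AlgHom.toLinearMap_apply, h1, add_zero, Matrix.diagonal_apply,
      show bar (bar q.1) = q.1 from (hyp w t fun _ => 0).bb q.1, pd_z, h2]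
    split_ifs <;> simp [bar]
  dir a h1 h2 := (v.dir a h1 h2).imp
    (fun h => (sup_le_sup_right (sup_le_sup_right le_sup_right _) _ : _ ≤ v.T0 ⊔ _) h)
    fun h => le_sup_of_le_right h

open Classical in
/-- the two valued weight -/
def ot (x : V) : ℕ := if ∀ i, v.N1 ≤ v.om i x then v.N1 else v.Z.μ

theorem ot_lo (x : V) : v.Z.μ ≤ v.ot x := by have := v.lt1; unfold ot; split_ifs <;> omega

theorem ot_hi (x : V) : v.ot x ≤ v.N1 := by have := v.lt1; unfold ot; split_ifs <;> omega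

theorem ot_le (i : Fin 3) (x : V) : v.ot x ≤ v.om i x := by
  unfold ot
  split_ifs with h
  exacts [h i, v.lo i x]

theorem mem_ot {f : O p (ZMod p) V} (hf : ∀ i, f ∈ Ge p (ZMod p) (v.om i) v.N1) :
    f ∈ Ge p (ZMod p) v.ot v.N1 := by
  have := v.lt1
  refine mem_Ge_of_lin v.ot_lo (by have := v.le1; omega) (Ge_le_mx (by omega) (hf 0)) fun x hx => ?_
  obtain ⟨i, hi⟩ : ∃ i, v.om i x < v.N1 := by
    by_contra h
    rw [ot, if_pos fun i => not_lt.1 fun h' => h ⟨i, h'⟩] at hx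
    omega
  exact Ge_le_mx (by omega) (pd_Ge (hf i) x)

/-- the input of step A -/
def toA : PVxA w t N La V B :=
  { v with
    FB := fun b => v.N1 + (v.Z.pa (v.be b) - 3 * v.Z.γ)
    hG := fun q => hi_Ge.2 (by
      have hlo : ∀ u, v.Z.μ ≤ Sum.elim v.FV (fun b => v.N1 + (v.Z.pa (v.be b) - 3 * v.Z.γ)) u := by
        rintro (x | b)
        exacts [v.lo' x, by have := v.lt1; simp only [Sum.elim_inr]; omega]
      have h1 := v.fy (bar q)
      by_cases hq : q.1.2 = true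
      · exact sq_le_Ge hlo (by omega) (v.Gm ⟨q, hq⟩)
      have h2 := v.fm ⟨bar q, by simpa [bar] using hq⟩
      refine mem_Ge_of_lin hlo (by omega) (pd_sq v.G2 _) ?_
      rintro (x | b) hx
      · by_contra h3
        have := v.fv x (by rintro q' rfl; exact h3 (v.Gm' q' _))
        simp only [Sum.elim_inl] at hx h2
        omega
      · have := v.lt1
        simp only [Sum.elim_inr] at hx h2
        omega)
    hGq := fun q _ hq => v.Gm' ⟨q, hq⟩ _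
    hGb := fun q _ hq => v.Gm' ⟨q, hq⟩ _
    ot := fun _ => v.ot
    Po := fun _ q => by
      by_cases hq : q.1.2 = true
      · exact sq_le_Ge v.ot_lo (by have := v.ot_hi (v.em (bar q).1); have := v.le1; omega)
          (map_mx_pow _ pz_mx (v.Gm ⟨q, hq⟩))
      · refine mx_le_Ge' (fun x => ?_) (map_mx _ pz_mx (pd_sq v.G2 _))
        have h2 := v.fm ⟨bar q, by simpa [bar] using hq⟩
        have := v.ot_le 0 (v.em (bar q).1)
        have := v.om_le 0 (v.em (bar q).1)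
        have := v.ot_lo x
        simp only at h2
        omega
    C := fun b => Wm p (ZMod p) V v.Z.μ (v.Z.pa (v.be b) - 3 * v.Z.γ)
    iso := fun b b' => Or.inl (v.iso b b')
    mu := v.N1
    hC := fun b => Ge_mono v.lo' (by omega)
    L0 := Ge p (ZMod p) v.ot v.N1
    L := v.Z.Loc0 (pz p V B) (Wm p (ZMod p) V v.Z.μ)
    L' := v.Z.Loc0 (pz p V B) (Wm p (ZMod p) V v.Z.μ)
    h0 := le_inf (Ge_le_mx (by have := v.lt1; omega))
      (Ge_mono (fun x => (v.ot_le 0 x).trans (v.om_le 0 x)) le_rfl)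
    st := fun θ th => ⟨fun f => map_Ge (flt_Ge _) (th.om 0), fun b f => map_Wm th.mem⟩
    sh := fun i b => (flt_Ge _).mul_le (Ge_mono (v.ot_le i) le_rfl) (Ge_mono (v.lo i) le_rfl)
      (by have := v.hob i b; omega)
    hK0 := fun f hf => v.mem_ot fun i => v.hK1 i hf
    hKo := fun _ q f hf => (flt_Ge _).anti (by have := v.ot_hi (v.em q.1); omega)
      (v.mem_ot fun i => v.hK1 i hf)
    hL := le_rfl
    up := by
      classical
      refine (step2w v.ok v.two v.id).trans (sup_le (sup_le (iSup_le fun b => le_sup_of_le_left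
        (Ideal.mul_le_right.trans ((Ideal.span_singleton_le_iff_mem _).2 ?_))) le_sup_right)
        (le_sup_of_le_left fun f hf => v.mem_ot fun i => v.hK1 i hf))
      rw [pd_b]; exact v.mem_ot fun i => v.hD i b
    det := by classical exact step2w v.ok v.two v.id
    sq := by
      obtain ⟨a, ha, r, hr, e⟩ := Submodule.mem_sup.1 v.id
      have := congrArg (pz p V B) e
      simp only [map_sub, map_sum, map_mul, v.eps_pz, zero_mul, Finset.sum_const_zero,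
        sub_zero] at this
      rw [← this, map_add]
      exact Submodule.add_mem_sup (Zn.pi_Rs v.hW v.eps_pz ha) (v.SH r hr) }

/-- **the algebra of the producer after step B** -/
theorem vxH : ∃ u : VxH w t N La V, ∀ al : ∀ i, s i, (∀ i, (w i).kd (al i) = none) → u.cub al =
    aug (pd (v.em (⟨0, al 0⟩, !t 0)) (pd (v.em (⟨1, al 1⟩, !t 1)) (pd (v.em (⟨2, al 2⟩, !t 2)) v.Ps))) :=
  v.toA.vxH

end PVxZ

end Crest.Agent.N255.Tg

end
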