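import Crest.Agent.N255.Tg.PV

/-!
# Row 255 (helper23): step A (solving for the far variables) and the Morse lemma give `VxH`
-/

set_option autoImplicit false
open Set Function Sum

noncomputable section

namespace Crest.Agent.N255.Tg

open _root_.N255.Dr _root_.N255.Dr.O
open _root_.N255.Core (Wall Ok Xi Hi lin vw yi VxH)

variable {p : ℕ} [Fact p.Prime] {Γ : Type} [AddCommGroup Γ] {δ : Γ} {s : Fin 3 → Type}
  [∀ i, Fintype (s i)] {w : ∀ i, Wall p Γ δ (s i)} {t : Fin 3 → Bool} {V B : Type} [Fintype V]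
  [Fintype B]

/-- put the far variables equal to zero -/
def pz (p : ℕ) [Fact p.Prime] (V B : Type) : O p (ZMod p) (V ⊕ B) →ₐ[ZMod p] O p (ZMod p) V :=
  sub (Sum.elim z fun _ => 0) (by rintro (x | x); exacts [z_mem _, zero_mem _])

omit [Fintype V] [Fintype B] in
@[simp] theorem pz_inl (x : V) : pz p V B (z (inl x)) = z x := sub_z _ _ _

omit [Fintype V] [Fintype B] in
@[simp] theorem pz_inr (x : B) : pz p V B (z (inr x)) = 0 := sub_z _ _ _

omit [Fintype V] [Fintype B] in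
theorem map_rn_inl {ψ : O p (ZMod p) (V ⊕ B) →ₐ[ZMod p] O p (ZMod p) V}
    (h : ∀ x, ψ (z (inl x)) = z x) (f : O p (ZMod p) V) : ψ (rn inl f) = f :=
  AlgHom.congr_fun (hom_ext (f := ψ.comp (rn inl)) (g := AlgHom.id _ _) fun x => by simp [h]) f

/-- the non Gaussian part of the vertex potential -/
def GA {A : Type} (w : ∀ i, Wall p Γ δ (s i)) (t : Fin 3 → Bool)
    (io : ∀ i, O p (ZMod p) (s i) →ₐ[ZMod p] O p (ZMod p) (A ⊕ B)) (Ps : O p (ZMod p) A) :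
    O p (ZMod p) (A ⊕ B) :=
  ∑ i, (if t i = true then io i (w i).W else -io i (w i).W) + rn inl Ps

/-- the Gaussian part -/
def Ga {A : Type*} [CommRing A] [Algebra (ZMod p) A] (w : ∀ i, Wall p Γ δ (s i)) (t : Fin 3 → Bool)
    (c : ∀ i, s i → ZMod p) (ζ : (Σ i, s i) × Bool → A) : A :=
  ∑ i, ∑ x, if t i = false ∧ (w i).kd x = none then
    c i x • (ζ (⟨i, x⟩, false) * ζ (⟨i, x⟩, true)) else 0

/-- A vertex identity over the ring with the far variables `B`. -/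
structure PVxA (w : ∀ i, Wall p Γ δ (s i)) (t : Fin 3 → Bool) (N La : ℕ) (V B : Type) [Fintype V]
    [Fintype B] where
  em : (Σ i, s i) × Bool → V
  inj : Set.InjOn em {q | Ok w t q}
  FV : V → ℕ
  hF : ∀ i x, Ok w t (⟨i, x⟩, false) → FV (em (⟨i, x⟩, false)) = N + (w i).F x
  hm : ∀ i x, Ok w t (⟨i, x⟩, true) → 0 < FV (em (⟨i, x⟩, true)) ∧ FV (em (⟨i, x⟩, true)) ≤ La
  pos : ∀ i x, 0 < N + (w i).F x
  hLa : 0 < La
  om : Fin 3 → V → ℕ
  om_le : ∀ i v, om i v ≤ FV v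
  om_em : ∀ i x, Ok w t (⟨i, x⟩, false) → om i (em (⟨i, x⟩, false)) = N + (w i).F x
  Bad : Finset V
  cheap : ∀ i q, Ok w t q → q.1.1 ≠ i → em q ∉ Bad → 3 * om i (em q) ≤ FV (em q)
  bad : ∀ q : Xi w t, em q.1 ∈ Bad
  small : 4 * (p * ∑ v ∈ Bad, FV v) < La
  FB : B → ℕ
  ob : Fin 3 → B → ℕ
  io : ∀ i, O p (ZMod p) (s i) →ₐ[ZMod p] O p (ZMod p) (V ⊕ B)
  near : ∀ i x, (w i).kd x ≠ some (!t i) →
    Hi (Sum.elim (om i) (ob i)) (N + (w i).F x) (io i (z x) - z (inl (em (⟨i, x⟩, false))))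
  far : ∀ i x, (w i).kd x = some (!t i) → Hi (Sum.elim (om i) (ob i)) (N + (w i).F x) (io i (z x))
  hy : ∀ i x, (w i).kd x = none → io i (z x) - z (inl (em (⟨i, x⟩, false))) ∈
    Ideal.span {f | ∃ y, (w i).kd y = none ∧ f = z (inl (em (⟨i, y⟩, false)))} * mx
  c : ∀ i, s i → ZMod p
  hc : ∀ i x, t i = false → (w i).kd x = none → c i x ≠ 0
  Ps : O p (ZMod p) V
  Ps2 : Ps ∈ (mx : Ideal (O p (ZMod p) V)) ^ 2
  hPs : Ps ∈ _root_.N255.Core.Ge (vw w t La em FV) (3 * La)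
  hG : ∀ q : Xi w t, Hi (Sum.elim FV FB) (FV (em (bar q).1)) (pd (inl (em q.1)) (GA w t io Ps))
  hGq : ∀ q q' : Xi w t, q.1.2 = true → pd (inl (em q.1)) (pd (inl (em q'.1)) (GA w t io Ps)) ∈ mx
  hGb : ∀ (q : Xi w t) b, q.1.2 = true → pd (inl (em q.1)) (pd (inr b) (GA w t io Ps)) ∈ mx
  ot : Fin 3 → V → ℕ
  Po : ∀ i (q : Xi w t), pz p V B (pd (inl (em q.1)) (GA w t io Ps)) ∈
    Ge p (ZMod p) (ot i) (ot i (em (bar q).1))
  C : B → Ideal (O p (ZMod p) V)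
  iso : ∀ b b', pd (inr b) (pd (inr b') (GA w t io Ps)) ∈ mx ∨ C b * C b' ≤ mx
  mu : ℤ
  hC : ∀ b, C b ≤ Ge p (ZMod p) FV (FB b - mu)
  L0 : Ideal (O p (ZMod p) V)
  L : Ideal (O p (ZMod p) V)
  L' : Ideal (O p (ZMod p) V)
  K : Ideal (O p (ZMod p) V)
  H : Ideal (O p (ZMod p) V)
  h0 : L0 ≤ mx ⊓ Ge p (ZMod p) FV mu
  st : ∀ θ : O p (ZMod p) V →ₐ[ZMod p] O p (ZMod p) V, Th (fun q : Xi w t => em q.1) FV ot θ →
    (∀ f ∈ L0, θ f ∈ L0) ∧ ∀ b, ∀ f ∈ C b, θ f ∈ C b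
  sh : ∀ i b, L0 * C b ≤ Ge p (ZMod p) (om i) (ob i b)
  hK0 : K ≤ L0
  hKq : ∀ q : Xi w t, K ≤ Ge p (ZMod p) FV (FV (em q.1) + 1)
  hKo : ∀ i (q : Xi w t), K ≤ Ge p (ZMod p) (ot i) (ot i (em q.1))
  KK : K * K ≤ H
  HK : ∀ R ∈ H, ∀ q : Xi w t, pd (em q.1) R ∈ K
  H2 : H ≤ mx ^ 2
  Hw : ∀ R ∈ H, Hi (vw w t La em FV) (3 * La) R
  hL : L ≤ L'
  up : L ≤ L0 ⊔ sp fun q : Xi w t =>
    pz p V B (pd (inl (em q.1)) (Ga w t c (fun q => z (inl (em q))) + GA w t io Ps))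
  det : L' ≤ (⨆ b, C b * Ideal.span
      {pz p V B (pd (inr b) (Ga w t c (fun q => z (inl (em q))) + GA w t io Ps))}) ⊔
    (sp fun q : Xi w t =>
      pz p V B (pd (inl (em q.1)) (Ga w t c (fun q => z (inl (em q))) + GA w t io Ps))) ⊔ K
  sq : pz p V B (Ga w t c (fun q => z (inl (em q))) + GA w t io Ps) ∈ L * L' ⊔ H

namespace PVxA

variable {N La : ℕ} (v : PVxA w t N La V B)

theorem vw_pos (x : V) : 0 < vw w t La v.em v.FV x := by
  unfold vw
  split_ifs with h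
  · obtain ⟨i, y, hy, rfl⟩ := h
    rw [v.hF i y (ok_near hy)]; exact v.pos i y
  · exact v.hLa

/-- **step A**: the far variables are solved, the Gaussian variables are straightened -/
theorem main : ∃ (ψ : O p (ZMod p) (V ⊕ B) →ₐ[ZMod p] O p (ZMod p) V)
    (rho : O p (ZMod p) (Xi w t) →ₐ[ZMod p] O p (ZMod p) V) (Q : O p (ZMod p) (Xi w t))
    (R : O p (ZMod p) V), (∀ x, ψ (z (inl x)) = z x) ∧ (∀ b, ψ (z (inr b)) ∈ v.L0 * v.C b) ∧
    (∀ q : Xi w t, Hi v.FV (v.FV (v.em q.1)) (rho (z q) - z (v.em q.1))) ∧ Q ∈ mx ^ 2 ∧ R ∈ v.H ∧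
    ψ (Ga w t v.c (fun q => z (inl (v.em q))) + GA w t v.io v.Ps) + R = rho Q := by
  classical
  obtain ⟨P1, h1, R, hR, e1⟩ := Submodule.mem_sup.1 v.sq
  have heV : Injective fun q : Xi w t => v.em q.1 := fun q q' h =>
    Subtype.ext (v.inj (xi_ok q) (xi_ok q') h)
  have he : Injective fun q : Xi w t => (inl (v.em q.1) : V ⊕ B) := inl_injective.comp heV
  let κ : ℕ := Finset.univ.sup fun q : Xi w t => v.FV (v.em q.1) + 1
  have hκ : ∀ q : Xi w t, v.FV (v.em q.1) + 1 ≤ κ := fun q =>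
    Finset.le_sup (f := fun q : Xi w t => v.FV (v.em q.1) + 1) (Finset.mem_univ q)
  have hK : v.K ≤ Ge p (ZMod p) v.FV κ := by
    rcases isEmpty_or_nonempty (Xi w t) with h | h
    · simp [κ, (flt_Ge _).zero]
    · obtain ⟨q, -, hq⟩ := Finset.exists_mem_eq_sup Finset.univ Finset.univ_nonempty
        fun q : Xi w t => v.FV (v.em q.1) + 1
      rw [show κ = _ from hq]; exact v.hKq q
  have eQ : Ga w t v.c (fun q => (z (inl (v.em q)) : O p (ZMod p) (V ⊕ B))) =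
      (hyp w t fun q => v.FV (v.em q)).QQ (fun q => v.c q.1.1.1 q.1.1.2)
        fun q => z (inl (v.em q.1)) := (QQ_eq _ v.c fun q => z (inl (v.em q))).symm
  have pq : ∀ q : Xi w t, pd (inl (v.em q.1)) (GA w t v.io v.Ps - rn inl R) =
      pd (inl (v.em q.1)) (GA w t v.io v.Ps) - rn inl (pd (v.em q.1) R) := fun q => by
    rw [map_sub, pd_rn inl_injective]
  have pb : ∀ b : B, pd (inr b) (GA w t v.io v.Ps - rn inl R) = pd (inr b) (GA w t v.io v.Ps) :=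
    fun b => by rw [map_sub, pd_rn_not (by simp), sub_zero]
  have hX : (sp fun q : Xi w t => pz p V B (pd (inl (v.em q.1))
      (Ga w t v.c (fun q => z (inl (v.em q))) + GA w t v.io v.Ps))) ≤
      (sp fun q : Xi w t => v.c q.1.1.1 q.1.1.2 • z (v.em (bar q).1) +
        pz p V B (pd (inl (v.em q.1)) (GA w t v.io v.Ps - rn inl R))) ⊔ v.K := sp_le.2 fun q => by
    have := add_mem (Ideal.mem_sup_left (mem_sp (fun q : Xi w t => v.c q.1.1.1 q.1.1.2 •
      z (v.em (bar q).1) + pz p V B (pd (inl (v.em q.1)) (GA w t v.io v.Ps - rn inl R))) q))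
      (Ideal.mem_sup_right (v.HK R hR q))
    rw [pq, map_sub, map_rn_inl pz_inl, add_assoc, sub_add_cancel] at this
    rwa [map_add, map_add, eQ, Hyp.pd_QQ _ (fun _ => rfl) he, map_smul, pz_inl]
  obtain ⟨θ, ψ, ζ, th, a1, a2, a3, a4, a5⟩ := (hyp w t fun q => v.FV (v.em q)).vertex
    (FS := Sum.elim v.FV v.FB) (FV := v.FV) he heV (fun _ => rfl)
    (fun _ => rfl) (c := fun q => v.c q.1.1.1 q.1.1.2) (fun _ => rfl)
    (fun q => (v.hc _ _ q.2.1 q.2.2).isUnit) (G := GA w t v.io v.Ps - rn inl R)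
    (fun q => by
      rw [pq]
      exact sub_mem (hi_Ge.1 (v.hG q)) (map_Ge (flt_Ge _)
        (fun x => by rw [rn_z]; exact z_mem_Ge (Sum.elim v.FV v.FB) (inl x))
        (v.hKq (bar q) (v.HK R hR q))))
    (Sh := fun u => u.isRight) (fun _ => by simp)
    (fun q u hq hu => by
      rcases hu with ⟨q', rfl⟩ | hu
      · rw [pq, map_sub, pd_rn inl_injective]
        exact sub_mem (v.hGq q q' hq) (rn_mem _ (Ge_le_mx (by omega) (pd_Ge (v.hKq q (v.HK R hR q')) _)))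
      · obtain ⟨b, rfl⟩ := Sum.isRight_iff.1 hu
        rw [pb]; exact v.hGb q b hq)
    (C := Sum.elim (fun _ => ⊥) v.C)
    (fun f f' hf hf' => by
      obtain ⟨b, rfl⟩ := Sum.isRight_iff.1 hf
      obtain ⟨b', rfl⟩ := Sum.isRight_iff.1 hf'
      rw [pb]; exact v.iso b b')
    (μ := v.mu) (κ := κ)
    (fun f hf => by obtain ⟨b, rfl⟩ := Sum.isRight_iff.1 hf; exact v.hC b)
    (fun q => by have := hκ q; simp only [hyp]; omega) (φ := pz p V B)
    (by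
      rintro (x | b)
      · rw [mem_WW, pow_one, pz_inl]; exact ⟨z_mem _, z_mem_Ge _ _⟩
      · rw [pz_inr]; exact zero_mem _)
    (fun _ => pz_inl _) (om := v.ot)
    (fun i q => by
      rw [pq, map_sub, map_rn_inl pz_inl]
      exact sub_mem (v.Po i q) (v.hKo i (bar q) (v.HK R hR q)))
    (L0 := v.L0) (L := v.L) (L' := v.L') (Kk := v.K) (H := v.H) (by rw [WW, pow_one]; exact v.h0)
    (fun θ hθ => ⟨(v.st θ hθ).1, fun f hf => by
      obtain ⟨b, rfl⟩ := Sum.isRight_iff.1 hf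
      exact (v.st θ hθ).2 b⟩)
    v.hK0 hK v.KK v.hL
    (v.up.trans (sup_le le_sup_left (hX.trans (sup_le le_sup_right (le_sup_of_le_left v.hK0)))))
    (by
      refine v.det.trans (sup_le (sup_le (iSup_le fun b => ?_)
        (hX.trans (sup_le_sup_right le_sup_right _))) le_sup_right)
      refine le_sup_of_le_left (le_sup_of_le_left (le_iSup₂_of_le (inr b) rfl (le_of_eq ?_)))
      rw [pb, map_add, eQ, Hyp.pd_QQ_not _ (fun _ => rfl) (by simp), zero_add, Sum.elim_inr])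
    (by rw [← eQ, ← add_sub_assoc, map_sub, map_rn_inl pz_inl, ← e1, add_sub_cancel_right]; exact h1)
  have hv : ∀ x, ψ (z (inl x)) = z x := fun x => by
    by_cases hx : x ∈ range fun q : Xi w t => v.em q.1
    · obtain ⟨q, rfl⟩ := hx; exact a1 q
    · rw [a2 _ (by rintro ⟨q, hq⟩; exact hx ⟨q, inl_injective hq⟩) (by simp), pz_inl, th.off x hx]
  rw [← eQ, ← add_sub_assoc, map_sub, map_rn_inl hv] at a5
  refine ⟨ψ, sub ζ fun q => (a4 q).1,
    (hyp w t fun q => v.FV (v.em q)).QQ (fun q => v.c q.1.1.1 q.1.1.2) z, -R - _, hv,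
    fun b => by simpa using a3 (inr b) (by simp), fun q => ?_, Hyp.QQ_mem _ _ z_mem,
    sub_mem (neg_mem hR) a5, ?_⟩
  · rw [sub_z]; exact hi_Ge.2 (a4 q).2
  · simp only [Hyp.map_QQ, sub_z]
    ring

/-- **step A of the producer** -/
theorem vxH : ∃ u : VxH w t N La V, ∀ al : ∀ i, s i, (∀ i, (w i).kd (al i) = none) → u.cub al =
    aug (pd (v.em (⟨0, al 0⟩, !t 0)) (pd (v.em (⟨1, al 1⟩, !t 1)) (pd (v.em (⟨2, al 2⟩, !t 2)) v.Ps))) := by
  obtain ⟨ψ, rho, Q, R, a1, a2, a4, a5, a6, a7⟩ := v.main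
  have mo : ∀ i {n f}, Hi (Sum.elim (v.om i) (v.ob i)) n f → Hi (v.om i) n (ψ f) := fun i n f hf =>
    hi_Ge.2 (map_Ge (flt_Ge _) (by
      rintro (x | b)
      · rw [a1]; exact z_mem_Ge _ _
      · exact v.sh i b (a2 b)) (hi_Ge.1 hf))
  have ty : ∀ i x, (w i).kd x = none → ∀ {J : Ideal (O p (ZMod p) V)},
      (∀ y, (w i).kd y = none → z (v.em (⟨i, y⟩, false)) ∈ J) →
      ψ (v.io i (z x)) - z (v.em (⟨i, x⟩, false)) ∈ J * mx := fun i x hx J hJ => by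
    have := Ideal.mem_map_of_mem ψ (v.hy i x hx)
    rw [map_sub, a1, Ideal.map_mul] at this
    refine Ideal.mul_mono (Ideal.map_le_iff_le_comap.2 (Ideal.span_le.2 ?_))
      (Ideal.map_le_iff_le_comap.2 fun f => map_mx ψ ?_) this
    · rintro _ ⟨y, hy, rfl⟩
      simpa [a1] using hJ y hy
    · rintro (x | b)
      · rw [a1]; exact z_mem _
      · exact Ideal.mul_le_left.trans (v.h0.trans inf_le_left) (a2 b)
  refine ⟨{
    em := v.em, inj := v.inj, FV := v.FV, hF := v.hF, hm := v.hm, om := v.om, om_le := v.om_le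
    om_em := v.om_em, Bad := v.Bad, cheap := v.cheap, bad := v.bad, small := v.small
    c := v.c, hc := v.hc
    io := fun i => ψ.comp (v.io i)
    near := fun i x hx => by simpa [a1] using mo i (v.near i x hx)
    far := fun i x hx => mo i (v.far i x hx)
    hy := fun i x hx => hi_Ge.2 ((flt_Ge _).mul_le (n := La) le_rfl (mx_le_Ge v.vw_pos) le_rfl
      (ty i x hx fun y hy => (flt_Ge _).anti (by rw [vw_not v.inj v.FV (ok_y hy) hy])
        (z_mem_Ge (vw w t La v.em v.FV) _)))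
    hyL := fun i x _ hx => core_Ge.2 (Ideal.mul_le_left (ty i x hx fun y hy =>
      (flt_Ge _).anti (by rw [yi, if_pos ⟨y, hy, rfl⟩]) (z_mem_Ge (yi w v.em i) _)))
    rho := rho, hrho := a4, Q := Q, hQ := a5, Ps := v.Ps + R
    Ps2 := add_mem v.Ps2 (v.H2 a6)
    hPs := add_mem v.hPs (_root_.N255.Core.Ge_anti (Nat.le_succ _)
      (_root_.N255.Core.hi_iff.1 (v.Hw R a6)))
    eq := ?_ }, fun al hal => ?_⟩
  · rw [← a7]
    simp only [Ga, GA, map_add, map_sum, apply_ite ψ, map_neg, map_smul, map_mul, map_zero, a1,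
      map_rn_inl a1, AlgHom.comp_apply]
    ring
  · simp only [VxH.cub, map_add, cub_zero v.inj (v.Hw R a6) al hal, add_zero]

end PVxA

end Crest.Agent.N255.Tg

end
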