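import Crest.Agent.N255.Tg.Ift
import Crest.Agent.N255.Dr.O
import Crest.Agent.N255.Cs.Tw

/-!
# Row 255 (helper23): Tougeron absorption and implicit functions for substitutions `O p K U → A`
-/

set_option autoImplicit false
open Set Function

noncomputable section

namespace Crest.Agent.N255.Tg

open _root_.N255.Dr _root_.N255.Dr.O Cs

section Abs

variable {A : Type*} [CommRing A] {σ τ : Type*} [Fintype σ] [Fintype τ] {U : Set (σ → A)}
  {F F' : (σ → A) → A} {dF dF' : (σ → A) → σ → A} {M : Ideal A}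

theorem TayM.congr (h : TayM U M F dF) (e : ∀ z ∈ U, F' z = F z) (e' : ∀ z ∈ U, dF' z = dF z) :
    TayM U M F' dF' :=
  ⟨fun z hz z' hz' => by rw [e z hz, e z' hz', e' z hz]; exact h.two z hz z' hz',
    fun z hz z' hz' i => by rw [e' z hz, e' z' hz']; exact h.one z hz z' hz' i⟩

variable {Γ K : Type*} [AddCommGroup Γ] [Fintype Γ] [DecidableEq Γ] [CommRing K] [Algebra K A]
  (G : Gr Γ K A)

/-- homogeneous points with values in `J` -/
def HP (d : σ → Γ) (J : Ideal A) : Set (σ → A) := {z | ∀ i, G.Hg (d i) (z i) ∧ z i ∈ J}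

/-- a homogeneous component -/
def HT (D : Γ) : AddSubgroup A where
  carrier := {x | G.Hg D x}
  add_mem' := Gr.Hg.add
  zero_mem' := G.hg_zero D
  neg_mem' := Gr.Hg.neg

variable {G}

theorem pr_sum {d : σ → Γ} {D : Γ} {g : σ → A} (hg : ∀ i, G.Hg (D - d i) (g i)) (δ : σ → A) :
    G.pr D (∑ i, δ i * g i) = ∑ i, G.pr (d i) (δ i) * g i := by
  rw [map_sum]
  exact Finset.sum_congr rfl fun i _ => by rw [(hg i).mul_pr, sub_sub_cancel]

theorem projM_Gr {d : σ → Γ} {D : Γ} {m L H J : Ideal A} (hm : G.Id m) (hL : G.Id L) (hH : G.Id H)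
    (hJ : L ≤ J) (hd : ∀ z ∈ HP G d J, ∀ i, G.Hg (D - d i) (dF z i)) :
    ProjM (HP G d J) (HT G D) m L H dF := by
  intro z hz k P hP δ h h'
  have h1 : ∀ i, G.pr (d i) (δ i) ∈ m ^ k * L := fun i => (hm.pow k).mul hL _ _ (h i)
  refine ⟨fun i => G.pr (d i) (δ i), fun i => ⟨(hz i).1.add (G.hg_pr _ _),
    J.add_mem (hz i).2 (hJ (Ideal.mul_le_right (h1 i)))⟩, h1, ?_⟩
  have h2 := hH D _ h'
  rwa [map_sub, pr_sum (hd z hz), show G.pr D P = P from hP] at h2

open Matrix in
/-- the graded implicit function theorem -/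
theorem Lin.ex_Gr [DecidableEq σ] [DecidableEq τ] {d : σ → Γ} {e : τ → Γ} {m J : Ideal A}
    {S : (σ → A) → τ → A} {B : Matrix τ σ A} {B' : Matrix σ τ A} (h : Lin (HP G d J) m S B)
    (hm : IsNilpotent m) (hB : B' * B = 1) (hB' : B * B' = 1)
    (hb : ∀ i k, G.Hg (e i - d k) (B i k)) (hG : ∀ s ∈ HP G d J, S s ∈ HP G e J)
    {s0 : σ → A} (h0 : s0 ∈ HP G d J) :
    ∃ s ∈ HP G d J, S s = 0 ∧ ∀ i, s i - s0 i ∈ sp (S s0) := by
  let C : Matrix σ τ A := fun k i => G.pr (d k - e i) (B' k i)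
  have h1 : C * B = 1 := by
    ext k l
    have : G.pr (d k - d l) ((1 : Matrix σ σ A) k l) = (1 : Matrix σ σ A) k l := by
      rcases eq_or_ne k l with rfl | hkl
      · rw [one_apply_eq, sub_self, G.one]
      · rw [one_apply_ne hkl, map_zero]
    rw [← this, ← hB, mul_apply, mul_apply,
      pr_sum (d := fun i => d k - e i) fun i => by simpa using hb i l]
  have h2 : B * C = 1 := by
    ext i j
    have : G.pr (e i - e j) ((1 : Matrix τ τ A) i j) = (1 : Matrix τ τ A) i j := by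
      rcases eq_or_ne i j with rfl | hkl
      · rw [one_apply_eq, sub_self, G.one]
      · rw [one_apply_ne hkl, map_zero]
    rw [← this, ← hB', mul_apply, mul_apply]
    simp only [mul_comm (B i _)]
    rw [pr_sum (d := fun k => d k - e j) fun k => by simpa using hb i k]
  exact h.ex hm h1 h2 (fun s hs k => ⟨(hs k).1.sub (Gr.Hg.sum fun i _ =>
    ((G.hg_pr _ _).mul (hG s hs i).1).cast (sub_add_cancel _ _)),
    J.sub_mem (hs k).2 (mulVec_mem C (fun i => (hG s hs i).2) k)⟩) h0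

end Abs

variable {p : ℕ} {K : Type} [CommRing K] {σ τ : Type} {A : Type*} [CommRing A] [Algebra K A]

theorem mx_nil [Finite σ] : IsNilpotent (mx : Ideal (O p K σ)) :=
  (Ideal.FG.isNilpotent_iff_le_nilradical (Submodule.fg_span (finite_range _))).2
    (Ideal.span_le.2 (by rintro _ ⟨i, rfl⟩; exact ⟨p, z_pow i⟩))

theorem hom_mk (φ : O p K σ →ₐ[K] A) (f : MvPolynomial σ K) :
    φ (mk f) = MvPolynomial.aeval (fun i => φ (z i)) f := by
  have : φ = lift (fun i => φ (z i)) fun i => by rw [← map_pow, z_pow, map_zero] :=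
    hom_ext fun i => by simp
  rw [← lift_mk _ fun i => by rw [← map_pow, z_pow, map_zero], ← this]

section Grad

variable {Γ : Type*} [AddCommGroup Γ] [Fintype Γ] [DecidableEq Γ] [Fintype σ]

theorem hg_zm {G : Gr Γ K A} {d : σ → Γ} (φ : O p K σ →ₐ[K] A) (h : ∀ i, G.Hg (d i) (φ (z i)))
    (a : σ → ℕ) : G.Hg (∑ i, a i • d i) (φ (zm a)) := by
  rw [zm, map_prod]
  exact Gr.Hg.prod fun i _ => by rw [map_pow]; exact (h i).pow _

/-- the grading of `O` given by the degrees of the variables -/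
def grO (p : ℕ) [hp : Fact p.Prime] (K : Type) [CommRing K] (d : σ → Γ) : Gr Γ K (O p K σ) :=
  Gr.ofBasis bas (fun a => ∑ i, (a i : ℕ) • d i)
    (fun a b => by
      rw [bas_apply, bas_apply, ← zm_add]
      by_cases h : ∀ i, ((fun i => (a i : ℕ)) + fun i => (b i : ℕ)) i < p
      · exact Submodule.subset_span ⟨fun i => ⟨_, h i⟩, by
          simp [add_smul, Finset.sum_add_distrib], bas_apply _⟩
      · rw [zm_eq_zero h]; exact zero_mem _)
    (Submodule.subset_span ⟨fun _ => ⟨0, hp.out.pos⟩, by simp, by simp [bas_apply, zm]⟩)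

theorem grO_z [hp : Fact p.Prime] (d : σ → Γ) (i : σ) : (grO p K d).Hg (d i) (z i) := by
  classical
  have : (grO p K d).Hg _ _ := Gr.ofBasis_hg (bas : Module.Basis (σ → Fin p) K (O p K σ))
    (fun a => ∑ i, (a i : ℕ) • d i) _ _ fun j => ⟨Pi.single (M := fun _ => ℕ) i 1 j, by
      rcases eq_or_ne j i with rfl | h
      · simpa using hp.out.one_lt
      · simpa [h] using hp.out.pos⟩
  rw [bas_apply] at this
  simp only [Pi.single_apply, ite_smul, one_smul, zero_smul, Finset.sum_ite_eq', Finset.mem_univ,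
    if_true] at this
  have e : (zm fun j => if j = i then 1 else 0 : O p K σ) = z i := by
    rw [← pow_one (z i), ← zm_single]
    exact congrArg zm (funext fun j => (Pi.single_apply _ _ _).symm)
  rwa [e] at this

variable {GO : Gr Γ K (O p K σ)} {G : Gr Γ K A} {d : σ → Γ}

/-- substitutions by homogeneous elements are graded -/
theorem hom_of_z (hO : ∀ i, GO.Hg (d i) (z i)) {φ : O p K σ →ₐ[K] A}
    (h : ∀ i, G.Hg (d i) (φ (z i))) : GO.Hom G φ := fun a x =>
  LinearMap.congr_fun (lin_ext (f := φ.toLinearMap ∘ₗ GO.pr a) (g := G.pr a ∘ₗ φ.toLinearMap)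
    fun b _ => by
      have h1 : GO.Hg _ (zm b) := hg_zm (AlgHom.id K _) hO b
      simp only [LinearMap.comp_apply, AlgHom.toLinearMap_apply, h1.pr, (hg_zm φ h b).pr,
        apply_ite φ, map_zero]) x

omit [Fintype σ] in
theorem id_mx (hO : ∀ i, GO.Hg (d i) (z i)) : GO.Id mx :=
  GO.id_span_hg (by rintro _ ⟨i, rfl⟩; exact ⟨_, hO i⟩)

theorem hg_pd [Fact ((p : K) = 0)] (hO : ∀ i, GO.Hg (d i) (z i)) {D : Γ} {W : O p K σ}
    (hW : GO.Hg D W) (i : σ) : GO.Hg (D - d i) (pd i W) := by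
  classical
  have key : (pd i : Derivation K (O p K σ) _).toLinearMap ∘ₗ GO.pr D =
      GO.pr (D - d i) ∘ₗ (pd i : Derivation K (O p K σ) _).toLinearMap := lin_ext fun b _ => by
    have h1 : ∀ b, GO.Hg _ (zm b) := hg_zm (AlgHom.id K _) hO
    simp only [LinearMap.comp_apply, Derivation.coeFn_coe, (h1 b).pr, apply_ite (pd i), map_zero,
      pd_zm, map_nsmul, (h1 _).pr]
    rcases Nat.eq_zero_or_pos (b i) with h0 | h0
    · simp [h0]
    have e : ∑ j, (b - Pi.single (M := fun _ => ℕ) i 1) j • d j = ∑ j, b j • d j - d i := by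
      have : b = (b - Pi.single (M := fun _ => ℕ) i 1) + Pi.single i 1 := funext fun j => by
        rcases eq_or_ne j i with rfl | h
        · simp; omega
        · simp [h]
      conv_rhs => rw [this]
      simp [add_smul, Finset.sum_add_distrib, Pi.single_apply]
    rw [e]
    simp only [sub_left_inj, smul_ite, smul_zero]
  have := LinearMap.congr_fun key W
  simp only [LinearMap.comp_apply, Derivation.coeFn_coe] at this
  rw [show GO.pr D W = W from hW] at this
  exact this.symm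

end Grad

variable {m : Ideal A}

/-- replace the values of `φ` on the variables `e i` -/
def upd (hp : ∀ x ∈ m, x ^ p = 0) (e : τ → σ) (φ : O p K σ →ₐ[K] A) (b : τ → A) (hb : ∀ i, b i ∈ m) :
    O p K σ →ₐ[K] A :=
  lift (extend e b fun u => φ (z u)) fun u => by
    classical
    by_cases hu : ∃ k, e k = u
    · rw [extend_def, dif_pos hu]; exact hp _ (hb _)
    · rw [extend_apply' _ _ _ hu, ← map_pow, z_pow, map_zero]

theorem upd_e (hp : ∀ x ∈ m, x ^ p = 0) {e : τ → σ} (he : Injective e) (φ : O p K σ →ₐ[K] A)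
    (b : τ → A) (hb : ∀ i, b i ∈ m) (i : τ) : upd hp e φ b hb (z (e i)) = b i := by
  rw [upd, lift_z, he.extend_apply]

theorem upd_not (hp : ∀ x ∈ m, x ^ p = 0) (e : τ → σ) (φ : O p K σ →ₐ[K] A)
    (b : τ → A) (hb : ∀ i, b i ∈ m) {u : σ} (hu : u ∉ range e) :
    upd hp e φ b hb (z u) = φ (z u) := by
  rw [upd, lift_z, extend_apply' _ _ _ hu]

theorem upd_pt (hp : ∀ x ∈ m, x ^ p = 0) {e : τ → σ} (he : Injective e) (φ : O p K σ →ₐ[K] A)
    (b : τ → A) (hb : ∀ i, b i ∈ m) : (fun i => upd hp e φ b hb (z (e i))) = b :=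
  funext (upd_e hp he φ b hb)

variable [Fact ((p : K) = 0)] [Fintype τ]

open MvPolynomial in
/-- a polynomial in the variables `e i`, the others being frozen at `φ` -/
theorem exists_poly {e : τ → σ} (he : Injective e) (φ : O p K σ →ₐ[K] A) (W : O p K σ) :
    ∃ Φ : MvPolynomial τ A, ∀ ψ : O p K σ →ₐ[K] A, (∀ u, u ∉ range e → ψ (z u) = φ (z u)) →
      aeval (fun i => ψ (z (e i))) Φ = ψ W ∧
      (∀ i, aeval (fun i => ψ (z (e i))) (pderiv i Φ) = ψ (pd (e i) W)) ∧
      ∀ k i, aeval (fun i => ψ (z (e i))) (pderiv k (pderiv i Φ)) = ψ (pd (e k) (pd (e i) W)) := by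
  classical
  let s : MvPolynomial σ K →ₐ[K] MvPolynomial τ A := aeval (extend e X fun u => C (φ (z u)))
  have h1 : ∀ (f : MvPolynomial σ K) i, pderiv i (s f) = s (pderiv (e i) f) := fun f i => by
    induction f using MvPolynomial.induction_on with
    | C a => simp [s, MvPolynomial.algebraMap_apply]
    | add f g hf hg => simp only [map_add, hf, hg]
    | mul_X f j hf =>
      have : pderiv i (s (X j)) = s (pderiv (e i) (X j)) := by
        by_cases hj : ∃ k, e k = j
        · obtain ⟨k, rfl⟩ := hj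
          rcases eq_or_ne k i with rfl | h
          · simp [s, he.extend_apply]
          · simp [s, he.extend_apply, h, he.ne h]
        · have : j ≠ e i := fun h => hj ⟨i, h.symm⟩
          simp [s, extend_apply' _ _ _ hj, this]
      simp only [map_mul, Derivation.leibniz, smul_eq_mul, map_add, hf, this]
  have h2 : ∀ ψ : O p K σ →ₐ[K] A, (∀ u, u ∉ range e → ψ (z u) = φ (z u)) →
      ∀ f, aeval (fun i => ψ (z (e i))) (s f) = ψ (mk f) := fun ψ hψ f => by
    have : ((aeval fun i => ψ (z (e i)) : MvPolynomial τ A →ₐ[A] A).restrictScalars K).comp s =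
        ψ.comp mk := MvPolynomial.algHom_ext fun j => by
      by_cases hj : ∃ k, e k = j
      · obtain ⟨k, rfl⟩ := hj
        simp [s, he.extend_apply]
      · simp [s, extend_apply' _ _ _ hj, hψ j hj]
    exact AlgHom.congr_fun this f
  obtain ⟨f, rfl⟩ := mk_surj W
  exact ⟨s f, fun ψ hψ => ⟨h2 ψ hψ f, fun i => by rw [h1, h2 ψ hψ, pd_mk],
    fun k i => by rw [h1, h1, h2 ψ hψ, pd_mk, pd_mk]⟩⟩

variable {Γ : Type*} [AddCommGroup Γ] [Fintype Γ] [DecidableEq Γ] [Fintype σ]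
  {GO : Gr Γ K (O p K σ)} {G : Gr Γ K A} {d : σ → Γ}

/-- **Tougeron for substitutions**: an error `P ∈ L² + H` is absorbed by moving the variables
`e i` (in which the Hessian of `W` vanishes at the origin) inside `L` -/
theorem toug_O (h2 : IsUnit (2 : A)) (hm : IsNilpotent m) (hp : ∀ x ∈ m, x ^ p = 0) (hGm : G.Id m)
    (hO : ∀ i, GO.Hg (d i) (z i)) {e : τ → σ} (he : Injective e) {D : Γ} {W : O p K σ}
    (hW : GO.Hg D W) (hH : ∀ k i, pd (e k) (pd (e i) W) ∈ mx) {φ : O p K σ →ₐ[K] A}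
    (hφ : ∀ u, G.Hg (d u) (φ (z u)) ∧ φ (z u) ∈ m) {L Kk H : Ideal A} (gL : G.Id L) (gH : G.Id H)
    (hLm : L ≤ m) (hK : Kk ≤ L) (hKH : Kk * Kk ≤ H) (hL : L ≤ sp (fun i => φ (pd (e i) W)) ⊔ Kk)
    {P : A} (hP : G.Hg D P) (hI : P ∈ L ^ 2 ⊔ H) :
    ∃ ψ : O p K σ →ₐ[K] A, (∀ u, G.Hg (d u) (ψ (z u)) ∧ ψ (z u) ∈ m) ∧
      (∀ u, u ∉ range e → ψ (z u) = φ (z u)) ∧ (∀ u, ψ (z u) - φ (z u) ∈ L) ∧
      ψ W - φ W - P ∈ H := by
  obtain ⟨Φ, hΦ⟩ := exists_poly he φ W
  have hu : ∀ (b : τ → A) (hb : b ∈ HP G (d ∘ e) m) u,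
      G.Hg (d u) (upd hp e φ b (fun i => (hb i).2) (z u)) ∧
        upd hp e φ b (fun i => (hb i).2) (z u) ∈ m := fun b hb u => by
    by_cases h : u ∈ range e
    · obtain ⟨i, rfl⟩ := h
      rw [upd_e hp he]; exact hb i
    · rw [upd_not hp e φ b _ h]; exact hφ u
  have hv := fun (b : τ → A) (hb : b ∈ HP G (d ∘ e) m) => by
    have := hΦ (upd hp e φ b fun i => (hb i).2) fun u => upd_not hp e φ b _
    rw [upd_pt hp he] at this
    exact this
  have h0 := hΦ φ fun _ _ => rfl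
  obtain ⟨b, hb, h3, h4⟩ := toug_sq (T := HT G D) (z := fun i => φ (z (e i)))
    (tayM_poly (U := HP G (d ∘ e) m) h2 Φ (fun b hb b' hb' i => m.sub_mem (hb' i).2 (hb i).2)
      fun b hb k i => by
        rw [(hv b hb).2.2]; exact map_mx _ (fun u => (hu b hb u).2) (hH k i))
    hm hK hKH (fun b hb => by
      rw [(hv b hb).1]; exact (hom_of_z hO fun u => (hu b hb u).1).hg hW)
    (projM_Gr hGm gL gH hLm fun b hb i => by
      rw [(hv b hb).2.1]; exact (hom_of_z hO fun u => (hu b hb u).1).hg (hg_pd hO hW (e i)))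
    (fun i => hφ (e i)) (by simpa only [h0.2.1] using hL) hP hI
  refine ⟨upd hp e φ b fun i => (hb i).2, hu b hb, fun u => upd_not hp e φ b _, fun u => ?_, by
    rwa [(hv b hb).1, h0.1] at h4⟩
  by_cases h : u ∈ range e
  · obtain ⟨i, rfl⟩ := h
    rw [upd_e hp he]; exact h3 i
  · rw [upd_not hp e φ b _ h, sub_self]; exact zero_mem _

/-- **solving variables away**: `g i ∈ mx` with invertible linear part in the variables `e k` -/
theorem ift_O {κ : Type} [Fintype κ] [DecidableEq κ] [DecidableEq τ] (hm : IsNilpotent m)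
    (hp : ∀ x ∈ m, x ^ p = 0) (hO : ∀ i, GO.Hg (d i) (z i)) {e : τ → σ} (he : Injective e)
    {D : κ → Γ} {g : κ → O p K σ} (hg : ∀ i, GO.Hg (D i) (g i) ∧ g i ∈ mx) {B : Matrix κ τ K}
    {B' : Matrix τ κ K} (hB : B' * B = 1) (hB' : B * B' = 1)
    (hb : ∀ i k, pd (e k) (g i) - algebraMap K _ (B i k) ∈ mx)
    (hd : ∀ i k, B i k ≠ 0 → D i = d (e k)) {φ : O p K σ →ₐ[K] A}
    (hφ : ∀ u, G.Hg (d u) (φ (z u)) ∧ φ (z u) ∈ m) :
    ∃ ψ : O p K σ →ₐ[K] A, (∀ u, G.Hg (d u) (ψ (z u)) ∧ ψ (z u) ∈ m) ∧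
      (∀ u, u ∉ range e → ψ (z u) = φ (z u)) ∧
      (∀ u, ψ (z u) - φ (z u) ∈ sp fun i => φ (g i)) ∧ ∀ i, ψ (g i) = 0 := by
  choose Φ hΦ using fun i => exists_poly he φ (g i)
  have hu : ∀ (b : τ → A) (hb : b ∈ HP G (d ∘ e) m) u,
      G.Hg (d u) (upd hp e φ b (fun i => (hb i).2) (z u)) ∧
        upd hp e φ b (fun i => (hb i).2) (z u) ∈ m := fun b hb u => by
    by_cases h : u ∈ range e
    · obtain ⟨i, rfl⟩ := h
      rw [upd_e hp he]; exact hb i
    · rw [upd_not hp e φ b _ h]; exact hφ u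
  have hv := fun (b : τ → A) (hb : b ∈ HP G (d ∘ e) m) i => by
    have := hΦ i (upd hp e φ b fun i => (hb i).2) fun u => upd_not hp e φ b _
    rw [upd_pt hp he] at this
    exact this
  have h0 := fun i => (hΦ i φ fun _ _ => rfl).1
  obtain ⟨b, hb', h3, h4⟩ := Lin.ex_Gr (G := G) (d := d ∘ e) (e := D) (s0 := fun i => φ (z (e i)))
    (B := B.map (algebraMap K A)) (B' := B'.map (algebraMap K A))
    (lin_poly Φ (fun b hb b' hb' i => m.sub_mem (hb' i).2 (hb i).2) fun b hb' i k => by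
      rw [(hv b hb' i).2.1]
      simpa using map_mx _ (fun u => (hu b hb' u).2) (hb i k))
    hm (by rw [← Matrix.map_mul, hB, Matrix.map_one _ (map_zero _) (map_one _)])
    (by rw [← Matrix.map_mul, hB', Matrix.map_one _ (map_zero _) (map_one _)])
    (fun i k => by
      by_cases h : B i k = 0
      · simpa [h] using G.hg_zero _
      · simpa [hd i k h] using G.hg_alg (B i k))
    (fun b hb' i => by
      simp only [(hv b hb' i).1]
      exact ⟨(hom_of_z hO fun u => (hu b hb' u).1).hg (hg i).1,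
        map_mx _ (fun u => (hu b hb' u).2) (hg i).2⟩)
    fun i => hφ (e i)
  refine ⟨upd hp e φ b fun i => (hb' i).2, hu b hb', fun u => upd_not hp e φ b _, fun u => ?_,
    fun i => by rw [← (hv b hb' i).1]; exact congrFun h3 i⟩
  by_cases h : u ∈ range e
  · obtain ⟨i, rfl⟩ := h
    rw [upd_e hp he]; simpa only [h0] using h4 i
  · rw [upd_not hp e φ b _ h, sub_self]; exact zero_mem _

end Crest.Agent.N255.Tg

end
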