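import Mathlib

/-!
# Row 255 (helper23): Taylor data, nilpotent Nakayama, Tougeron absorption, nilpotent fixed points
-/

set_option autoImplicit false
open Set

namespace Crest.Agent.N255.Tg

variable {A : Type*} [CommRing A] {σ : Type*}

/-- the ideal generated by a family -/
def sp (z : σ → A) : Ideal A := Ideal.span (range z)

theorem mem_sp (z : σ → A) (i : σ) : z i ∈ sp z := Ideal.subset_span ⟨i, rfl⟩

theorem sp_le {z : σ → A} {J : Ideal A} : sp z ≤ J ↔ ∀ i, z i ∈ J :=
  Ideal.span_le.trans range_subset_iff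

/-- Nakayama for a nilpotent ideal -/
theorem nak {m I J : Ideal A} (hm : IsNilpotent m) (h : I ≤ J ⊔ m * I) : I ≤ J := by
  obtain ⟨N, hN⟩ := hm
  have key : ∀ k, I ≤ J ⊔ m ^ k * I := fun k => by
    induction k with
    | zero => simp
    | succ k ih =>
      refine ih.trans (sup_le le_sup_left ((Ideal.mul_mono_right h).trans ?_))
      rw [Ideal.mul_sup, ← mul_assoc, ← pow_succ]
      exact sup_le_sup_right Ideal.mul_le_right _
  simpa [hN] using key N

theorem sp_eq {m : Ideal A} (hm : IsNilpotent m) {z z' : σ → A} (h : ∀ i, z' i - z i ∈ m * sp z) :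
    sp z' = sp z := by
  refine le_antisymm (sp_le.2 fun i => ?_) (nak hm (sp_le.2 fun i => ?_))
  · simpa using add_mem (Ideal.mul_le_right (h i)) (mem_sp z i)
  · simpa using sub_mem (Ideal.mem_sup_left (T := m * sp z) (mem_sp z' i)) (Ideal.mem_sup_right (h i))

variable [Fintype σ]

theorem mem_mul_sp {J : Ideal A} {z : σ → A} {P : A} :
    P ∈ J * sp z ↔ ∃ δ : σ → A, (∀ i, δ i ∈ J) ∧ P = ∑ i, δ i * z i := by
  refine ⟨fun h => ?_, ?_⟩
  · refine Submodule.mul_induction_on h (fun a ha b hb => ?_) ?_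
    · obtain ⟨c, rfl⟩ := Ideal.mem_span_range_iff_exists_fun.1 hb
      exact ⟨fun i => a * c i, fun i => J.mul_mem_right _ ha, by
        simp only [Finset.mul_sum, mul_assoc]⟩
    · rintro _ _ ⟨δ, h1, rfl⟩ ⟨δ', h2, rfl⟩
      exact ⟨δ + δ', fun i => add_mem (h1 i) (h2 i), by
        simp only [Pi.add_apply, add_mul, Finset.sum_add_distrib]⟩
  · rintro ⟨δ, h, rfl⟩
    exact sum_mem fun i _ => Ideal.mul_mem_mul (h i) (mem_sp z i)

theorem mem_sp_iff {z : σ → A} {P : A} : P ∈ sp z ↔ ∃ δ : σ → A, P = ∑ i, δ i * z i := by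
  rw [← Ideal.top_mul (sp z), mem_mul_sp]; simp

/-- Taylor data on a set `U` of points -/
structure Tay (U : Set (σ → A)) (F : (σ → A) → A) (dF : (σ → A) → σ → A) : Prop where
  two : ∀ z ∈ U, ∀ z' ∈ U, F z' - F z - ∑ i, (z' i - z i) * dF z i ∈ sp (z' - z) ^ 2
  one : ∀ z ∈ U, ∀ z' ∈ U, ∀ i, dF z' i - dF z i ∈ sp (z' - z)

/-- errors in `T` are absorbed by shifts that stay in `U` (gradings, constraints) -/
def Proj (U : Set (σ → A)) (T : AddSubgroup A) (m : Ideal A) (dF : (σ → A) → σ → A) : Prop :=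
  ∀ z ∈ U, ∀ k, 1 ≤ k → ∀ δ : σ → A, (∀ i, δ i ∈ m ^ k * sp (dF z)) → ∑ i, δ i * dF z i ∈ T →
    ∃ δ' : σ → A, z + δ' ∈ U ∧ (∀ i, δ' i ∈ m ^ k * sp (dF z)) ∧
      ∑ i, δ' i * dF z i = ∑ i, δ i * dF z i

variable {U : Set (σ → A)} {F : (σ → A) → A} {dF : (σ → A) → σ → A} {m : Ideal A}

theorem Tay.val (h : Tay U F dF) {z z' : σ → A} (hz : z ∈ U) (hz' : z' ∈ U) :
    F z' - F z ∈ sp (z' - z) := by
  have h1 := Ideal.pow_le_self two_ne_zero (h.two z hz z' hz')
  simpa using add_mem h1 (sum_mem fun i (_ : i ∈ Finset.univ) =>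
    Ideal.mul_mem_right (dF z i) _ (mem_sp (z' - z) i))

/-- the Jacobian ideal does not see small shifts -/
theorem Tay.jac (h : Tay U F dF) (hm : IsNilpotent m) {z z' : σ → A} (hz : z ∈ U) (hz' : z' ∈ U)
    (hd : ∀ i, z' i - z i ∈ m * sp (dF z)) : sp (dF z') = sp (dF z) :=
  sp_eq hm fun i => sp_le.2 hd (h.one z hz z' hz' i)

/-- **Tougeron** -/
theorem tougeron {T : AddSubgroup A} (h : Tay U F dF) (hm : IsNilpotent m) (hT : ∀ z ∈ U, F z ∈ T)
    (hp : Proj U T m dF) {z : σ → A} (hz : z ∈ U) {P : A} (hP : P ∈ T) {k : ℕ} (hk : 1 ≤ k)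
    (hI : P ∈ m ^ k * sp (dF z) ^ 2) :
    ∃ z' ∈ U, (∀ i, z' i - z i ∈ m ^ k * sp (dF z)) ∧ F z' = F z + P := by
  obtain ⟨N, hN⟩ := id hm
  induction' hn : N - k with n ih generalizing k z P
  · have : m ^ k = 0 := pow_eq_zero_of_le (by omega) hN
    rw [this, zero_mul] at hI
    exact ⟨z, hz, fun i => by simp, by simpa using hI⟩
  rw [sq, ← mul_assoc, mem_mul_sp] at hI
  obtain ⟨δ0, h0, rfl⟩ := hI
  obtain ⟨δ, hU, hδ, e⟩ := hp z hz k hk δ0 h0 hP
  have hmk : m ^ k ≤ m := Ideal.pow_le_self (by omega)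
  have hJ : sp (dF (z + δ)) = sp (dF z) :=
    h.jac hm hz hU fun i => by simpa using Ideal.mul_mono_left hmk (hδ i)
  have h2 := h.two z hz _ hU
  simp only [add_sub_cancel_left, Pi.add_apply] at h2
  have h3 : sp δ ^ 2 ≤ m ^ (k + 1) * sp (dF (z + δ)) ^ 2 := by
    rw [hJ]
    refine (Ideal.pow_right_mono (sp_le.2 hδ) 2).trans ?_
    rw [mul_pow, sq, pow_succ]
    exact Ideal.mul_mono_left (Ideal.mul_mono_right hmk)
  obtain ⟨z', hz', hd, e'⟩ := ih (k := k + 1) hU
    (P := -(F (z + δ) - F z - ∑ i, δ i * dF z i))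
    (neg_mem (sub_mem (sub_mem (hT _ hU) (hT _ hz)) (e ▸ hP))) (by omega) (neg_mem (h3 h2)) (by omega)
  refine ⟨z', hz', fun i => ?_, by rw [e', ← e]; ring⟩
  have h4 := hd i
  rw [hJ] at h4
  convert add_mem (Ideal.mul_mono_left (Ideal.pow_le_pow_right k.le_succ) h4) (hδ i) using 1
  simp only [Pi.add_apply]; ring

theorem proj_univ (m : Ideal A) (dF : (σ → A) → σ → A) : Proj univ ⊤ m dF :=
  fun _ _ _ _ δ h _ => ⟨δ, trivial, h, rfl⟩

/-- points with values in `m` -/
theorem proj_pts (m : Ideal A) (dF : (σ → A) → σ → A) : Proj {z | ∀ i, z i ∈ m} ⊤ m dF :=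
  fun _ hz k hk δ h _ => ⟨δ, fun i => m.add_mem (hz i)
    (Ideal.pow_le_self (n := k) (by omega) (Ideal.mul_le_left (h i))), h, rfl⟩

/-! ### polynomial potentials -/

open MvPolynomial

theorem taylor_two {R : Type*} [CommRing R] [Algebra R A] (Φ : MvPolynomial σ R) (z z' : σ → A) :
    aeval z' Φ - aeval z Φ - ∑ i, (z' i - z i) * aeval z (pderiv i Φ) ∈ sp (z' - z) ^ 2 ∧
      aeval z' Φ - aeval z Φ ∈ sp (z' - z) := by
  classical
  induction Φ using MvPolynomial.induction_on with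
  | C a => simp
  | add f g hf hg =>
    refine ⟨?_, ?_⟩
    · convert add_mem hf.1 hg.1 using 1
      simp only [map_add, mul_add, Finset.sum_add_distrib]; ring
    · convert add_mem hf.2 hg.2 using 1
      simp only [map_add]; ring
  | mul_X f j hf =>
    have hj : z' j - z j ∈ sp (z' - z) := mem_sp (z' - z) j
    refine ⟨?_, ?_⟩
    · have e : ∑ i, (z' i - z i) * aeval z (pderiv i (f * X j)) =
          (∑ i, (z' i - z i) * aeval z (pderiv i f)) * z j + (z' j - z j) * aeval z f := by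
        simp only [Derivation.leibniz, pderiv_X, smul_eq_mul, map_add, map_mul, aeval_X, mul_add,
          Finset.sum_add_distrib, Finset.sum_mul, Pi.single_apply, apply_ite, map_zero,
          mul_one, mul_zero, Finset.sum_ite_eq, Finset.mem_univ, if_true]
        rw [add_comm]
        exact congrArg (· + _) (Finset.sum_congr rfl fun i _ => by ring)
      rw [e]
      convert add_mem (Ideal.mul_mem_right (z j) _ hf.1) (sq (sp (z' - z)) ▸ Ideal.mul_mem_mul hf.2 hj)
        using 1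
      simp only [map_mul, aeval_X]; ring
    · convert add_mem (Ideal.mul_mem_right (z' j) _ hf.2) (Ideal.mul_mem_left _ (aeval z f) hj) using 1
      simp only [map_mul, aeval_X]; ring

theorem tay_poly {R : Type*} [CommRing R] [Algebra R A] (Φ : MvPolynomial σ R) (U : Set (σ → A)) :
    Tay U (fun z => aeval z Φ) fun z i => aeval z (pderiv i Φ) :=
  ⟨fun z _ z' _ => (taylor_two Φ z z').1, fun z _ z' _ i => (taylor_two (pderiv i Φ) z z').2⟩

/-! ### fixed points and inverses -/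

omit [Fintype σ] in
/-- uniqueness in the nilpotent fixed point theorem -/
theorem fix_uniq (hm : IsNilpotent m) {S : (σ → A) → σ → A}
    (hS : ∀ s ∈ U, ∀ s' ∈ U, ∀ i, S s' i - S s i ∈ m * sp (s' - s)) {s s' : σ → A} (hs : s ∈ U)
    (hs' : s' ∈ U) (e : S s = s) (e' : S s' = s') : s' = s := by
  have : sp (s' - s) ≤ ⊥ := nak hm (sp_le.2 fun i => Ideal.mem_sup_right (by
    simpa [e, e'] using hS s hs s' hs' i))
  funext i
  exact sub_eq_zero.1 (by simpa using sp_le.1 this i)

omit [Fintype σ] in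
/-- **nilpotent fixed point theorem** -/
theorem fix_ex (hm : IsNilpotent m) {S : (σ → A) → σ → A} (hU : MapsTo S U U)
    (hS : ∀ s ∈ U, ∀ s' ∈ U, ∀ i, S s' i - S s i ∈ m * sp (s' - s)) {s0 : σ → A} (h0 : s0 ∈ U) :
    ∃ s ∈ U, S s = s ∧ ∀ i, s i - s0 i ∈ sp (S s0 - s0) := by
  obtain ⟨N, hN⟩ := hm
  have key : ∀ k, (∀ i, S^[k + 1] s0 i - S^[k] s0 i ∈ m ^ k * sp (S s0 - s0)) ∧
      ∀ i, S^[k] s0 i - s0 i ∈ sp (S s0 - s0) := fun k => by
    induction k with
    | zero => exact ⟨fun i => by simpa using mem_sp (S s0 - s0) i, fun i => by simp⟩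
    | succ k ih =>
      refine ⟨fun i => ?_, fun i => ?_⟩
      · have := hS _ (hU.iterate k h0) _ (hU.iterate (k + 1) h0) i
        rw [← Function.iterate_succ_apply' S, ← Function.iterate_succ_apply' S] at this
        rw [pow_succ', mul_assoc]
        exact Ideal.mul_mono_right (sp_le.2 ih.1) this
      · simpa using add_mem (Ideal.mul_le_right (ih.1 i)) (ih.2 i)
  refine ⟨S^[N] s0, hU.iterate N h0, funext fun i => ?_, (key N).2⟩
  have := (key N).1 i
  rw [hN, zero_mul, Function.iterate_succ_apply'] at this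
  exact sub_eq_zero.1 (by simpa using this)

/-- additive maps that are the identity on the graded pieces of a finite filtration -/
theorem bij_of_filt {M : Type*} [AddCommGroup M] (φ : M →+ M) (Fl : ℕ → AddSubgroup M) {N : ℕ}
    (h0 : Fl 0 = ⊤) (hN : Fl N = ⊥) (h : ∀ k, ∀ a ∈ Fl k, φ a - a ∈ Fl (k + 1)) :
    Function.Bijective φ := by
  have hψ : ∀ k a, (φ.toIntLinearMap - 1 : Module.End ℤ M)^[k] a ∈ Fl k := fun k a => by
    induction k with
    | zero => simp [h0]
    | succ k ih => rw [Function.iterate_succ_apply']; exact h k _ ih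
  have hn : IsNilpotent (φ.toIntLinearMap - 1 : Module.End ℤ M) := ⟨N, LinearMap.ext fun a => by
    simpa [hN, Module.End.pow_apply] using hψ N a⟩
  have := (Module.End.isUnit_iff _).1 hn.isUnit_add_one
  simpa using this

/-- a ring map that is the identity on `A / m` and on `m / m²` is bijective -/
theorem bij_of_ideal (hm : IsNilpotent m) (φ : A →+* A) (h0 : ∀ a, φ a - a ∈ m)
    (h1 : ∀ a ∈ m, φ a - a ∈ m ^ 2) : Function.Bijective φ := by
  obtain ⟨N, hN⟩ := hm
  have key : ∀ k, ∀ a ∈ m ^ k, φ a - a ∈ m ^ (k + 1) := fun k => by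
    induction k with
    | zero => simpa using h0
    | succ k ih =>
      intro a ha
      rw [pow_succ] at ha
      refine Submodule.mul_induction_on ha (fun x hx y hy => ?_) fun x y hx hy => ?_
      · have e : φ (x * y) - x * y = (φ x - x) * φ y + x * (φ y - y) := by rw [map_mul]; ring
        have hy' : φ y ∈ m := by simpa using add_mem (h0 y) hy
        rw [e]
        exact add_mem (pow_succ m (k + 1) ▸ Ideal.mul_mem_mul (ih x hx) hy')
          (pow_add m k 2 ▸ Ideal.mul_mem_mul hx (h1 y hy))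
      · convert add_mem hx hy using 1
        rw [map_add]; ring
  exact bij_of_filt φ.toAddMonoidHom (fun k => (m ^ k).toAddSubgroup) (N := N) (by simp)
    (by simp [hN]) key

end Crest.Agent.N255.Tg
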