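import Crest.Agent.N255.Tg.Basic

/-!
# Row 255 (helper23): Tougeron absorption with error ideals, small Hessians, gradings
-/

set_option autoImplicit false
open Set

namespace Crest.Agent.N255.Tg

variable {A : Type*} [CommRing A] {σ : Type*} [Fintype σ]

/-- Taylor data whose Hessian has values in `M` -/
structure TayM (U : Set (σ → A)) (M : Ideal A) (F : (σ → A) → A) (dF : (σ → A) → σ → A) : Prop where
  two : ∀ z ∈ U, ∀ z' ∈ U, F z' - F z - ∑ i, (z' i - z i) * dF z i ∈ M * sp (z' - z) ^ 2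
  one : ∀ z ∈ U, ∀ z' ∈ U, ∀ i, dF z' i - dF z i ∈ M * sp (z' - z)

/-- shifts with values in the ideals `m ^ k * L` can be projected into `U`, modulo `H` -/
def ProjM (U : Set (σ → A)) (T : AddSubgroup A) (m L H : Ideal A) (dF : (σ → A) → σ → A) : Prop :=
  ∀ z ∈ U, ∀ k, ∀ P ∈ T, ∀ δ : σ → A, (∀ i, δ i ∈ m ^ k * L) → P - ∑ i, δ i * dF z i ∈ H →
    ∃ δ' : σ → A, z + δ' ∈ U ∧ (∀ i, δ' i ∈ m ^ k * L) ∧ P - ∑ i, δ' i * dF z i ∈ H

variable {U : Set (σ → A)} {F : (σ → A) → A} {dF : (σ → A) → σ → A} {m M M' K L H : Ideal A}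

theorem Tay.top (h : Tay U F dF) : TayM U ⊤ F dF :=
  ⟨by simpa only [Ideal.top_mul] using h.two, by simpa only [Ideal.top_mul] using h.one⟩

theorem TayM.tay (h : TayM U M F dF) : Tay U F dF :=
  ⟨fun z hz z' hz' => Ideal.mul_le_right (h.two z hz z' hz'),
    fun z hz z' hz' i => Ideal.mul_le_right (h.one z hz z' hz' i)⟩

theorem TayM.mono {U' : Set (σ → A)} (h : TayM U M F dF) (hU : U' ⊆ U) (hM : M ≤ M') :
    TayM U' M' F dF :=
  ⟨fun z hz z' hz' => Ideal.mul_mono_left hM (h.two z (hU hz) z' (hU hz')),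
    fun z hz z' hz' i => Ideal.mul_mono_left hM (h.one z (hU hz) z' (hU hz') i)⟩

/-- detection survives shifts -/
theorem TayM.det (h : TayM U M F dF) (hm : IsNilpotent m) (hM : M' * M ≤ m) {z z' : σ → A}
    (hz : z ∈ U) (hz' : z' ∈ U) (hd : ∀ i, z' i - z i ∈ L) (hL : L ≤ M' * sp (dF z) ⊔ K) :
    L ≤ M' * sp (dF z') ⊔ K := by
  have h1 : sp (dF z) ≤ sp (dF z') ⊔ M * L := sp_le.2 fun i => by
    simpa using sub_mem (Ideal.mem_sup_left (T := M * L) (mem_sp (dF z') i))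
      (Ideal.mem_sup_right (Ideal.mul_mono_right (sp_le.2 hd) (h.one z hz z' hz' i)))
  refine nak hm (hL.trans (sup_le ((Ideal.mul_mono_right h1).trans ?_) (le_sup_of_le_left le_sup_right)))
  rw [Ideal.mul_sup, ← mul_assoc]
  exact sup_le_sup le_sup_left (Ideal.mul_mono_left hM)

/-- **Tougeron, general form.** `L` = allowed shifts, detected by the Jacobian ideal up to `K`;
`H` = negligible errors. `(M, M') = (⊤, m)` or `(m, ⊤)`. -/
theorem toug {T : AddSubgroup A} (h : TayM U M F dF) (hm : IsNilpotent m) (hM : M' * M ≤ m)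
    (hK : K ≤ L) (hH : K * K ≤ H) (hT : ∀ z ∈ U, F z ∈ T) (hp : ProjM U T m L H dF) {z : σ → A}
    (hz : z ∈ U) (hL : L ≤ M' * sp (dF z) ⊔ K) {P : A} (hP : P ∈ T) {k : ℕ}
    (hI : P ∈ m ^ k * L * sp (dF z) ⊔ H) :
    ∃ z' ∈ U, (∀ i, z' i - z i ∈ m ^ k * L) ∧ F z' - F z - P ∈ H := by
  obtain ⟨N, hN⟩ := id hm
  induction' hn : N - k with n ih generalizing k z P
  · have : m ^ k = 0 := pow_eq_zero_of_le (by omega) hN
    rw [this, zero_mul, zero_mul] at hI
    exact ⟨z, hz, fun i => by simp, by simpa using hI⟩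
  obtain ⟨P1, h1, P2, h2, e⟩ := Submodule.mem_sup.1 hI
  obtain ⟨δ0, h0, rfl⟩ := mem_mul_sp.1 h1
  obtain ⟨δ, hU, hδ, e'⟩ := hp z hz k P hP δ0 h0 (by rw [← e]; simpa using h2)
  have hL' := h.det hm hM hz hU (L := L) (fun i => by simpa using Ideal.mul_le_right (hδ i)) hL
  have h3 := h.two z hz _ hU
  simp only [add_sub_cancel_left, Pi.add_apply] at h3
  have hMM : M * M' ≤ m := mul_comm M' M ▸ hM
  have h4 : M * (L * L) ≤ m * L * sp (dF (z + δ)) ⊔ H := by
    have a1 : M * (L * K) ≤ m * L * sp (dF (z + δ)) ⊔ H := by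
      refine (Ideal.mul_mono_right (Ideal.mul_mono_left hL')).trans ?_
      rw [Ideal.sup_mul, Ideal.mul_sup]
      refine sup_le_sup ?_ (Ideal.mul_le_right.trans hH)
      rw [mul_right_comm M', ← mul_assoc, ← mul_assoc]
      exact Ideal.mul_mono_left (Ideal.mul_mono hMM hK)
    refine (Ideal.mul_mono_right (Ideal.mul_mono_right hL')).trans ?_
    rw [Ideal.mul_sup, Ideal.mul_sup]
    refine sup_le (le_sup_of_le_left ?_) a1
    rw [← mul_assoc L, mul_comm L M', ← mul_assoc, ← mul_assoc]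
    exact Ideal.mul_mono_left (Ideal.mul_mono_left hMM)
  have h5 : M * sp δ ^ 2 ≤ m ^ (k + 1) * L * sp (dF (z + δ)) ⊔ H := by
    refine (Ideal.mul_mono_right (Ideal.pow_right_mono (sp_le.2 hδ) 2)).trans ?_
    have : M * (m ^ k * L) ^ 2 = m ^ k * (m ^ k * (M * (L * L))) := by ring
    rw [this]
    refine Ideal.mul_le_right.trans ((Ideal.mul_mono_right h4).trans ?_)
    rw [Ideal.mul_sup, pow_succ, ← mul_assoc, ← mul_assoc]
    exact sup_le_sup_left Ideal.mul_le_right _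
  obtain ⟨z', hz', hd, e2⟩ := ih (k := k + 1) hU hL' (P := P - (F (z + δ) - F z))
    (sub_mem hP (sub_mem (hT _ hU) (hT _ hz)))
    (by convert sub_mem (Ideal.mem_sup_right e') (h5 h3) using 1; ring) (by omega)
  refine ⟨z', hz', fun i => ?_, by convert e2 using 1; ring⟩
  convert add_mem (Ideal.mul_mono_left (Ideal.pow_le_pow_right k.le_succ) (hd i)) (hδ i) using 1
  simp only [Pi.add_apply]; ring

/-- the form `P ∈ L ^ 2 + H` for a small Hessian -/
theorem toug_sq {T : AddSubgroup A} (h : TayM U m F dF) (hm : IsNilpotent m)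
    (hK : K ≤ L) (hH : K * K ≤ H) (hT : ∀ z ∈ U, F z ∈ T) (hp : ProjM U T m L H dF) {z : σ → A}
    (hz : z ∈ U) (hL : L ≤ sp (dF z) ⊔ K) {P : A} (hP : P ∈ T) (hI : P ∈ L ^ 2 ⊔ H) :
    ∃ z' ∈ U, (∀ i, z' i - z i ∈ L) ∧ F z' - F z - P ∈ H := by
  have h1 : L ^ 2 ≤ L * sp (dF z) ⊔ H := by
    have a1 : L * K ≤ L * sp (dF z) ⊔ H := by
      refine (Ideal.mul_mono_left hL).trans ?_
      rw [Ideal.sup_mul, mul_comm]
      exact sup_le_sup (Ideal.mul_mono_left hK) hH
    rw [sq]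
    refine (Ideal.mul_mono_right hL).trans ?_
    rw [Ideal.mul_sup]
    exact sup_le le_sup_left a1
  simpa using toug (M' := ⊤) (k := 0) h hm (by simp) hK hH hT hp hz (by simpa using hL) hP
    (by simpa using sup_le h1 le_sup_right hI)

theorem projM_univ (m L H : Ideal A) (dF : (σ → A) → σ → A) : ProjM univ ⊤ m L H dF :=
  fun _ _ _ _ _ δ h h' => ⟨δ, trivial, h, h'⟩

theorem projM_pts {J : Ideal A} (hL : L ≤ J) (m H : Ideal A) (dF : (σ → A) → σ → A) :
    ProjM {z | ∀ i, z i ∈ J} ⊤ m L H dF :=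
  fun _ hz _ _ _ δ h h' => ⟨δ, fun i => J.add_mem (hz i) (hL (Ideal.mul_le_right (h i))), h, h'⟩

/-! ### gradings -/

section Gr

variable {Γ S : Type*} [AddCommGroup Γ] [DecidableEq Γ] [SetLike S A] [AddSubgroupClass S A]
  (𝒜 : Γ → S) [GradedRing 𝒜]

/-- homogeneous points with values in `J` -/
def GP (d : σ → Γ) (J : Ideal A) : Set (σ → A) := {z | ∀ i, z i ∈ 𝒜 (d i) ∧ z i ∈ J}

/-- a homogeneous component as a subgroup -/
def GT (D : Γ) : AddSubgroup A := AddSubgroup.ofClass (𝒜 D)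

variable {𝒜}

theorem hom_pow (hm : m.IsHomogeneous 𝒜) (k : ℕ) : (m ^ k).IsHomogeneous 𝒜 := by
  induction k with
  | zero => simpa using Ideal.IsHomogeneous.top 𝒜
  | succ k ih => rw [pow_succ]; exact ih.mul hm

omit [Fintype σ] in
theorem hom_sp {z : σ → A} {d : σ → Γ} (h : ∀ i, z i ∈ 𝒜 (d i)) : (sp z).IsHomogeneous 𝒜 :=
  Ideal.homogeneous_span 𝒜 _ (by rintro _ ⟨i, rfl⟩; exact ⟨_, h i⟩)

theorem proj_sum {d : σ → Γ} {D : Γ} {g : σ → A} (hg : ∀ i, g i ∈ 𝒜 (D - d i)) (δ : σ → A) :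
    GradedRing.proj 𝒜 D (∑ i, δ i * g i) = ∑ i, GradedRing.proj 𝒜 (d i) (δ i) * g i := by
  rw [map_sum]
  refine Finset.sum_congr rfl fun i _ => ?_
  have := DirectSum.coe_decompose_mul_add_of_right_mem 𝒜 (a := δ i) (i := d i) (hg i)
  rwa [add_sub_cancel] at this

theorem projM_gr {d : σ → Γ} {D : Γ} {J : Ideal A} (hm : m.IsHomogeneous 𝒜)
    (hL : L.IsHomogeneous 𝒜) (hH : H.IsHomogeneous 𝒜) (hJ : L ≤ J)
    (hd : ∀ z ∈ GP 𝒜 d J, ∀ i, dF z i ∈ 𝒜 (D - d i)) : ProjM (GP 𝒜 d J) (GT 𝒜 D) m L H dF := by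
  intro z hz k P hP δ h h'
  have h1 : ∀ i, GradedRing.proj 𝒜 (d i) (δ i) ∈ m ^ k * L := fun i =>
    (hom_pow hm k).mul hL (d i) (h i)
  refine ⟨fun i => GradedRing.proj 𝒜 (d i) (δ i), fun i => ⟨add_mem (hz i).1 (SetLike.coe_mem _),
    J.add_mem (hz i).2 (hJ (Ideal.mul_le_right (h1 i)))⟩, h1, ?_⟩
  have h2 : GradedRing.proj 𝒜 D (P - ∑ i, δ i * dF z i) ∈ H := hH D h'
  rwa [map_sub, proj_sum (hd z hz), GradedRing.proj_apply,
    DirectSum.decompose_of_mem_same 𝒜 (show P ∈ 𝒜 D from hP)] at h2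

end Gr

/-! ### polynomial potentials with a small Hessian -/

open MvPolynomial

theorem taylor_three {R : Type*} [CommRing R] [Algebra R A] (Φ : MvPolynomial σ R) (z z' : σ → A) :
    2 * (aeval z' Φ - aeval z Φ - ∑ i, (z' i - z i) * aeval z (pderiv i Φ)) -
      ∑ k, ∑ i, (z' k - z k) * (z' i - z i) * aeval z (pderiv k (pderiv i Φ)) ∈ sp (z' - z) ^ 3 := by
  classical
  induction Φ using MvPolynomial.induction_on with
  | C a => simp
  | add f g hf hg =>
    convert add_mem hf hg using 1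
    simp only [map_add, mul_add, Finset.sum_add_distrib]; ring
  | mul_X f j hf =>
    have hj : z' j - z j ∈ sp (z' - z) := mem_sp (z' - z) j
    have e1 : ∀ i, pderiv i (f * X j) = pderiv i f * X j + if j = i then f else 0 := fun i => by
      simp only [Derivation.leibniz, pderiv_X, smul_eq_mul, Pi.single_apply, mul_ite, mul_one,
        mul_zero]
      ring
    have e2 : ∀ k i, pderiv k (pderiv i (f * X j)) = pderiv k (pderiv i f) * X j +
        (if j = k then pderiv i f else 0) + if j = i then pderiv k f else 0 := fun k i => by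
      rw [e1, map_add, apply_ite (pderiv k), map_zero]
      simp only [Derivation.leibniz, pderiv_X, smul_eq_mul, Pi.single_apply, mul_ite, mul_one,
        mul_zero]
      ring
    have e3 : ∑ k, ∑ i, (z' k - z k) * (z' i - z i) * aeval z (if j = k then pderiv i f else 0) =
        (z' j - z j) * ∑ i, (z' i - z i) * aeval z (pderiv i f) := by
      rw [Finset.sum_comm]
      simp only [apply_ite, map_zero, mul_zero, Finset.sum_ite_eq, Finset.mem_univ, if_true,
        Finset.mul_sum, mul_assoc]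
    have e4 : ∑ k, ∑ i, (z' k - z k) * (z' i - z i) * aeval z (if j = i then pderiv k f else 0) =
        (z' j - z j) * ∑ i, (z' i - z i) * aeval z (pderiv i f) := by
      simp only [apply_ite, map_zero, mul_zero, Finset.sum_ite_eq, Finset.mem_univ, if_true,
        Finset.mul_sum]
      exact Finset.sum_congr rfl fun i _ => by ring
    have e5 : ∑ i, (z' i - z i) * aeval z (if j = i then f else 0) = (z' j - z j) * aeval z f := by
      simp only [apply_ite, map_zero, mul_zero, Finset.sum_ite_eq, Finset.mem_univ, if_true]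
    simp only [e2]
    simp only [e1, map_add, mul_add, Finset.sum_add_distrib, e3, e4, e5, map_mul, aeval_X,
      ← mul_assoc, ← Finset.sum_mul]
    convert add_mem (Ideal.mul_mem_right (z j) _ hf) (Ideal.mul_mem_left _ 2
      (pow_succ (sp (z' - z)) 2 ▸ Ideal.mul_mem_mul (taylor_two f z z').1 hj)) using 1
    ring

theorem tayM_poly {R : Type*} [CommRing R] [Algebra R A] (h2 : IsUnit (2 : A))
    (Φ : MvPolynomial σ R) (hU : ∀ z ∈ U, ∀ z' ∈ U, ∀ i, z' i - z i ∈ M)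
    (hΦ : ∀ z ∈ U, ∀ k i, aeval z (pderiv k (pderiv i Φ)) ∈ M) :
    TayM U M (fun z => aeval z Φ) fun z i => aeval z (pderiv i Φ) := by
  refine ⟨fun z hz z' hz' => ?_, fun z hz z' hz' i => ?_⟩
  · have hs : sp (z' - z) ≤ M := sp_le.2 (hU z hz z' hz')
    have h3 : sp (z' - z) ^ 3 ≤ M * sp (z' - z) ^ 2 := by
      rw [pow_succ']; exact Ideal.mul_mono_left hs
    refine (Ideal.unit_mul_mem_iff_mem _ h2).1 ?_
    have h4 : ∑ k, ∑ i, (z' k - z k) * (z' i - z i) * aeval z (pderiv k (pderiv i Φ)) ∈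
        M * sp (z' - z) ^ 2 := sum_mem fun k _ => sum_mem fun i _ => by
      rw [mul_comm (_ * _), sq]
      exact Ideal.mul_mem_mul (hΦ z hz k i)
        (Ideal.mul_mem_mul (mem_sp (z' - z) k) (mem_sp (z' - z) i))
    simpa using add_mem (h3 (taylor_three Φ z z')) h4
  · have hs : sp (z' - z) ≤ M := sp_le.2 (hU z hz z' hz')
    have h3 : sp (z' - z) ^ 2 ≤ M * sp (z' - z) := by
      rw [sq]; exact Ideal.mul_mono_left hs
    have h4 : ∑ k, (z' k - z k) * aeval z (pderiv k (pderiv i Φ)) ∈ M * sp (z' - z) :=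
      sum_mem fun k _ => by
        rw [mul_comm (z' k - z k)]; exact Ideal.mul_mem_mul (hΦ z hz k i) (mem_sp (z' - z) k)
    simpa using add_mem (h3 (taylor_two (pderiv i Φ) z z').1) h4

end Crest.Agent.N255.Tg
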