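import Crest.Agent.N255.Tg.Gen

/-!
# Row 255 (helper23): nilpotent implicit function theorem, critical points, Morse + Tougeron
-/

set_option autoImplicit false
open Set Matrix

namespace Crest.Agent.N255.Tg

variable {A : Type*} [CommRing A] {σ τ : Type*} [Fintype σ] [Fintype τ]

/-- `G` has the linear part `B` on `U`, modulo `m` -/
def Lin (U : Set (σ → A)) (m : Ideal A) (G : (σ → A) → τ → A) (B : Matrix τ σ A) : Prop :=
  ∀ z ∈ U, ∀ z' ∈ U, ∀ i, G z' i - G z i - (B *ᵥ (z' - z)) i ∈ m * sp (z' - z)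

variable {U : Set (σ → A)} {m : Ideal A} {G : (σ → A) → τ → A} {B : Matrix τ σ A}
  {B' : Matrix σ τ A}

omit [Fintype σ] in
theorem mulVec_mem {J : Ideal A} (B' : Matrix σ τ A) {v : τ → A} (h : ∀ i, v i ∈ J) (i : σ) :
    (B' *ᵥ v) i ∈ J :=
  sum_mem fun k _ => J.mul_mem_left _ (h k)

variable [DecidableEq σ] [DecidableEq τ]

omit [DecidableEq τ] in
theorem Lin.ctr (h : Lin U m G B) (hB : B' * B = 1) :
    ∀ s ∈ U, ∀ s' ∈ U, ∀ i, (s' - B' *ᵥ G s') i - (s - B' *ᵥ G s) i ∈ m * sp (s' - s) := by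
  intro s hs s' hs' i
  have h1 := neg_mem (mulVec_mem B' (v := G s' - G s - B *ᵥ (s' - s)) (h s hs s' hs') i)
  rw [mulVec_sub, mulVec_sub, mulVec_mulVec, hB, one_mulVec] at h1
  convert h1 using 1
  simp only [Pi.sub_apply]; ring

omit [DecidableEq τ] in
/-- uniqueness of zeros -/
theorem Lin.uniq (h : Lin U m G B) (hm : IsNilpotent m) (hB : B' * B = 1) {s s' : σ → A}
    (hs : s ∈ U) (hs' : s' ∈ U) (e : G s = 0) (e' : G s' = 0) : s' = s :=
  fix_uniq hm (S := fun s => s - B' *ᵥ G s) (h.ctr hB) hs hs' (by simp [e]) (by simp [e'])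

omit [DecidableEq τ] in
/-- the distance of two points is controlled by their images -/
theorem Lin.sp_le (h : Lin U m G B) (hm : IsNilpotent m) (hB : B' * B = 1) {s s' : σ → A}
    (hs : s ∈ U) (hs' : s' ∈ U) : sp (s' - s) ≤ sp (G s' - G s) := by
  refine nak hm (Tg.sp_le.2 fun i => ?_)
  convert add_mem (Ideal.mem_sup_left (mulVec_mem B' (mem_sp (G s' - G s)) i))
    (Ideal.mem_sup_right (h.ctr hB s hs s' hs' i)) using 1
  simp only [mulVec_sub, Pi.sub_apply]; ring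

/-- **implicit function theorem** -/
theorem Lin.ex (h : Lin U m G B) (hm : IsNilpotent m) (hB : B' * B = 1) (hB' : B * B' = 1)
    (hU : ∀ s ∈ U, s - B' *ᵥ G s ∈ U) {s0 : σ → A} (h0 : s0 ∈ U) :
    ∃ s ∈ U, G s = 0 ∧ ∀ i, s i - s0 i ∈ sp (G s0) := by
  obtain ⟨s, hs, e, -⟩ := fix_ex hm (S := fun s => s - B' *ᵥ G s) hU (h.ctr hB) h0
  have e0 : G s = 0 := by
    have : B *ᵥ B' *ᵥ G s = 0 := by rw [sub_eq_self.1 e, mulVec_zero]
    rwa [mulVec_mulVec, hB', one_mulVec] at this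
  refine ⟨s, hs, e0, fun i => ?_⟩
  have := h.sp_le hm hB hs h0 (mem_sp (s0 - s) i)
  rw [e0, sub_zero] at this
  simpa using neg_mem this

/-- points with values in an ideal -/
theorem Lin.ex_pts {J : Ideal A} (h : Lin {z | ∀ i, z i ∈ J} m G B) (hm : IsNilpotent m)
    (hB : B' * B = 1) (hB' : B * B' = 1) (hG : ∀ s : σ → A, (∀ i, s i ∈ J) → ∀ i, G s i ∈ J)
    {s0 : σ → A} (h0 : ∀ i, s0 i ∈ J) :
    ∃ s : σ → A, (∀ i, s i ∈ J) ∧ G s = 0 ∧ ∀ i, s i - s0 i ∈ sp (G s0) :=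
  h.ex hm hB hB' (fun s hs i => J.sub_mem (hs i) (mulVec_mem B' (hG s hs) i)) h0

section Gr

variable {Γ S : Type*} [AddCommGroup Γ] [DecidableEq Γ] [SetLike S A] [AddSubgroupClass S A]
  {𝒜 : Γ → S} [GradedRing 𝒜]

theorem proj_one {κ : Type*} [DecidableEq κ] (c : κ → Γ) (i j : κ) :
    GradedRing.proj 𝒜 (c i - c j) ((1 : Matrix κ κ A) i j) = (1 : Matrix κ κ A) i j := by
  rcases eq_or_ne i j with rfl | hij
  · rw [one_apply_eq, sub_self, GradedRing.proj_apply,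
      DirectSum.decompose_of_mem_same 𝒜 SetLike.GradedOne.one_mem]
  · rw [one_apply_ne hij, map_zero]

/-- the graded implicit function theorem: only `B` has to be homogeneous -/
theorem Lin.ex_gr {d : σ → Γ} {e : τ → Γ} {J : Ideal A} (h : Lin (GP 𝒜 d J) m G B)
    (hm : IsNilpotent m) (hB : B' * B = 1) (hB' : B * B' = 1)
    (hb : ∀ i k, B i k ∈ 𝒜 (e i - d k)) (hG : ∀ s ∈ GP 𝒜 d J, G s ∈ GP 𝒜 e J)
    {s0 : σ → A} (h0 : s0 ∈ GP 𝒜 d J) :
    ∃ s ∈ GP 𝒜 d J, G s = 0 ∧ ∀ i, s i - s0 i ∈ sp (G s0) := by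
  let C : Matrix σ τ A := fun k i => GradedRing.proj 𝒜 (d k - e i) (B' k i)
  have h1 : C * B = 1 := by
    ext k l
    rw [← proj_one (𝒜 := 𝒜) d k l, ← hB, mul_apply, mul_apply,
      proj_sum (d := fun i => d k - e i) fun i => by simpa using hb i l]
  have h2 : B * C = 1 := by
    ext i j
    rw [← proj_one (𝒜 := 𝒜) e i j, ← hB', mul_apply, mul_apply]
    simp only [mul_comm (B i _)]
    rw [proj_sum (d := fun k => d k - e j) fun k => by simpa using hb i k]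
  refine h.ex hm h1 h2 (fun s hs k => ⟨sub_mem (hs k).1 (sum_mem fun i _ => ?_),
    J.sub_mem (hs k).2 (mulVec_mem C (fun i => (hG s hs i).2) k)⟩) h0
  have := SetLike.mul_mem_graded (SetLike.coe_mem (DirectSum.decompose 𝒜 (B' k i) (d k - e i)))
    (hG s hs i).1
  rwa [sub_add_cancel] at this

end Gr

omit [DecidableEq σ] [DecidableEq τ] [Fintype τ] in
open MvPolynomial in
theorem lin_poly {R : Type*} [CommRing R] [Algebra R A] (g : τ → MvPolynomial σ R)
    (hU : ∀ z ∈ U, ∀ z' ∈ U, ∀ i, z' i - z i ∈ m)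
    (hg : ∀ z ∈ U, ∀ i k, aeval z (pderiv k (g i)) - B i k ∈ m) :
    Lin U m (fun z i => aeval z (g i)) B := by
  intro z hz z' hz' i
  have h3 : sp (z' - z) ^ 2 ≤ m * sp (z' - z) := by
    rw [sq]; exact Ideal.mul_mono_left (sp_le.2 (hU z hz z' hz'))
  have h4 : ∑ k, (aeval z (pderiv k (g i)) - B i k) * (z' - z) k ∈ m * sp (z' - z) :=
    sum_mem fun k _ => Ideal.mul_mem_mul (hg z hz i k) (mem_sp (z' - z) k)
  convert add_mem (h3 (taylor_two (g i) z z').1) h4 using 1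
  simp only [mulVec, dotProduct, sub_mul, Finset.sum_sub_distrib, Pi.sub_apply, mul_sub, mul_comm]
  ring

end Crest.Agent.N255.Tg
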