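import Crest.Agent.N255.Tg.OnO

/-!
# Row 255 (helper23): critical points, Morse lemma, Tougeron absorption on the critical set
-/

set_option autoImplicit false
open Set Function Matrix Sum

noncomputable section

namespace Crest.Agent.N255.Tg

open _root_.N255.Dr _root_.N255.Dr.O Cs

section Abs

variable {A : Type*} [CommRing A] {σ τ : Type*} [Fintype σ] [Fintype τ] {m : Ideal A}

/-- first order formula for the distance of two points -/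
theorem Lin.first [DecidableEq σ] {U : Set (σ → A)} {S : (σ → A) → τ → A} {B : Matrix τ σ A}
    {B' : Matrix σ τ A} (h : Lin U m S B) (hm : IsNilpotent m) (hB : B' * B = 1) {s s' : σ → A}
    (hs : s ∈ U) (hs' : s' ∈ U) (i : σ) :
    s' i - s i - (B' *ᵥ (S s' - S s)) i ∈ m * sp (S s' - S s) := by
  convert Ideal.mul_mono_right (h.sp_le hm hB hs hs') (h.ctr hB s hs s' hs' i) using 1
  simp only [mulVec_sub, Pi.sub_apply]; ring

omit [Fintype τ] in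
theorem Lin.mem {U : Set (σ → A)} {S : (σ → A) → τ → A} {B : Matrix τ σ A} (h : Lin U m S B)
    {s s' : σ → A} (hs : s ∈ U) (hs' : s' ∈ U) (i : τ) : S s' i - S s i ∈ sp (s' - s) := by
  simpa using add_mem (Ideal.mul_le_right (h s hs s' hs' i)) (mulVec_mem B (mem_sp (s' - s)) i)

/-- second order data with constant Hessian modulo `m` -/
structure Hes (U : Set (σ → A)) (m : Ideal A) (F : (σ → A) → A) (dF : (σ → A) → σ → A)
    (Hs : Matrix σ σ A) : Prop where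
  two : ∀ z ∈ U, ∀ z' ∈ U, 2 * (F z' - F z - ∑ i, (z' i - z i) * dF z i) -
    (z' - z) ⬝ᵥ Hs *ᵥ (z' - z) ∈ m * sp (z' - z) ^ 2
  one : Lin U m dF Hs

open MvPolynomial in
theorem hes_poly {R : Type*} [CommRing R] [Algebra R A] {U : Set (σ → A)} {Hs : Matrix σ σ A}
    (Φ : MvPolynomial σ R) (hU : ∀ z ∈ U, ∀ z' ∈ U, ∀ i, z' i - z i ∈ m)
    (hΦ : ∀ z ∈ U, ∀ i k, aeval z (pderiv k (pderiv i Φ)) - Hs i k ∈ m) :
    Hes U m (fun z => aeval z Φ) (fun z i => aeval z (pderiv i Φ)) Hs := by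
  refine ⟨fun z hz z' hz' => ?_, lin_poly _ hU hΦ⟩
  have h3 : sp (z' - z) ^ 3 ≤ m * sp (z' - z) ^ 2 := by
    rw [pow_succ']; exact Ideal.mul_mono_left (sp_le.2 (hU z hz z' hz'))
  have h4 : ∑ k, ∑ i, (aeval z (pderiv k (pderiv i Φ)) - Hs i k) * ((z' - z) k * (z' - z) i) ∈
      m * sp (z' - z) ^ 2 := sum_mem fun k _ => sum_mem fun i _ => by
    rw [sq]
    exact Ideal.mul_mem_mul (hΦ z hz i k) (Ideal.mul_mem_mul (mem_sp _ k) (mem_sp _ i))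
  convert add_mem (h3 (taylor_three Φ z z')) h4 using 1
  have e : (z' - z) ⬝ᵥ Hs *ᵥ (z' - z) = ∑ k, ∑ i, Hs i k * ((z' - z) k * (z' - z) i) := by
    rw [Finset.sum_comm]
    simp only [mulVec, dotProduct, Finset.mul_sum]
    exact Finset.sum_congr rfl fun i _ => Finset.sum_congr rfl fun k _ => by ring
  simp only [e, sub_mul (aeval z _), Finset.sum_sub_distrib, mul_comm (aeval z _), Pi.sub_apply]
  ring

variable {β ξ : Type*} [Fintype β] [Fintype ξ] {U : Set (β ⊕ ξ → A)} {F : (β ⊕ ξ → A) → A}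
  {dF : (β ⊕ ξ → A) → β ⊕ ξ → A} {Hs : Matrix (β ⊕ ξ) (β ⊕ ξ) A}

/-- points that are critical in the second group of variables -/
def Cr (dF : (β ⊕ ξ → A) → β ⊕ ξ → A) : Set (β ⊕ ξ → A) := {z | ∀ k, dF z (inr k) = 0}

/-- on the critical set the Hessian is small -/
theorem Hes.crit (h : Hes U m F dF Hs) (h2 : IsUnit (2 : A)) {T : Matrix β ξ A}
    (hT : ∀ i u, Hs (inl i) u = ∑ k, T i k * Hs (inr k) u) : TayM (U ∩ Cr dF) m F dF := by
  have key : ∀ z ∈ U ∩ Cr dF, ∀ z' ∈ U ∩ Cr dF, ∀ u, (Hs *ᵥ (z' - z)) u ∈ m * sp (z' - z) := by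
    intro z hz z' hz'
    have a : ∀ k, (Hs *ᵥ (z' - z)) (inr k) ∈ m * sp (z' - z) := fun k => by
      simpa [hz.2 k, hz'.2 k] using neg_mem (h.one z hz.1 z' hz'.1 (inr k))
    rintro (i | k)
    · have : (Hs *ᵥ (z' - z)) (inl i) = ∑ k, T i k * (Hs *ᵥ (z' - z)) (inr k) := by
        simp only [mulVec, dotProduct, hT, Finset.sum_mul, Finset.mul_sum, mul_assoc]
        exact Finset.sum_comm
      rw [this]
      exact sum_mem fun k _ => Ideal.mul_mem_left _ _ (a k)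
    · exact a k
  refine ⟨fun z hz z' hz' => (Ideal.unit_mul_mem_iff_mem _ h2).1 ?_, fun z hz z' hz' u => ?_⟩
  · have : (z' - z) ⬝ᵥ Hs *ᵥ (z' - z) ∈ m * sp (z' - z) ^ 2 := sum_mem fun u _ => by
      rw [mul_comm ((z' - z) u), sq, ← mul_assoc]
      exact Ideal.mul_mem_mul (key z hz z' hz' u) (mem_sp _ u)
    simpa using add_mem (h.two z hz.1 z' hz'.1) this
  · simpa using add_mem (h.one z hz.1 z' hz'.1 u) (key z hz z' hz' u)

variable {Γ K : Type*} [AddCommGroup Γ] [Fintype Γ] [DecidableEq Γ] [CommRing K] [Algebra K A]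
  {G : Gr Γ K A} {d : β ⊕ ξ → Γ} {D : Γ} [DecidableEq ξ] {H' : Matrix ξ ξ A}

omit [Fintype β] [Fintype ξ] [DecidableEq ξ] in
theorem sp_elim (b : β → A) (x x' : ξ → A) : sp (Sum.elim b x' - Sum.elim b x) = sp (x' - x) :=
  le_antisymm (sp_le.2 (by rintro (i | k); exacts [by simp, mem_sp (x' - x) k]))
    (sp_le.2 fun k => mem_sp (Sum.elim b x' - Sum.elim b x) (inr k))

/-- existence of critical points -/
theorem crit_ex (h : Lin (HP G d m) m dF Hs) (hm : IsNilpotent m)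
    (hH : H' * Hs.toBlocks₂₂ = 1) (hg : ∀ z ∈ HP G d m, dF z ∈ HP G (fun u => D - d u) m)
    (hb : ∀ k l, G.Hg (D - d (inr k) - d (inr l)) (Hs (inr k) (inr l))) {z : β ⊕ ξ → A}
    (hz : z ∈ HP G d m) : ∃ z' ∈ HP G d m ∩ Cr dF, (∀ i, z' (inl i) = z (inl i)) ∧
      ∀ u, z' u - z u ∈ sp fun k => dF z (inr k) := by
  have hx : ∀ x ∈ HP G (d ∘ inr) m, Sum.elim (z ∘ inl) x ∈ HP G d m := fun x hx => by
    rintro (i | k); exacts [hz (inl i), hx k]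
  obtain ⟨s, hs, e, hd⟩ := Lin.ex_Gr (G := G) (d := d ∘ inr) (e := fun k => D - d (inr k))
    (S := fun x k => dF (Sum.elim (z ∘ inl) x) (inr k)) (s0 := z ∘ inr) (B := Hs.toBlocks₂₂)
    (fun x h1 x' h2 k => by
      have := h _ (hx x h1) _ (hx x' h2) (inr k)
      rw [sp_elim] at this
      convert this using 2
      simp [mulVec, dotProduct, toBlocks₂₂])
    hm hH (mul_eq_one_comm.1 hH) hb (fun x h1 k => hg _ (hx x h1) (inr k)) fun k => hz (inr k)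
  refine ⟨Sum.elim (z ∘ inl) s, ⟨hx s hs, congrFun e⟩, fun _ => rfl, ?_⟩
  rw [Sum.elim_comp_inl_inr] at hd
  rintro (i | k); exacts [by simp, hd k]

theorem projM_crit {L H : Ideal A} (h : Lin (HP G d m) m dF Hs) (hm : IsNilpotent m)
    (hH : H' * Hs.toBlocks₂₂ = 1) (hg : ∀ z ∈ HP G d m, dF z ∈ HP G (fun u => D - d u) m)
    (hb : ∀ k l, G.Hg (D - d (inr k) - d (inr l)) (Hs (inr k) (inr l))) (gm : G.Id m)
    (gL : G.Id L) (gH : G.Id H) (hL : L ≤ m) : ProjM (HP G d m ∩ Cr dF) (HT G D) m L H dF := by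
  intro z hz k P hP δ h1 h2
  obtain ⟨δ1, a1, a2, a3⟩ := projM_Gr gm gL gH hL (fun z hz i => (hg z hz i).1) z hz.1 k P hP δ h1 h2
  obtain ⟨z', b1, b2, b3⟩ := crit_ex h hm hH hg hb a1
  have c : (sp fun k => dF (z + δ1) (inr k)) ≤ m ^ k * L := sp_le.2 fun l => by
    have := h.mem hz.1 a1 (inr l)
    rw [hz.2 l, sub_zero, add_sub_cancel_left] at this
    exact sp_le.2 a2 this
  refine ⟨z' - z, by simpa using b1, fun u => ?_, ?_⟩
  · convert add_mem (c (b3 u)) (a2 u) using 1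
    simp only [Pi.sub_apply, Pi.add_apply]; ring
  · convert a3 using 2
    simp [Fintype.sum_sum_type, hz.2 _, b2]

/-- **Morse lemma** -/
theorem Hes.morse (h : Hes U m F dF Hs) (hm : IsNilpotent m) (h2 : IsUnit (2 : A))
    (hH : H' * Hs.toBlocks₂₂ = 1) (hs : Hs.toBlocks₂₂.IsSymm)
    (hb : ∀ k l, G.Hg (D - d (inr k) - d (inr l)) (Hs (inr k) (inr l))) (gm : G.Id m)
    {z z' : β ⊕ ξ → A} (hz : z ∈ U ∩ Cr dF) (hz' : z' ∈ U) (e : ∀ i, z' (inl i) = z (inl i))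
    (hd : ∀ k, G.Hg (d (inr k)) (z' (inr k) - z (inr k)) ∧ z' (inr k) - z (inr k) ∈ m)
    (hF : G.Hg D (F z' - F z)) :
    ∃ x ∈ HP G (d ∘ inr) m, (∀ k, x k - (z' (inr k) - z (inr k)) ∈
      m * sp fun k => z' (inr k) - z (inr k)) ∧ 2 * (F z' - F z) = x ⬝ᵥ Hs.toBlocks₂₂ *ᵥ x := by
  set Q := Hs.toBlocks₂₂ with hQ
  set δ : ξ → A := fun k => z' (inr k) - z (inr k) with hδ
  have t2 : G.Hg 0 (2 : A) := by simpa only [map_ofNat] using G.hg_alg (2 : K)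
  have hq : ∀ x ∈ HP G (d ∘ inr) m, ∀ k, G.Hg (D - d (inr k)) ((Q *ᵥ x) k) := fun x hx k =>
    Gr.Hg.sum fun l _ => ((hb k l).mul (hx l).1).cast (sub_add_cancel _ _)
  have hqq : ∀ x ∈ HP G (d ∘ inr) m, G.Hg D (x ⬝ᵥ Q *ᵥ x) := fun x hx =>
    Gr.Hg.sum fun k _ => ((hx k).1.mul (hq x hx k)).cast (add_sub_cancel _ _)
  have tay : TayM (HP G (d ∘ inr) m) ⊤ (fun x => x ⬝ᵥ Q *ᵥ x) fun x k => 2 * (Q *ᵥ x) k := by
    refine Tay.top ⟨fun x _ x' _ => ?_, fun x _ x' _ k => ?_⟩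
    · have c : x ⬝ᵥ Q *ᵥ x' = x' ⬝ᵥ Q *ᵥ x := by
        rw [dotProduct_mulVec, ← mulVec_transpose, hs.eq, dotProduct_comm]
      have : x' ⬝ᵥ Q *ᵥ x' - x ⬝ᵥ Q *ᵥ x - ∑ i, (x' i - x i) * (2 * (Q *ᵥ x) i) =
          (x' - x) ⬝ᵥ Q *ᵥ (x' - x) := by
        have : ∑ i, (x' i - x i) * (2 * (Q *ᵥ x) i) = 2 * ((x' - x) ⬝ᵥ Q *ᵥ x) := by
          simp only [dotProduct, Finset.mul_sum, Pi.sub_apply, mul_left_comm]
        simp only [this, mulVec_sub, sub_dotProduct, dotProduct_sub, c]; ring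
      rw [this, sq]
      exact sum_mem fun u _ => Ideal.mul_mem_mul (mem_sp _ u) (mulVec_mem Q (mem_sp _) u)
    · rw [← mul_sub]
      refine Ideal.mul_mem_left _ _ ?_
      simpa only [mulVec_sub, Pi.sub_apply] using mulVec_mem Q (mem_sp (x' - x)) k
  have hJ : sp δ ≤ sp fun k => 2 * (Q *ᵥ δ) k := sp_le.2 fun k => by
    have := mulVec_mem H' (v := Q *ᵥ δ) (J := sp fun k => 2 * (Q *ᵥ δ) k)
      (fun l => (Ideal.unit_mul_mem_iff_mem _ h2).1 (mem_sp (fun k => 2 * (Q *ᵥ δ) k) l)) k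
    rwa [mulVec_mulVec, hH, one_mulVec] at this
  have hP : 2 * (F z' - F z) - δ ⬝ᵥ Q *ᵥ δ ∈ m * sp δ ^ 2 := by
    have e1 : z' - z = Sum.elim (0 : β → A) δ - Sum.elim (0 : β → A) (0 : ξ → A) := funext (by rintro (i | k) <;> simp [e, hδ])
    have := h.two z hz.1 z' hz'
    rw [e1, sp_elim, sub_zero] at this
    convert this using 2
    · simp [Fintype.sum_sum_type, hz.2 _, e]
    · simp [mulVec, dotProduct, hQ, toBlocks₂₂]
  have gδ : G.Id (sp δ) := G.id_span_hg (by rintro _ ⟨k, rfl⟩; exact ⟨_, (hd k).1⟩)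
  obtain ⟨x, hx, a1, a2⟩ := toug (M' := m) (K := ⊥) (H := ⊥) (L := m * sp δ) (k := 0) (T := HT G D)
    (z := δ) (P := 2 * (F z' - F z) - δ ⬝ᵥ Q *ᵥ δ) tay hm (by simp) bot_le (by simp) hqq
    (projM_Gr gm (gm.mul gδ) G.id_bot Ideal.mul_le_left fun x hx k =>
      (t2.mul (hq x hx k)).cast (zero_add _)) hd (le_sup_of_le_left (Ideal.mul_mono_right hJ))
    (((t2.mul hF).cast (zero_add _)).sub (hqq δ hd)) (by
      rw [pow_zero, one_mul, sup_bot_eq]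
      rw [sq, ← mul_assoc] at hP
      exact Ideal.mul_mono_right hJ hP)
  refine ⟨x, hx, by simpa using a1, ?_⟩
  linear_combination -(Ideal.mem_bot.1 a2)

end Abs

variable {p : ℕ} {K : Type} [CommRing K] {σ β ξ : Type} {A : Type*} [CommRing A] [Algebra K A]
  [Fact p.Prime] [Fact ((p : K) = 0)] [Fintype σ] [Fintype β] [Fintype ξ] [DecidableEq ξ]
  {Γ : Type*} [AddCommGroup Γ] [Fintype Γ] [DecidableEq Γ]
  {GO : Gr Γ K (O p K σ)} {G : Gr Γ K A} {d : σ → Γ} {m : Ideal A}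

omit [Fact ((p : K) = 0)] [Fintype σ] in
theorem hg_aug (hO : ∀ i, GO.Hg (d i) (z i)) {a : Γ} {f : O p K σ} (hf : GO.Hg a f) :
    G.Hg a (algebraMap K A (aug f)) := by
  rcases eq_or_ne a 0 with rfl | ha
  · exact G.hg_alg _
  have h := id_mx hO 0 _ (sub_aug_mem f)
  rw [map_sub, hf.ne ha.symm, show GO.pr 0 _ = _ from GO.hg_alg (aug f), zero_sub, neg_mem_iff,
    mem_mx, AlgHom.commutes] at h
  rw [show aug f = 0 from h, map_zero]
  exact G.hg_zero a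

/-- the Hessian at the origin -/
def hess (e : β ⊕ ξ → σ) (W : O p K σ) : Matrix (β ⊕ ξ) (β ⊕ ξ) K :=
  fun u v => aug (pd (e v) (pd (e u) W))

/-- the hypotheses on a potential with far variables `e (inl _)` and Gaussian variables
`e (inr _)` -/
structure Gau (GO : Gr Γ K (O p K σ)) (d : σ → Γ) (D : Γ) (e : β ⊕ ξ → σ) (W : O p K σ) : Prop where
  hz : ∀ i, GO.Hg (d i) (z i)
  inj : Injective e
  hg : GO.Hg D W
  lin : ∀ u, pd (e u) W ∈ mx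
  inv : ∃ H' : Matrix ξ ξ K, H' * (hess e W).toBlocks₂₂ = 1
  row : ∃ T : Matrix β ξ K, ∀ i u, hess e W (inl i) u = ∑ k, T i k * hess e W (inr k) u

/-- graded local substitutions -/
def Loc (G : Gr Γ K A) (d : σ → Γ) (m : Ideal A) (φ : O p K σ →ₐ[K] A) : Prop :=
  ∀ u, G.Hg (d u) (φ (z u)) ∧ φ (z u) ∈ m

variable {D : Γ} {e : β ⊕ ξ → σ} {W : O p K σ} {φ : O p K σ →ₐ[K] A}

theorem Gau.pkg (h : Gau GO d D e W) (hp : ∀ x ∈ m, x ^ p = 0) (hφ : Loc G d m φ) :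
    ∃ (F : (β ⊕ ξ → A) → A) (dF : (β ⊕ ξ → A) → β ⊕ ξ → A),
      Hes (HP G (d ∘ e) m) m F dF ((hess e W).map (algebraMap K A)) ∧
      (∀ ψ : O p K σ →ₐ[K] A, (∀ u, u ∉ range e → ψ (z u) = φ (z u)) →
        F (fun i => ψ (z (e i))) = ψ W ∧ ∀ u, dF (fun i => ψ (z (e i))) u = ψ (pd (e u) W)) ∧
      (∀ b ∈ HP G (d ∘ e) m, ∃ ψ : O p K σ →ₐ[K] A, Loc G d m ψ ∧
        (∀ u, u ∉ range e → ψ (z u) = φ (z u)) ∧ b = fun i => ψ (z (e i))) ∧
      (∀ b ∈ HP G (d ∘ e) m, G.Hg D (F b) ∧ dF b ∈ HP G (fun u => D - (d ∘ e) u) m) ∧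
      ∀ u v, G.Hg (D - d (e u) - d (e v)) ((hess e W).map (algebraMap K A) u v) := by
  obtain ⟨Φ, hΦ⟩ := exists_poly h.inj φ W
  have hu : ∀ b ∈ HP G (d ∘ e) m, ∃ ψ : O p K σ →ₐ[K] A, Loc G d m ψ ∧
      (∀ u, u ∉ range e → ψ (z u) = φ (z u)) ∧ b = fun i => ψ (z (e i)) := fun b hb =>
    ⟨upd hp e φ b fun i => (hb i).2, fun u => by
      by_cases hu : u ∈ range e
      · obtain ⟨i, rfl⟩ := hu
        rw [upd_e hp h.inj]; exact hb i
      · rw [upd_not hp e φ b _ hu]; exact hφ u, fun u => upd_not hp e φ b _,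
      (upd_pt hp h.inj φ b _).symm⟩
  refine ⟨_, _, hes_poly Φ (fun b hb b' hb' i => m.sub_mem (hb' i).2 (hb i).2) fun b hb i k => ?_,
    fun ψ hψ => ⟨(hΦ ψ hψ).1, (hΦ ψ hψ).2.1⟩, hu, fun b hb => ?_,
    fun u v => hg_aug h.hz (hg_pd h.hz (hg_pd h.hz h.hg _) _)⟩
  · obtain ⟨ψ, h1, h2, rfl⟩ := hu b hb
    rw [(hΦ ψ h2).2.2]
    simpa [hess] using map_mx ψ (fun u => (h1 u).2) (sub_aug_mem (pd (e k) (pd (e i) W)))
  · obtain ⟨ψ, h1, h2, rfl⟩ := hu b hb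
    have g := hom_of_z h.hz fun u => (h1 u).1
    refine ⟨by rw [(hΦ ψ h2).1]; exact g.hg h.hg, fun u => ?_⟩
    simp only [(hΦ ψ h2).2.1]
    exact ⟨g.hg (hg_pd h.hz h.hg _), map_mx ψ (fun u => (h1 u).2) (h.lin u)⟩

omit [Fintype σ] [Fintype β] in
theorem inv_map {H' : Matrix ξ ξ K} (h : H' * (hess e W).toBlocks₂₂ = 1) :
    H'.map (algebraMap K A) * ((hess e W).map (algebraMap K A)).toBlocks₂₂ = 1 := by
  rw [show ((hess e W).map (algebraMap K A)).toBlocks₂₂ =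
      (hess e W).toBlocks₂₂.map (algebraMap K A) from rfl,
    ← Matrix.map_mul, h, Matrix.map_one _ (map_zero _) (map_one _)]

omit [Fact p.Prime] [Fact ((p : K) = 0)] [Fintype σ] [Fintype β] [Fintype ξ] [DecidableEq ξ] in
theorem mem_of_e {ψ : O p K σ →ₐ[K] A} {L : Ideal A} (h : ∀ u, u ∉ range e → ψ (z u) = φ (z u))
    (h' : ∀ i, ψ (z (e i)) - φ (z (e i)) ∈ L) (u : σ) : ψ (z u) - φ (z u) ∈ L := by
  by_cases hu : u ∈ range e
  · obtain ⟨i, rfl⟩ := hu; exact h' i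
  · rw [h u hu, sub_self]; exact zero_mem _

/-- move the Gaussian variables to the critical point -/
theorem Gau.crit (h : Gau GO d D e W) (hm : IsNilpotent m) (hp : ∀ x ∈ m, x ^ p = 0)
    (hφ : Loc G d m φ) : ∃ ψ : O p K σ →ₐ[K] A, Loc G d m ψ ∧
      (∀ u, u ∉ range (e ∘ inr) → ψ (z u) = φ (z u)) ∧ (∀ k, ψ (pd (e (inr k)) W) = 0) ∧
      ∀ u, ψ (z u) - φ (z u) ∈ sp fun k => φ (pd (e (inr k)) W) := by
  obtain ⟨F, dF, hH, h1, hu, hg, hb⟩ := h.pkg hp hφ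
  obtain ⟨H', hH'⟩ := h.inv
  obtain ⟨b, a1, a2, a3⟩ := crit_ex (D := D) (z := fun i => φ (z (e i))) hH.one hm (inv_map hH')
    (fun b hb => (hg b hb).2) (fun k l => hb _ _) fun i => hφ (e i)
  obtain ⟨ψ, c1, c2, rfl⟩ := hu b a1.1
  refine ⟨ψ, c1, fun u hu => ?_, fun k => by rw [← (h1 ψ c2).2]; exact a1.2 k,
    mem_of_e c2 (by simpa only [(h1 φ fun _ _ => rfl).2] using a3)⟩
  by_cases h : u ∈ range e
  · obtain ⟨i | k, rfl⟩ := h
    exacts [a2 i, absurd ⟨k, rfl⟩ hu]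
  · exact c2 u h

/-- **Tougeron on the critical set** -/
theorem Gau.toug (h : Gau GO d D e W) (h2 : IsUnit (2 : A)) (hm : IsNilpotent m)
    (hp : ∀ x ∈ m, x ^ p = 0) (gm : G.Id m) (hφ : Loc G d m φ)
    (hc : ∀ k, φ (pd (e (inr k)) W) = 0) {L Kk H : Ideal A} (gL : G.Id L) (gH : G.Id H)
    (hLm : L ≤ m) (hK : Kk ≤ L) (hKH : Kk * Kk ≤ H) (hL : L ≤ sp (fun u => φ (pd (e u) W)) ⊔ Kk)
    {P : A} (hP : G.Hg D P) (hI : P ∈ L ^ 2 ⊔ H) :
    ∃ ψ : O p K σ →ₐ[K] A, Loc G d m ψ ∧ (∀ u, u ∉ range e → ψ (z u) = φ (z u)) ∧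
      (∀ k, ψ (pd (e (inr k)) W) = 0) ∧ (∀ u, ψ (z u) - φ (z u) ∈ L) ∧ ψ W - φ W - P ∈ H := by
  obtain ⟨F, dF, hH, h1, hu, hg, hb⟩ := h.pkg hp hφ
  obtain ⟨H', hH'⟩ := h.inv
  obtain ⟨T, hT⟩ := h.row
  have h0 := h1 φ fun _ _ => rfl
  obtain ⟨b, a1, a2, a3⟩ := toug_sq (T := HT G D) (z := fun i => φ (z (e i)))
    (hH.crit h2 (T := T.map (algebraMap K A)) fun i u => by simp [hT]) hm hK hKH
    (fun b hb => (hg b hb.1).1)
    (projM_crit hH.one hm (inv_map hH') (fun b hb => (hg b hb).2) (fun k l => hb _ _) gm gL gH hLm)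
    ⟨fun i => hφ (e i), fun k => by rw [h0.2, hc]⟩ (by rwa [funext h0.2]) hP hI
  obtain ⟨ψ, c1, c2, rfl⟩ := hu b a1.1
  exact ⟨ψ, c1, c2, fun k => by rw [← (h1 ψ c2).2]; exact a1.2 k, mem_of_e c2 a2, by
    rwa [(h1 ψ c2).1, h0.1] at a3⟩

/-- **Morse lemma for substitutions** -/
theorem Gau.morse (h : Gau GO d D e W) (h2 : IsUnit (2 : A)) (hm : IsNilpotent m)
    (hp : ∀ x ∈ m, x ^ p = 0) (gm : G.Id m) (hφ : Loc G d m φ)
    (hc : ∀ k, φ (pd (e (inr k)) W) = 0) {ψ : O p K σ →ₐ[K] A} (hψ : Loc G d m ψ)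
    (he : ∀ u, u ∉ range (e ∘ inr) → ψ (z u) = φ (z u)) :
    ∃ x ∈ HP G (fun k => d (e (inr k))) m,
      (∀ k, x k - (ψ (z (e (inr k))) - φ (z (e (inr k)))) ∈
        m * sp fun k => ψ (z (e (inr k))) - φ (z (e (inr k)))) ∧
      2 * (ψ W - φ W) = x ⬝ᵥ (hess e W).toBlocks₂₂.map (algebraMap K A) *ᵥ x := by
  obtain ⟨F, dF, hH, h1, hu, hg, hb⟩ := h.pkg hp hφ
  obtain ⟨H', hH'⟩ := h.inv
  have h0 := h1 φ fun _ _ => rfl
  have h3 := h1 ψ fun u hu => he u fun ⟨k, hk⟩ => hu ⟨_, hk⟩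
  have := hH.morse (G := G) (d := d ∘ e) (D := D) (z := fun i => φ (z (e i)))
    (z' := fun i => ψ (z (e i))) hm h2 (inv_map hH')
    (Matrix.ext fun k l => congrArg (fun f => algebraMap K A (aug f)) (pd_comm _ _ W))
    (fun k l => hb _ _) gm ⟨fun i => hφ (e i), fun k => by rw [h0.2, hc]⟩ (fun i => hψ (e i))
    (fun i => he _ fun ⟨k, hk⟩ => by simpa using h.inj hk)
    (fun k => ⟨(hψ _).1.sub (hφ _).1, m.sub_mem (hψ _).2 (hφ _).2⟩)
    ((hg _ fun i => hψ (e i)).1.sub (hg _ fun i => hφ (e i)).1)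
  rwa [h0.1, h3.1] at this

end Crest.Agent.N255.Tg

end
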