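import Crest.Agent.N255.Tg.PV

/-!
# Row 255 (helper23): the standard weight instance of `PVxH`
-/

set_option autoImplicit false
open Set Function Sum

noncomputable section

namespace Crest.Agent.N255.Tg

open _root_.N255.Dr _root_.N255.Dr.O
open _root_.N255.Core (Wall Ok Xi Hi lin vw yi VxH)

variable {p : ℕ} [Fact p.Prime] {Γ : Type} [AddCommGroup Γ] {δ : Γ} {s : Fin 3 → Type}
  [∀ i, Fintype (s i)] {w : ∀ i, Wall p Γ δ (s i)} {t : Fin 3 → Bool} {V : Type} [Fintype V]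

/-- A vertex identity up to `L * L' + H`, shifts controlled by the weights `om i` and `N1`. -/
structure PVxS (w : ∀ i, Wall p Γ δ (s i)) (t : Fin 3 → Bool) (N La : ℕ) (V : Type)
    [Fintype V] where
  em : (Σ i, s i) × Bool → V
  inj : Set.InjOn em {q | Ok w t q}
  FV : V → ℕ
  hF : ∀ i x, Ok w t (⟨i, x⟩, false) → FV (em (⟨i, x⟩, false)) = N + (w i).F x
  hm : ∀ i x, Ok w t (⟨i, x⟩, true) → 0 < FV (em (⟨i, x⟩, true)) ∧ FV (em (⟨i, x⟩, true)) ≤ La
  pos : ∀ i x, 0 < N + (w i).F x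
  hLa : 0 < La
  om : Fin 3 → V → ℕ
  om_le : ∀ i v, om i v ≤ FV v
  om_em : ∀ i x, Ok w t (⟨i, x⟩, false) → om i (em (⟨i, x⟩, false)) = N + (w i).F x
  Bad : Finset V
  cheap : ∀ i q, Ok w t q → q.1.1 ≠ i → em q ∉ Bad → 3 * om i (em q) ≤ FV (em q)
  bad : ∀ q : Xi w t, em q.1 ∈ Bad
  small : 4 * (p * ∑ v ∈ Bad, FV v) < La
  io : ∀ i, O p (ZMod p) (s i) →ₐ[ZMod p] O p (ZMod p) V
  near : ∀ i x, (w i).kd x = some (t i) →
    Hi (om i) (N + (w i).F x) (io i (z x) - z (em (⟨i, x⟩, false)))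
  far : ∀ i x, (w i).kd x = some (!t i) → Hi (om i) (N + (w i).F x) (io i (z x))
  h : ∀ i, s i → s i → O p (ZMod p) V
  hy : ∀ i y, (w i).kd y = none → io i (z y) = ys (w := w) (fun x => z (em (⟨i, x⟩, false))) (h i) y
  N1 : ℕ
  hN1 : 0 < N1
  nu : ℕ
  hnu1 : nu ≤ N1
  hh : ∀ i y y', h i y y' ∈ mx ∧ h i y y' ∈ Ge p (ZMod p) FV nu
  ho : ∀ i y y', (w i).kd y = none → (w i).kd y' = none →
    h i y y' ∈ Ge p (ZMod p) (om i) ((w i).F y + 1 - (w i).F y')
  hnu : ∀ i y y', (w i).kd y = none → (w i).kd y' = none → (w i).F y ≤ (w i).F y' + nu ∧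
    (t i = false → FV (em (⟨i, y'⟩, true)) ≤ FV (em (⟨i, y⟩, true)) + nu)
  c : ∀ i, s i → ZMod p
  hc : ∀ i x, t i = false → (w i).kd x = none → c i x ≠ 0
  Ps : O p (ZMod p) V
  Ps2 : Ps ∈ (mx : Ideal (O p (ZMod p) V)) ^ 2
  hPs : Ps ∈ _root_.N255.Core.Ge (vw w t La em FV) (3 * La)
  Wm : ∀ i a, t i = false → (w i).kd a = none →
    Hi (fun x => N + (w i).F x) (FV (em (⟨i, a⟩, true))) (pd a (w i).W)
  Pm : ∀ q : Xi w t, Hi FV (FV (em (bar q).1)) (pd (em q.1) Ps)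
  Po : ∀ i (q : Xi w t), xi' em io h Ps q ∈ Ge p (ZMod p) (om i) (om i (em (bar q).1))
  Sh : ∀ i, s i → Prop
  iso : ∀ i x x', Sh i x → Sh i x' →
    lin x (pd x' (w i).W) = 0 ∨ N1 ≤ N + (w i).F x ∨ N1 ≤ N + (w i).F x'
  L : Ideal (O p (ZMod p) V)
  L' : Ideal (O p (ZMod p) V)
  K : Ideal (O p (ZMod p) V)
  H : Ideal (O p (ZMod p) V)
  hK1 : ∀ i, K ≤ Ge p (ZMod p) (om i) N1
  hK2 : K ≤ mx ^ 2
  hKq : ∀ q : Xi w t, K ≤ Ge p (ZMod p) FV (FV (em q.1) + 1)
  hKo : ∀ i (q : Xi w t), K ≤ Ge p (ZMod p) (om i) (om i (em q.1))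
  KK : K * K ≤ H
  HK : ∀ R ∈ H, ∀ q : Xi w t, pd (em q.1) R ∈ K
  H2 : H ≤ mx ^ 2
  Hw : ∀ R ∈ H, Hi (vw w t La em FV) (3 * La) R
  hL : L ≤ L'
  up : L ≤ (⨅ i, Ge p (ZMod p) (om i) N1) ⊔
    sp fun q : Xi w t => c q.1.1.1 q.1.1.2 • z (em (bar q).1) + xi' em io h Ps q
  det : L' ≤ (⨆ i, ⨆ x, ⨆ _ : (w i).kd x ≠ none ∧ Sh i x,
      Ge p (ZMod p) (om i) ((N + (w i).F x : ℕ) + 1 - N1) * Ideal.span {io i (pd x (w i).W)}) ⊔
    (⨆ i, ⨆ y, ⨆ y', ⨆ _ : (w i).kd y = none ∧ (w i).kd y' = none,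
      Ge p (ZMod p) (om i) ((w i).F y + 1 - (w i).F y' - N1) *
        Ideal.span {z (em (⟨i, y'⟩, false)) * io i (pd y (w i).W)}) ⊔
    (sp fun q : Xi w t => c q.1.1.1 q.1.1.2 • z (em (bar q).1) + xi' em io h Ps q) ⊔ K
  sq : ∑ i, (if t i = true then io i (w i).W else -io i (w i).W) +
    ∑ i, ∑ x, (if t i = false ∧ (w i).kd x = none then
      c i x • (z (em (⟨i, x⟩, false)) * z (em (⟨i, x⟩, true))) else 0) + Ps ∈ L * L' ⊔ H

namespace PVxS

variable {N La : ℕ} (v : PVxS w t N La V)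

open Classical in
/-- the general form -/
def toH : PVxH w t N La V :=
  { v with
    hF := fun i x hx => v.hF i x (ok_y hx)
    hFn := fun i x hx => v.hF i x (ok_near hx)
    hio := fun i x hx => by
      have : v.io i (z x) ∈ Ge p (ZMod p) (v.om i) (N + (w i).F x : ℕ) := by
        by_cases hn : (w i).kd x = some (t i)
        · have h1 := z_mem_Ge (p := p) (K := ZMod p) (v.om i) (v.em (⟨i, x⟩, false))
          rw [v.om_em i x (ok_near hn)] at h1
          simpa using add_mem ((flt_Ge _).anti (by omega) (hi_Ge.1 (v.near i x hn))) h1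
        · refine (flt_Ge _).anti (by omega) (hi_Ge.1 (v.far i x ?_))
          rcases hk : (w i).kd x with _ | b
          · exact absurd hk hx
          · rw [hk] at hn; cases b <;> simp_all
      exact ⟨Ge_le_mx (by have := v.pos i x; omega) this, Ge_mono (v.om_le i) le_rfl this⟩
    nu := fun _ _ _ => v.nu
    Pmm := fun q q' _ => pmm_of v.inj (_root_.N255.Core.hi_iff.2
      (_root_.N255.Core.Ge_anti (by have := v.hLa; omega) v.hPs)) q q'
    C := fun i x => if v.Sh i x then Ge p (ZMod p) (v.om i) ((N + (w i).F x : ℕ) + 1 - v.N1) else ⊥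
    C' := fun i y y' => Ge p (ZMod p) (v.om i) ((w i).F y + 1 - (w i).F y' - v.N1)
    iso := fun i x x' _ _ => by
      by_cases h1 : v.Sh i x; swap
      · simp [h1]
      by_cases h2 : v.Sh i x'; swap
      · simp [h2]
      rw [if_pos h1, if_pos h2]
      exact (v.iso i x x' h1 h2).imp_right fun h => h.elim
        (fun h => Ideal.mul_le_left.trans (Ge_le_mx (by omega)))
        fun h => Ideal.mul_le_right.trans (Ge_le_mx (by omega))
    mu := v.N1
    hC := fun i x _ => by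
      split_ifs
      exacts [Ge_mono (v.om_le i) (by omega), bot_le]
    hC' := fun i y y' => le_top.trans ((flt_Ge _).zero.ge.trans
      ((flt_Ge _).anti (by have := v.hnu1; omega)))
    L0 := ⨅ i, Ge p (ZMod p) (v.om i) v.N1
    h0 := le_inf ((iInf_le _ 0).trans (Ge_le_mx (by have := v.hN1; omega)))
      ((iInf_le _ 0).trans (Ge_mono (v.om_le 0) le_rfl))
    st := fun θ th => ⟨fun f hf => (Submodule.mem_iInf _).2 fun i =>
        map_Ge (flt_Ge _) (th.om i) ((Submodule.mem_iInf _).1 hf i), fun i x f hf => by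
        split_ifs at hf ⊢
        exacts [map_Ge (flt_Ge _) (th.om i) hf, by simpa using congrArg θ hf],
      fun i y y' f hf => map_Ge (flt_Ge _) (th.om i) hf⟩
    hK0 := le_iInf v.hK1
    det := v.det.trans (sup_le_sup_right (sup_le_sup_right (sup_le_sup_right
      (iSup_mono fun i => iSup_mono fun x => iSup_le fun hx =>
        le_iSup_of_le hx.1 (by rw [if_pos hx.2])) _) _) _)
    sh := fun i x _ => by
      split_ifs
      exacts [(flt_Ge _).mul_le (iInf_le _ i) le_rfl (by omega), by simp]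
    sh' := fun i y y' _ _ => (flt_Ge _).mul_le (iInf_le _ i) le_rfl (by omega) }

/-- **step 3 of the producer**, standard weights -/
theorem vxH : ∃ u : VxH w t N La V, ∀ al : ∀ i, s i, (∀ i, (w i).kd (al i) = none) → u.cub al =
    aug (pd (v.em (⟨0, al 0⟩, !t 0)) (pd (v.em (⟨1, al 1⟩, !t 1)) (pd (v.em (⟨2, al 2⟩, !t 2)) v.Ps))) :=
  v.toH.vxH

end PVxS

end Crest.Agent.N255.Tg

end
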