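import Crest.Agent.N255.Tg.Ab
import Crest.Agent.N255.Core.GenH

/-!
# Row 255 (helper23): vertex identities up to `L * L'` give exact vertex identities
-/

set_option autoImplicit false
open Set Function Sum

noncomputable section

namespace Crest.Agent.N255.Tg

open _root_.N255.Dr _root_.N255.Dr.O
open _root_.N255.Core (Wall Ok Xi Hi lin vw yi VxH)

variable {p : ℕ} [Fact p.Prime] {Γ : Type} [AddCommGroup Γ] {δ : Γ} {s : Fin 3 → Type}
  [∀ i, Fintype (s i)] {w : ∀ i, Wall p Γ δ (s i)} {t : Fin 3 → Bool} {V : Type} [Fintype V]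

theorem hi_Ge {FV : V → ℕ} {n : ℕ} {f : O p (ZMod p) V} :
    Hi FV n f ↔ f ∈ Ge p (ZMod p) FV (n + 1) := by
  rw [mem_Ge]
  exact forall₂_congr fun a _ => by unfold wt; omega

theorem core_Ge {FV : V → ℕ} {n : ℕ} {f : O p (ZMod p) V} :
    f ∈ _root_.N255.Core.Ge FV n ↔ f ∈ Ge p (ZMod p) FV n := by
  rw [mem_Ge, _root_.N255.Core.mem_Ge]
  exact forall₂_congr fun a _ => by unfold wt; omega

/-- the dual Gaussian variable -/
def bar (q : Xi w t) : Xi w t := ⟨(q.1.1, !q.1.2), q.2⟩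

omit [Fact p.Prime] in
theorem xi_ok (q : Xi w t) : Ok w t q.1 := by
  rcases q with ⟨⟨q, _ | _⟩, h⟩
  · exact Or.inl ⟨rfl, by rw [h.2]; simp⟩
  · exact Or.inr ⟨rfl, h⟩

omit [Fact p.Prime] in
theorem ok_y {i : Fin 3} {x : s i} (h : (w i).kd x = none) : Ok w t (⟨i, x⟩, false) :=
  Or.inl ⟨rfl, by rw [h]; simp⟩

omit [Fact p.Prime] in
theorem ok_near {i : Fin 3} {x : s i} (h : (w i).kd x = some (t i)) : Ok w t (⟨i, x⟩, false) :=
  Or.inl ⟨rfl, by rw [h]; simp⟩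

/-- the hyperbolic structure on the Gaussian variables -/
def hyp (w : ∀ i, Wall p Γ δ (s i)) (t : Fin 3 → Bool) (F : (Σ i, s i) × Bool → ℕ) :
    Hyp (Xi w t) where
  bar := bar
  ty q := q.1.2
  F q := F q.1
  bb q := Subtype.ext (by simp [bar])
  tb _ := rfl

theorem QQ_eq {A : Type*} [CommRing A] [Algebra (ZMod p) A] (F : (Σ i, s i) × Bool → ℕ)
    (c : ∀ i, s i → ZMod p) (ζ : (Σ i, s i) × Bool → A) :
    (hyp w t F).QQ (fun q => c q.1.1.1 q.1.1.2) (fun q => ζ q.1) =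
      ∑ i, ∑ x, if t i = false ∧ (w i).kd x = none then
        c i x • (ζ (⟨i, x⟩, false) * ζ (⟨i, x⟩, true)) else 0 := by
  have := Finset.sum_subtype
    (p := fun q : (Σ i, s i) × Bool => t q.1.1 = false ∧ (w q.1.1).kd q.1.2 = none)
    (F := inferInstance)
    (Finset.univ.filter fun q => t q.1.1 = false ∧ (w q.1.1).kd q.1.2 = none) (by simp)
    fun q => if q.2 = true then 0 else c q.1.1 q.1.2 • (ζ q * ζ (q.1, !q.2))
  refine this.symm.trans ?_
  rw [Finset.sum_filter, Fintype.sum_prod_type, Fintype.sum_sigma]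
  simp

/-- the boundary substitution `y + ∑ y' h y y'` -/
def ys {A : Type*} [CommRing A] {i : Fin 3} (ζ : s i → A) (h : s i → s i → A) (y : s i) : A :=
  ζ y + ∑ y', if (w i).kd y' = none then ζ y' * h y y' else 0

/-- the derivative of a wall potential along the variable `y` of the vertex -/
def dy {i : Fin 3} (io : O p (ZMod p) (s i) →ₐ[ZMod p] O p (ZMod p) V)
    (h : s i → s i → O p (ZMod p) V) (y' : s i) : O p (ZMod p) V :=
  io (pd y' (w i).W) + ∑ y, if (w i).kd y = none then h y y' * io (pd y (w i).W) else 0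

/-- the partial derivatives of the vertex potential in the Gaussian variables, non linear part -/
def xi' (em : (Σ i, s i) × Bool → V) (io : ∀ i, O p (ZMod p) (s i) →ₐ[ZMod p] O p (ZMod p) V)
    (h : ∀ i, s i → s i → O p (ZMod p) V) (Ps : O p (ZMod p) V) (q : Xi w t) : O p (ZMod p) V :=
  (if q.1.2 = true then 0 else -dy (w := w) (io q.1.1.1) (h q.1.1.1) q.1.1.2) + pd (em q.1) Ps

/-- A vertex identity up to `L * L' + H`. -/
structure PV (w : ∀ i, Wall p Γ δ (s i)) (t : Fin 3 → Bool) (N : ℕ) (V : Type) [Fintype V] where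
  em : (Σ i, s i) × Bool → V
  inj : Set.InjOn em {q | Ok w t q}
  FV : V → ℕ
  hF : ∀ i x, (w i).kd x = none → FV (em (⟨i, x⟩, false)) = N + (w i).F x
  om : Fin 3 → V → ℕ
  io : ∀ i, O p (ZMod p) (s i) →ₐ[ZMod p] O p (ZMod p) V
  hio : ∀ i x, (w i).kd x ≠ none →
    io i (z x) ∈ mx ∧ io i (z x) ∈ Ge p (ZMod p) FV (N + (w i).F x : ℕ)
  h : ∀ i, s i → s i → O p (ZMod p) V
  hy : ∀ i y, (w i).kd y = none → io i (z y) = ys (w := w) (fun x => z (em (⟨i, x⟩, false))) (h i) y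
  nu : ∀ i, s i → s i → ℕ
  hh : ∀ i y y', h i y y' ∈ mx ∧ h i y y' ∈ Ge p (ZMod p) FV (nu i y y')
  hnu : ∀ i y y', (w i).kd y = none → (w i).kd y' = none → (w i).F y ≤ (w i).F y' + nu i y y' ∧
    (t i = false → FV (em (⟨i, y'⟩, true)) ≤ FV (em (⟨i, y⟩, true)) + nu i y y')
  c : ∀ i, s i → ZMod p
  hc : ∀ i x, t i = false → (w i).kd x = none → c i x ≠ 0
  Ps : O p (ZMod p) V
  Wm : ∀ i a, t i = false → (w i).kd a = none →
    Hi (fun x => N + (w i).F x) (FV (em (⟨i, a⟩, true))) (pd a (w i).W)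
  Pm : ∀ q : Xi w t, Hi FV (FV (em (bar q).1)) (pd (em q.1) Ps)
  Pmm : ∀ q q' : Xi w t, q.1.2 = true → pd (em q.1) (pd (em q'.1) Ps) ∈ mx
  Po : ∀ i (q : Xi w t), xi' em io h Ps q ∈ Ge p (ZMod p) (om i) (om i (em (bar q).1))
  C : ∀ i, s i → Ideal (O p (ZMod p) V)
  C' : ∀ i, s i → s i → Ideal (O p (ZMod p) V)
  iso : ∀ i x x', (w i).kd x ≠ none → (w i).kd x' ≠ none →
    lin x (pd x' (w i).W) = 0 ∨ C i x * C i x' ≤ mx
  mu : ℤ
  hC : ∀ i x, (w i).kd x ≠ none → C i x ≤ Ge p (ZMod p) FV ((N + (w i).F x : ℕ) - mu)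
  hC' : ∀ i y y', C' i y y' ≤ Ge p (ZMod p) FV (nu i y y' - mu)
  L0 : Ideal (O p (ZMod p) V)
  L : Ideal (O p (ZMod p) V)
  L' : Ideal (O p (ZMod p) V)
  K : Ideal (O p (ZMod p) V)
  H : Ideal (O p (ZMod p) V)
  h0 : L0 ≤ mx ⊓ Ge p (ZMod p) FV mu
  st : ∀ θ : O p (ZMod p) V →ₐ[ZMod p] O p (ZMod p) V, Th (fun q : Xi w t => em q.1) FV om θ →
    (∀ f ∈ L0, θ f ∈ L0) ∧ (∀ i x, ∀ f ∈ C i x, θ f ∈ C i x) ∧
      ∀ i y y', ∀ f ∈ C' i y y', θ f ∈ C' i y y'
  hK0 : K ≤ L0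
  hK2 : K ≤ mx ^ 2
  hKq : ∀ q : Xi w t, K ≤ Ge p (ZMod p) FV (FV (em q.1) + 1)
  hKo : ∀ i (q : Xi w t), K ≤ Ge p (ZMod p) (om i) (om i (em q.1))
  KK : K * K ≤ H
  HK : ∀ R ∈ H, ∀ q : Xi w t, pd (em q.1) R ∈ K
  hL : L ≤ L'
  up : L ≤ L0 ⊔ sp fun q : Xi w t => c q.1.1.1 q.1.1.2 • z (em (bar q).1) + xi' em io h Ps q
  det : L' ≤ (⨆ i, ⨆ x, ⨆ _ : (w i).kd x ≠ none, C i x * Ideal.span {io i (pd x (w i).W)}) ⊔
    (⨆ i, ⨆ y, ⨆ y', ⨆ _ : (w i).kd y = none ∧ (w i).kd y' = none,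
      C' i y y' * Ideal.span {z (em (⟨i, y'⟩, false)) * io i (pd y (w i).W)}) ⊔
    (sp fun q : Xi w t => c q.1.1.1 q.1.1.2 • z (em (bar q).1) + xi' em io h Ps q) ⊔ K
  sq : ∑ i, (if t i = true then io i (w i).W else -io i (w i).W) +
    ∑ i, ∑ x, (if t i = false ∧ (w i).kd x = none then
      c i x • (z (em (⟨i, x⟩, false)) * z (em (⟨i, x⟩, true))) else 0) + Ps ∈ L * L' ⊔ H

/-- the universal variables -/
abbrev Un (s : Fin 3 → Type) (V : Type) : Type := (Σ i, s i) ⊕ (Σ i, s i × s i) ⊕ V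

namespace PV

variable {N : ℕ} (v : PV w t N V)

omit [Fact p.Prime] in
theorem ys_mem {A : Type*} [CommRing A] {i : Fin 3} {ζ : s i → A} {m : Ideal A} (hz : ∀ x, ζ x ∈ m)
    (h : s i → s i → A) (y : s i) : ys (w := w) ζ h y ∈ m :=
  add_mem (hz y) (sum_mem fun y' _ => by
    split_ifs
    exacts [Ideal.mul_mem_right _ _ (hz y'), zero_mem _])

/-- the universal substitution of slot `i` -/
def jj (i : Fin 3) : O p (ZMod p) (s i) →ₐ[ZMod p] O p (ZMod p) (Un s V) :=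
  sub (fun x => if (w i).kd x = none then ys (w := w) (fun x => z (inr (inr (v.em (⟨i, x⟩, false)))))
      (fun y y' => z (inr (inl ⟨i, y, y'⟩))) x else z (inl ⟨i, x⟩)) fun x => by
    split_ifs
    exacts [ys_mem (fun _ => z_mem _) _ _, z_mem _]

theorem jj_y {i : Fin 3} {y : s i} (hy : (w i).kd y = none) : v.jj i (z y) =
    ys (w := w) (fun x => z (inr (inr (v.em (⟨i, x⟩, false))))) (fun y y' => z (inr (inl ⟨i, y, y'⟩))) y := by
  rw [jj, sub_z, if_pos hy]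

theorem jj_x {i : Fin 3} {x : s i} (hx : (w i).kd x ≠ none) : v.jj i (z x) = z (inl ⟨i, x⟩) := by
  rw [jj, sub_z, if_neg hx]

/-- the universal weights -/
def FS : Un s V → ℕ :=
  Sum.elim (fun x => N + (w x.1).F x.2) (Sum.elim (fun x => v.nu x.1 x.2.1 x.2.2) v.FV)

theorem jj_Ge (i : Fin 3) (x : s i) : v.jj i (z x) ∈ Ge p (ZMod p) v.FS (N + (w i).F x : ℕ) := by
  by_cases hx : (w i).kd x = none
  · rw [v.jj_y hx]
    refine add_mem (by rw [← v.hF i x hx]; exact z_mem_Ge v.FS (inr (inr _)))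
      (sum_mem fun y' _ => ?_)
    split_ifs with hy
    · refine (flt_Ge _).mul_le le_rfl le_rfl ?_ (Ideal.mul_mem_mul (z_mem_Ge v.FS _) (z_mem_Ge v.FS _))
      have := (v.hnu i x y' hx hy).1
      simp only [FS, Sum.elim_inr, Sum.elim_inl, v.hF i y' hy]
      omega
    · exact zero_mem _
  · rw [v.jj_x hx]; exact z_mem_Ge v.FS (inl ⟨i, x⟩)

theorem pd_jj_x (i j : Fin 3) (x : s j) (hx : (w j).kd x ≠ none) (W : ∀ i, O p (ZMod p) (s i)) :
    pd (inl ⟨j, x⟩) (v.jj i (W i)) = if i = j then v.jj j (pd x (W j)) else 0 := by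
  classical
  rw [chain]
  have : ∀ x', pd (inl ⟨j, x⟩) (v.jj i (z x')) = if (⟨j, x⟩ : Σ i, s i) = ⟨i, x'⟩ then 1 else 0 :=
    fun x' => by
    by_cases h : (w i).kd x' = none
    · rw [v.jj_y h, if_neg (by rintro ⟨⟩; exact hx h)]
      simp [ys, apply_ite, pd_z]
    · rw [v.jj_x h]; simp [pd_z]
  split_ifs with h
  · subst h; simp [this]
  · simp [this, Ne.symm h]

theorem pd_jj_u (i j : Fin 3) (y y' : s j) (hy : (w j).kd y = none) (hy' : (w j).kd y' = none)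
    (W : ∀ i, O p (ZMod p) (s i)) : pd (inr (inl ⟨j, y, y'⟩)) (v.jj i (W i)) =
      if i = j then z (inr (inr (v.em (⟨j, y'⟩, false)))) * v.jj j (pd y (W j)) else 0 := by
  classical
  rw [chain]
  have : ∀ x', pd (inr (inl ⟨j, y, y'⟩)) (v.jj i (z x')) = if (⟨j, y⟩ : Σ i, s i) = ⟨i, x'⟩ then
      z (inr (inr (v.em (⟨j, y'⟩, false)))) else 0 := fun x' => by
    by_cases h : (w i).kd x' = none
    · rw [v.jj_y h]
      split_ifs with h1
      · cases h1
        rw [ys, map_add, map_sum, Finset.sum_eq_single y' (fun a _ ha => by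
          split_ifs <;> simp [pd_z, ha.symm]) (by simp)]
        simp [pd_z, hy']
      · have h2 : ∀ a, (⟨j, y, y'⟩ : Σ i, s i × s i) ≠ ⟨i, x', a⟩ := by rintro a ⟨⟩; exact h1 rfl
        simp [ys, apply_ite, pd_z, h2]
    · rw [v.jj_x h, if_neg (by rintro ⟨⟩; exact h hy)]; simp [pd_z]
  split_ifs with h
  · subst h; simp [this, mul_comm]
  · simp [this, Ne.symm h]

theorem pd_jj_q (i : Fin 3) (q : Xi w t) (W : ∀ i, O p (ZMod p) (s i)) :
    pd (inr (inr (v.em q.1))) (v.jj i (W i)) = if i = q.1.1.1 ∧ q.1.2 = false then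
      v.jj _ (pd q.1.1.2 (W _)) + ∑ y, if (w q.1.1.1).kd y = none then
        z (inr (inl ⟨_, y, q.1.1.2⟩)) * v.jj _ (pd y (W _)) else 0 else 0 := by
  classical
  obtain ⟨⟨⟨j, y'⟩, b⟩, hq⟩ := q
  have e : ∀ a, (w i).kd a = none → (v.em (⟨j, y'⟩, b) = v.em (⟨i, a⟩, false) ↔
      ((⟨j, y'⟩, b) : (Σ i, s i) × Bool) = (⟨i, a⟩, false)) := fun a ha =>
    v.inj.eq_iff (xi_ok ⟨_, hq⟩) (ok_y ha)
  rw [chain]
  split_ifs with h
  · obtain ⟨rfl, rfl⟩ := h
    rw [← Finset.sum_ite_eq_of_mem Finset.univ y' (fun x => v.jj i (pd x (W i))) (by simp),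
      ← Finset.sum_add_distrib]
    refine Finset.sum_congr rfl fun x _ => ?_
    by_cases hx : (w i).kd x = none
    · rw [v.jj_y hx, ys, map_add, map_sum, Finset.sum_eq_single y' (fun a _ ha => by
        split_ifs with h1
        · simp [pd_z, e a h1, ha.symm]
        · simp) (by simp)]
      simp [pd_z, e x hx, hx, show (w i).kd y' = none from hq.2, add_mul, mul_comm (v.jj i _)]
    · rw [v.jj_x hx, if_neg hx, if_neg (by rintro rfl; exact hx hq.2)]; simp [pd_z]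
  · refine Finset.sum_eq_zero fun x _ => ?_
    have e' : ∀ a, (w i).kd a = none → v.em (⟨j, y'⟩, b) ≠ v.em (⟨i, a⟩, false) := fun a ha h1 => by
      cases (e a ha).1 h1
      exact h ⟨rfl, rfl⟩
    by_cases hx : (w i).kd x = none
    · rw [v.jj_y hx, ys, map_add, map_sum, Finset.sum_eq_zero fun a _ => by
        split_ifs with h1
        · simp [pd_z, e' a h1]
        · simp]
      simp [pd_z, e' x hx]
    · rw [v.jj_x hx]; simp [pd_z]

/-- the universal potential without the Gaussian part -/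
def GG (P : O p (ZMod p) V) : O p (ZMod p) (Un s V) :=
  ∑ i, (if t i = true then v.jj i (w i).W else -v.jj i (w i).W) + rn (fun x => inr (inr x)) P

omit [∀ i, Fintype (s i)] [Fintype V] in
theorem rn_inj : Injective fun x : V => (inr (inr x) : Un s V) := fun _ _ h => by simpa using h

theorem pd_sum (u : Un s V) (P : O p (ZMod p) V) (j : Fin 3) {g : O p (ZMod p) (Un s V)}
    (h : ∀ i, pd u (v.jj i (w i).W) = if i = j then g else 0) :
    pd u (v.GG P) = (if t j = true then g else -g) + pd u (rn (fun x => inr (inr x)) P) := by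
  rw [GG, map_add, map_sum, Finset.sum_eq_single j (fun i _ hi => by
    split_ifs <;> simp [h, hi]) (by simp)]
  split_ifs <;> simp [h]

theorem pd_GG_x (P : O p (ZMod p) V) (j : Fin 3) (x : s j) (hx : (w j).kd x ≠ none) :
    pd (inl ⟨j, x⟩) (v.GG P) =
      if t j = true then v.jj j (pd x (w j).W) else -v.jj j (pd x (w j).W) := by
  rw [v.pd_sum _ P j fun i => v.pd_jj_x i j x hx fun i => (w i).W, pd_rn_not (by simp), add_zero]

theorem pd_GG_u (P : O p (ZMod p) V) (j : Fin 3) (y y' : s j) (hy : (w j).kd y = none)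
    (hy' : (w j).kd y' = none) : pd (inr (inl ⟨j, y, y'⟩)) (v.GG P) =
      if t j = true then z (inr (inr (v.em (⟨j, y'⟩, false)))) * v.jj j (pd y (w j).W)
      else -(z (inr (inr (v.em (⟨j, y'⟩, false)))) * v.jj j (pd y (w j).W)) := by
  rw [v.pd_sum _ P j fun i => v.pd_jj_u i j y y' hy hy' fun i => (w i).W, pd_rn_not (by simp), add_zero]

theorem pd_GG_q (P : O p (ZMod p) V) (q : Xi w t) : pd (inr (inr (v.em q.1))) (v.GG P) =
    (if q.1.2 = true then 0 else -(v.jj _ (pd q.1.1.2 (w _).W) + ∑ y, if (w q.1.1.1).kd y = none then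
        z (inr (inl ⟨_, y, q.1.1.2⟩)) * v.jj _ (pd y (w _).W) else 0)) +
      rn (fun x => inr (inr x)) (pd (v.em q.1) P) := by
  rw [v.pd_sum _ P q.1.1.1 (g := if q.1.2 = true then 0 else _) fun i => by
    rw [v.pd_jj_q i q fun i => (w i).W]
    cases q.1.2 <;> simp; rfl, q.2.1, ← pd_rn rn_inj]
  cases q.1.2 <;> simp

/-- the point of the universal space given by the data -/
def ph : O p (ZMod p) (Un s V) →ₐ[ZMod p] O p (ZMod p) V :=
  sub (Sum.elim (fun x => if (w x.1).kd x.2 = none then 0 else v.io x.1 (z x.2))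
    (Sum.elim (fun x => v.h x.1 x.2.1 x.2.2) z)) (by
      rintro (x | x | x)
      · simp only [Sum.elim_inl]
        split_ifs with h
        exacts [zero_mem _, (v.hio _ _ h).1]
      exacts [(v.hh _ _ _).1, z_mem _])

theorem ph_x {i : Fin 3} {x : s i} (hx : (w i).kd x ≠ none) : v.ph (z (inl ⟨i, x⟩)) = v.io i (z x) :=
  (sub_z _ _ _).trans (if_neg hx)

theorem ph_u (i : Fin 3) (y y' : s i) : v.ph (z (inr (inl ⟨i, y, y'⟩))) = v.h i y y' := sub_z _ _ _

theorem ph_v (x : V) : v.ph (z (inr (inr x))) = z x := sub_z _ _ _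

theorem map_ys {A B : Type*} [CommRing A] [CommRing B] [Algebra (ZMod p) A] [Algebra (ZMod p) B]
    (ψ : A →ₐ[ZMod p] B) {i : Fin 3} (ζ : s i → A) (h : s i → s i → A) (y : s i) :
    ψ (ys (w := w) ζ h y) = ys (w := w) (fun x => ψ (ζ x)) (fun a b => ψ (h a b)) y := by
  simp [ys, apply_ite ψ]

theorem ph_jj (i : Fin 3) (f : O p (ZMod p) (s i)) : v.ph (v.jj i f) = v.io i f :=
  AlgHom.congr_fun (hom_ext (f := v.ph.comp (v.jj i)) (g := v.io i) fun x => by
    by_cases hx : (w i).kd x = none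
    · simp only [AlgHom.comp_apply, v.jj_y hx, map_ys, ph_u, ph_v, v.hy i x hx]
    · rw [AlgHom.comp_apply, v.jj_x hx, v.ph_x hx]) f

omit [∀ i, Fintype (s i)] [Fintype V] in
theorem map_rn {ψ : O p (ZMod p) (Un s V) →ₐ[ZMod p] O p (ZMod p) V}
    (h : ∀ x, ψ (z (inr (inr x))) = z x) (f : O p (ZMod p) V) :
    ψ (rn (fun x => inr (inr x)) f) = f :=
  AlgHom.congr_fun (hom_ext (f := ψ.comp (rn fun x => inr (inr x))) (g := AlgHom.id _ _)
    fun x => by simp [h]) f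

theorem ph_pd (P : O p (ZMod p) V) (q : Xi w t) :
    v.ph (pd (inr (inr (v.em q.1))) (v.GG P)) = xi' v.em v.io v.h P q := by
  rw [pd_GG_q, map_add, map_rn v.ph_v, xi', dy]
  split_ifs <;> simp [ph_jj, apply_ite v.ph, ph_u]

/-- the variables that may be shifted -/
def Sh : Un s V → Prop :=
  Sum.elim (fun x => (w x.1).kd x.2 ≠ none)
    (Sum.elim (fun x => (w x.1).kd x.2.1 = none ∧ (w x.1).kd x.2.2 = none) fun _ => False)

/-- the coefficient ideals -/
def CC : Un s V → Ideal (O p (ZMod p) V) :=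
  Sum.elim (fun x => v.C x.1 x.2) (Sum.elim (fun x => v.C' x.1 x.2.1 x.2.2) fun _ => ⊥)

theorem jj_mx (i : Fin 3) {f : O p (ZMod p) (s i)} (hf : f ∈ mx) : v.jj i f ∈ mx :=
  map_mx _ (fun x => by
    by_cases hx : (w i).kd x = none
    · rw [v.jj_y hx]; exact ys_mem (fun _ => z_mem _) _ _
    · rw [v.jj_x hx]; exact z_mem _) hf

theorem iso' (P : O p (ZMod p) V) (f f' : Un s V) (hf : Sh (w := w) f) (hf' : Sh (w := w) f') :
    pd f (pd f' (v.GG P)) ∈ mx ∨ v.CC f * v.CC f' ≤ mx := by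
  have hu : ∀ (i : Fin 3) (y y' : s i) (g : Un s V), Sh (w := w) (V := V) (inr (inl ⟨i, y, y'⟩)) →
      Sh (w := w) g → pd g (pd (inr (inl ⟨i, y, y'⟩)) (v.GG P)) ∈ mx := fun i y y' g h1 h2 => by
    have : pd g (z (inr (inr (v.em (⟨i, y'⟩, false)))) * v.jj i (pd y (w i).W)) ∈ mx := by
      rw [Derivation.leibniz, pd_z_ne (by rintro rfl; exact h2), smul_zero, add_zero]
      exact Ideal.mul_mem_right _ _ (z_mem _)
    rw [v.pd_GG_u P i y y' h1.1 h1.2]
    split_ifs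
    exacts [this, by rw [map_neg]; exact neg_mem this]
  rcases f' with ⟨j, x'⟩ | ⟨j, y, y'⟩ | x
  · rcases f with ⟨i, x⟩ | ⟨i, y, y'⟩ | x
    · have e := v.pd_jj_x j i x hf (update (fun _ => 0) j (pd x' (w j).W))
      rw [update_self] at e
      rcases eq_or_ne j i with rfl | hij
      · refine (v.iso j x x' hf hf').imp_left fun h1 => ?_
        rw [if_pos rfl, update_self] at e
        have := v.jj_mx j (mem_mx.2 h1)
        rw [v.pd_GG_x P j x' hf']
        split_ifs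
        exacts [e ▸ this, by rw [map_neg, e]; exact neg_mem this]
      · rw [if_neg hij] at e
        rw [v.pd_GG_x P j x' hf']
        left
        split_ifs <;> simp [e]
    · rw [pd_comm]; exact Or.inl (hu i y y' _ hf hf')
    · exact hf.elim
  · exact Or.inl (hu j y y' f hf' hf)
  · exact hf'.elim

/-- **the vertex theorem of the producer** -/
theorem main : ∃ (θ : O p (ZMod p) V →ₐ[ZMod p] O p (ZMod p) V)
    (io : ∀ i, O p (ZMod p) (s i) →ₐ[ZMod p] O p (ZMod p) V) (h : ∀ i, s i → s i → O p (ZMod p) V)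
    (rho : O p (ZMod p) (Xi w t) →ₐ[ZMod p] O p (ZMod p) V) (Q : O p (ZMod p) (Xi w t))
    (R : O p (ZMod p) V), Th (fun q : Xi w t => v.em q.1) v.FV v.om θ ∧
    (∀ i x, (w i).kd x ≠ none → io i (z x) - θ (v.io i (z x)) ∈ v.L0 * v.C i x) ∧
    (∀ i y, (w i).kd y = none →
      io i (z y) = ys (w := w) (fun x => z (v.em (⟨i, x⟩, false))) (h i) y) ∧
    (∀ i y y', h i y y' - θ (v.h i y y') ∈ v.L0 * v.C' i y y') ∧
    (∀ q : Xi w t, Hi v.FV (v.FV (v.em q.1)) (rho (z q) - z (v.em q.1))) ∧ Q ∈ mx ^ 2 ∧ R ∈ v.H ∧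
    ∑ i, (if t i = true then io i (w i).W else -io i (w i).W) +
      ∑ i, ∑ x, (if t i = false ∧ (w i).kd x = none then
        v.c i x • (z (v.em (⟨i, x⟩, false)) * z (v.em (⟨i, x⟩, true))) else 0) + (v.Ps + R) =
      rho Q := by
  classical
  obtain ⟨P1, h1, R, hR, e1⟩ := Submodule.mem_sup.1 v.sq
  have heV : Injective fun q : Xi w t => v.em q.1 := fun q q' h =>
    Subtype.ext (v.inj (xi_ok q) (xi_ok q') h)
  let κ : ℕ := Finset.univ.sup fun q : Xi w t => v.FV (v.em q.1) + 1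
  have hκ : ∀ q : Xi w t, v.FV (v.em q.1) + 1 ≤ κ := fun q =>
    Finset.le_sup (f := fun q : Xi w t => v.FV (v.em q.1) + 1) (Finset.mem_univ q)
  have hK : v.K ≤ Ge p (ZMod p) v.FV κ := by
    rcases isEmpty_or_nonempty (Xi w t) with h | h
    · simp [κ, (flt_Ge _).zero]
    · obtain ⟨q, -, hq⟩ := Finset.exists_mem_eq_sup Finset.univ Finset.univ_nonempty
        fun q : Xi w t => v.FV (v.em q.1) + 1
      rw [show κ = _ from hq]; exact v.hKq q
  have xs : ∀ q : Xi w t, xi' v.em v.io v.h (v.Ps - R) q = xi' v.em v.io v.h v.Ps q - pd (v.em q.1) R :=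
    fun q => by simp only [xi', map_sub]; ring
  have hX : (sp fun q : Xi w t => v.c q.1.1.1 q.1.1.2 • z (v.em (bar q).1) + xi' v.em v.io v.h v.Ps q) ≤
      (sp fun q : Xi w t => v.c q.1.1.1 q.1.1.2 • z (v.em (bar q).1) +
        xi' v.em v.io v.h (v.Ps - R) q) ⊔ v.K := sp_le.2 fun q => by
    have := add_mem (Ideal.mem_sup_left (mem_sp (fun q : Xi w t => v.c q.1.1.1 q.1.1.2 •
      z (v.em (bar q).1) + xi' v.em v.io v.h (v.Ps - R) q) q)) (Ideal.mem_sup_right (v.HK R hR q))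
    rwa [xs, add_assoc, sub_add_cancel] at this
  have rG : ∀ {n : ℤ} {f : O p (ZMod p) V}, f ∈ Ge p (ZMod p) v.FV n →
      rn (fun x => (inr (inr x) : Un s V)) f ∈ Ge p (ZMod p) v.FS n :=
    map_Ge (flt_Ge _) fun x => by rw [rn_z]; exact z_mem_Ge v.FS (inr (inr x))
  have ev : ∀ {ψ : O p (ZMod p) (Un s V) →ₐ[ZMod p] O p (ZMod p) V},
      (∀ x, ψ (z (inr (inr x))) = z x) → ψ ((hyp w t fun q => v.FV (v.em q)).QQ
        (fun q => v.c q.1.1.1 q.1.1.2) (fun q => z (inr (inr (v.em q.1)))) + v.GG (v.Ps - R)) =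
      ∑ i, (if t i = true then ψ (v.jj i (w i).W) else -ψ (v.jj i (w i).W)) +
      ∑ i, ∑ x, (if t i = false ∧ (w i).kd x = none then
        v.c i x • (z (v.em (⟨i, x⟩, false)) * z (v.em (⟨i, x⟩, true))) else 0) + (v.Ps - R) :=
    fun {ψ} hψ => by
    rw [map_add, Hyp.map_QQ, GG, map_add, map_rn hψ, map_sum]
    simp only [hψ, apply_ite ψ, map_neg]
    rw [QQ_eq _ v.c fun q => z (v.em q)]
    ring
  obtain ⟨θ, ψ, ζ, th, a1, a2, a3, a4, a5⟩ := (hyp w t fun q => v.FV (v.em q)).vertex (FS := v.FS)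
    (FV := v.FV) (e := fun q => inr (inr (v.em q.1))) (rn_inj.comp heV) heV (fun _ => rfl)
    (fun _ => rfl) (c := fun q => v.c q.1.1.1 q.1.1.2) (fun _ => rfl)
    (fun q => (v.hc _ _ q.2.1 q.2.2).isUnit) (G := v.GG (v.Ps - R))
    (fun q => by
      rw [pd_GG_q]
      refine add_mem ?_ (rG (by
        rw [map_sub]
        exact sub_mem (hi_Ge.1 (v.Pm q)) (v.hKq (bar q) (v.HK R hR q))))
      obtain ⟨⟨⟨i, a⟩, _ | _⟩, hq⟩ := q
      · have jW : ∀ y, (w i).kd y = none → v.jj i (pd y (w i).W) ∈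
            Ge p (ZMod p) v.FS (v.FV (v.em (⟨i, y⟩, true)) + 1) := fun y hy =>
          map_Ge (flt_Ge _) (v.jj_Ge i) (hi_Ge.1 (v.Wm i y hq.1 hy))
        refine neg_mem (add_mem (jW a hq.2) (sum_mem fun y _ => ?_))
        split_ifs with hy
        · refine (flt_Ge _).mul_le le_rfl le_rfl ?_
            (Ideal.mul_mem_mul (z_mem_Ge v.FS _) (jW y hy))
          have := (v.hnu i y a hy hq.2).2 hq.1
          simp only [FS, Sum.elim_inr, Sum.elim_inl, hyp, bar, Bool.not_false]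
          omega
        · exact zero_mem _
      · exact zero_mem _)
    (Sh := Sh (w := w)) (fun _ => id)
    (fun q u hq hu => by
      rw [pd_comm, pd_GG_q, if_pos (show q.1.2 = true from hq), zero_add]
      rcases hu with ⟨q', rfl⟩ | hu
      · rw [pd_rn rn_inj, pd_comm, map_sub, map_sub]
        exact rn_mem _ (sub_mem (v.Pmm q q' hq) (pd_sq (v.hK2 (v.HK R hR q')) _))
      · rw [pd_rn_not (by rintro ⟨x, rfl⟩; exact hu)]; exact zero_mem _)
    (C := v.CC) (v.iso' _) (μ := v.mu) (κ := κ)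
    (by
      rintro (⟨i, x⟩ | ⟨i, y, y'⟩ | x) hf
      exacts [v.hC i x hf, v.hC' i y y', hf.elim])
    (fun q => by have := hκ q; simp only [hyp]; omega) (φ := v.ph)
    (by
      rintro (⟨i, x⟩ | ⟨i, y, y'⟩ | x) <;> rw [mem_WW, pow_one]
      · by_cases hx : (w i).kd x = none
        · rw [show v.ph (z (inl ⟨i, x⟩)) = 0 from (sub_z _ _ _).trans (if_pos hx)]
          exact ⟨zero_mem _, zero_mem _⟩
        · rw [v.ph_x hx]; exact v.hio i x hx
      · rw [ph_u]; exact v.hh i y y'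
      · rw [ph_v]; exact ⟨z_mem _, z_mem_Ge _ _⟩)
    (fun _ => v.ph_v _) (om := v.om)
    (fun i q => by
      rw [ph_pd, xs]; exact sub_mem (v.Po i q) (v.hKo i (bar q) (v.HK R hR q)))
    (L0 := v.L0) (L := v.L) (L' := v.L') (Kk := v.K) (H := v.H) (by rw [WW, pow_one]; exact v.h0)
    (fun θ hθ => ⟨(v.st θ hθ).1, by
      rintro (⟨i, x⟩ | ⟨i, y, y'⟩ | x) hf
      exacts [(v.st θ hθ).2.1 i x, (v.st θ hθ).2.2 i y y', hf.elim]⟩)
    v.hK0 hK v.KK v.hL
    (by
      simp only [ph_pd]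
      exact v.up.trans (sup_le le_sup_left (hX.trans (sup_le le_sup_right
        (le_sup_of_le_left v.hK0)))))
    (by
      simp only [ph_pd]
      refine v.det.trans (sup_le (sup_le (sup_le ?_ ?_) (hX.trans (sup_le_sup_right le_sup_right _)))
        le_sup_right)
      · refine iSup₂_le fun i x => iSup_le fun hx => le_sup_of_le_left (le_sup_of_le_left
          (le_iSup₂_of_le (inl ⟨i, x⟩) hx (le_of_eq ?_)))
        rw [v.pd_GG_x _ i x hx]
        split_ifs <;> simp [ph_jj, CC, Ideal.span_singleton_neg]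
      · refine iSup₂_le fun i y => iSup₂_le fun y' hy => le_sup_of_le_left (le_sup_of_le_left
          (le_iSup₂_of_le (inr (inl ⟨i, y, y'⟩)) hy (le_of_eq ?_)))
        rw [v.pd_GG_u _ i y y' hy.1 hy.2]
        split_ifs <;> simp [ph_jj, ph_v, CC, Ideal.span_singleton_neg])
    (by
      rw [ev v.ph_v]
      simp only [ph_jj]
      rwa [← add_sub_assoc, ← e1, add_sub_cancel_right])
  have hv : ∀ x, ψ (z (inr (inr x))) = z x := fun x => by
    by_cases hx : x ∈ range fun q : Xi w t => v.em q.1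
    · obtain ⟨q, rfl⟩ := hx; exact a1 q
    · rw [a2 _ (by rintro ⟨q, hq⟩; exact hx ⟨q, rn_inj hq⟩) id, ph_v, th.off x hx]
  rw [ev hv] at a5
  refine ⟨θ, fun i => ψ.comp (v.jj i), fun i y y' => ψ (z (inr (inl ⟨i, y, y'⟩))),
    sub ζ fun q => (a4 q).1, (hyp w t fun q => v.FV (v.em q)).QQ (fun q => v.c q.1.1.1 q.1.1.2) z,
    -R - _, th, fun i x hx => ?_, fun i y hy => ?_, fun i y y' => ?_, fun q => ?_,
    Hyp.QQ_mem _ _ z_mem, sub_mem (neg_mem hR) a5, ?_⟩
  · have := a3 (inl ⟨i, x⟩) (by simp)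
    rwa [v.ph_x hx, ← v.jj_x hx] at this
  · simp only [AlgHom.comp_apply, v.jj_y hy, map_ys, hv]
  · have := a3 (inr (inl ⟨i, y, y'⟩)) (by simp)
    rwa [ph_u] at this
  · rw [sub_z]; exact hi_Ge.2 (a4 q).2
  · simp only [Hyp.map_QQ, sub_z, AlgHom.comp_apply]
    ring

end PV

omit [Fact p.Prime] [Fintype V] in
theorem vw_not {La : ℕ} {em : (Σ i, s i) × Bool → V} (inj : Set.InjOn em {q | Ok w t q})
    (FV : V → ℕ) {q : (Σ i, s i) × Bool} (hq : Ok w t q) (h : (w q.1.1).kd q.1.2 = none) :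
    vw w t La em FV (em q) = La := by
  refine if_neg ?_
  rintro ⟨i, x, hx, e⟩
  cases inj hq (ok_near hx) e
  simp [hx] at h

/-- the trilinear coefficient only sees the part of main weight `3 La` -/
theorem cub_zero {La : ℕ} {em : (Σ i, s i) × Bool → V} (inj : Set.InjOn em {q | Ok w t q})
    {FV : V → ℕ} {R : O p (ZMod p) V} (hR : Hi (vw w t La em FV) (3 * La) R) (al : ∀ i, s i)
    (hal : ∀ i, (w i).kd (al i) = none) :
    aug (pd (em (⟨0, al 0⟩, !t 0)) (pd (em (⟨1, al 1⟩, !t 1)) (pd (em (⟨2, al 2⟩, !t 2)) R))) = 0 := by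
  have e : ∀ i, vw w t La em FV (em (⟨i, al i⟩, !t i)) = La := fun i => vw_not inj FV (by
    cases h : t i
    · exact Or.inr ⟨rfl, h, hal i⟩
    · exact ok_y (hal i)) (hal i)
  refine mem_mx.1 (Ge_le_mx ?_ (pd_Ge (pd_Ge (pd_Ge (hi_Ge.1 hR) _) _) _))
  rw [e, e, e]; omega

theorem pmm_of {La : ℕ} {em : (Σ i, s i) × Bool → V}
    (inj : Set.InjOn em {q | Ok w t q}) {FV : V → ℕ} {P : O p (ZMod p) V}
    (hP : Hi (vw w t La em FV) (2 * La) P) (q q' : Xi w t) : pd (em q.1) (pd (em q'.1) P) ∈ mx := by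
  refine Ge_le_mx ?_ (pd_Ge (pd_Ge (hi_Ge.1 hP) _) _)
  rw [vw_not inj FV (xi_ok q) q.2.2, vw_not inj FV (xi_ok q') q'.2.2]; omega

/-- the input of the last step of the producer -/
structure PVxH (w : ∀ i, Wall p Γ δ (s i)) (t : Fin 3 → Bool) (N La : ℕ) (V : Type) [Fintype V]
    extends PV w t N V where
  pos : ∀ i x, 0 < N + (w i).F x
  hLa : 0 < La
  hFn : ∀ i x, (w i).kd x = some (t i) → FV (em (⟨i, x⟩, false)) = N + (w i).F x
  hm : ∀ i x, Ok w t (⟨i, x⟩, true) → 0 < FV (em (⟨i, x⟩, true)) ∧ FV (em (⟨i, x⟩, true)) ≤ La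
  om_le : ∀ i v, om i v ≤ FV v
  om_em : ∀ i x, Ok w t (⟨i, x⟩, false) → om i (em (⟨i, x⟩, false)) = N + (w i).F x
  Bad : Finset V
  cheap : ∀ i q, Ok w t q → q.1.1 ≠ i → em q ∉ Bad → 3 * om i (em q) ≤ FV (em q)
  bad : ∀ q : Xi w t, em q.1 ∈ Bad
  small : 4 * (p * ∑ v ∈ Bad, FV v) < La
  near : ∀ i x, (w i).kd x = some (t i) →
    Hi (om i) (N + (w i).F x) (io i (z x) - z (em (⟨i, x⟩, false)))
  far : ∀ i x, (w i).kd x = some (!t i) → Hi (om i) (N + (w i).F x) (io i (z x))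
  ho : ∀ i y y', (w i).kd y = none → (w i).kd y' = none →
    h i y y' ∈ Ge p (ZMod p) (om i) ((w i).F y + 1 - (w i).F y')
  sh : ∀ i x, (w i).kd x ≠ none → L0 * C i x ≤ Ge p (ZMod p) (om i) ((N + (w i).F x : ℕ) + 1)
  sh' : ∀ i y y', (w i).kd y = none → (w i).kd y' = none →
    L0 * C' i y y' ≤ Ge p (ZMod p) (om i) ((w i).F y + 1 - (w i).F y')
  Ps2 : Ps ∈ (mx : Ideal (O p (ZMod p) V)) ^ 2
  hPs : Ps ∈ _root_.N255.Core.Ge (vw w t La em FV) (3 * La)
  H2 : H ≤ mx ^ 2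
  Hw : ∀ R ∈ H, Hi (vw w t La em FV) (3 * La) R

namespace PVxH

variable {N La : ℕ} (v : PVxH w t N La V)

theorem th_near {θ : O p (ZMod p) V →ₐ[ZMod p] O p (ZMod p) V}
    (th : Th (fun q : Xi w t => v.em q.1) v.FV v.om θ) {i : Fin 3} {x : s i}
    (hx : (w i).kd x = some (t i)) : θ (z (v.em (⟨i, x⟩, false))) = z (v.em (⟨i, x⟩, false)) :=
  th.off _ (by
    rintro ⟨q, hq⟩
    have h1 := q.2.2
    rw [v.inj (xi_ok q) (ok_near hx) hq] at h1
    simp [hx] at h1)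

theorem vw_pos (x : V) : 0 < vw w t La v.em v.FV x := by
  unfold vw
  split_ifs with h
  · obtain ⟨i, y, hy, rfl⟩ := h
    rw [v.hFn i y hy]; exact v.pos i y
  · exact v.hLa

/-- the substitution for `y` -/
theorem ys_ok {i : Fin 3} {h : s i → s i → O p (ZMod p) V} {y : s i} (hm : ∀ y', h y y' ∈ mx)
    (ho : ∀ y', (w i).kd y' = none → h y y' ∈ Ge p (ZMod p) (v.om i) ((w i).F y + 1 - (w i).F y'))
    {f : O p (ZMod p) V} (hf : f = ys (w := w) (fun x => z (v.em (⟨i, x⟩, false))) h y -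
      z (v.em (⟨i, y⟩, false))) : Hi (v.om i) (N + (w i).F y) f ∧ Hi (vw w t La v.em v.FV) La f ∧
        f ∈ _root_.N255.Core.Ge (yi w v.em i) 1 := by
  rw [hf, ys, add_sub_cancel_left, hi_Ge, hi_Ge, core_Ge]
  refine ⟨sum_mem fun y' _ => ?_, sum_mem fun y' _ => ?_, sum_mem fun y' _ => ?_⟩ <;>
    split_ifs with hy <;> try exact zero_mem _
  · refine (flt_Ge _).mul_le le_rfl le_rfl ?_ (Ideal.mul_mem_mul (z_mem_Ge (v.om i) _) (ho y' hy))
    rw [v.om_em i y' (ok_y hy)]; omega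
  · refine (flt_Ge _).mul_le le_rfl le_rfl ?_
      (Ideal.mul_mem_mul (z_mem_Ge (vw w t La v.em v.FV) _) (mx_le_Ge v.vw_pos (hm y')))
    rw [vw_not v.inj v.FV (ok_y hy) hy]
  · refine Ideal.mul_mem_right _ _ ((flt_Ge _).anti ?_ (z_mem_Ge (yi w v.em i) _))
    rw [yi, if_pos ⟨y', hy, rfl⟩]

/-- **step 3 of the producer** -/
theorem vxH : ∃ u : VxH w t N La V, ∀ al : ∀ i, s i, (∀ i, (w i).kd (al i) = none) → u.cub al =
    aug (pd (v.em (⟨0, al 0⟩, !t 0)) (pd (v.em (⟨1, al 1⟩, !t 1)) (pd (v.em (⟨2, al 2⟩, !t 2)) v.Ps))) := by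
  obtain ⟨θ, io, h, rho, Q, R, th, a1, a2, a3, a4, a5, a6, a7⟩ := v.main
  have ty : ∀ i y, (w i).kd y = none → _ := fun i y hy => v.ys_ok (h := h i) (y := y)
    (fun y' => by
      simpa using add_mem (Ideal.mul_le_left.trans (v.h0.trans inf_le_left) (a3 i y y'))
        (map_mx θ th.mem (v.hh i y y').1))
    (fun y' hy' => by
      simpa using add_mem (v.sh' i y y' hy hy' (a3 i y y'))
        (map_Ge (flt_Ge _) (th.om i) (v.ho i y y' hy hy')))
    (f := io i (z y) - z (v.em (⟨i, y⟩, false))) (by rw [a2 i y hy])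
  refine ⟨{
    em := v.em, inj := v.inj, FV := v.FV, hm := v.hm, om := v.om, om_le := v.om_le
    hF := fun i x hx => ?_
    om_em := v.om_em, Bad := v.Bad, cheap := v.cheap, bad := v.bad, small := v.small, io := io
    near := fun i x hx => ?_
    far := fun i x hx => ?_
    hy := fun i x hx => (ty i x hx).2.1
    hyL := fun i x _ hx => (ty i x hx).2.2
    rho := rho, hrho := a4, Q := Q, hQ := a5, c := v.c, hc := v.hc, Ps := v.Ps + R
    Ps2 := add_mem v.Ps2 (v.H2 a6)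
    hPs := add_mem v.hPs (_root_.N255.Core.Ge_anti (Nat.le_succ _)
      (_root_.N255.Core.hi_iff.1 (v.Hw R a6)))
    eq := a7 }, fun al hal => ?_⟩
  · rcases hx with ⟨-, hx⟩ | ⟨h, -⟩
    · rcases hk : (w i).kd x with _ | b
      · exact v.hF i x hk
      · exact v.hFn i x (by rw [hk] at hx ⊢; cases b <;> simp_all)
    · cases h
  · rcases hk : (w i).kd x with _ | b
    · exact (ty i x hk).1
    · have hn : (w i).kd x = some (t i) := by rw [hk] at hx ⊢; cases b <;> simp_all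
      have := add_mem (v.sh i x (by simp [hk]) (a1 i x (by simp [hk])))
        (map_Ge (flt_Ge _) (th.om i) (hi_Ge.1 (v.near i x hn)))
      rw [map_sub, v.th_near th hn, sub_add_sub_cancel] at this
      exact hi_Ge.2 this
  · have := add_mem (v.sh i x (by simp [hx]) (a1 i x (by simp [hx])))
      (map_Ge (flt_Ge _) (th.om i) (hi_Ge.1 (v.far i x hx)))
    rw [sub_add_cancel] at this
    exact hi_Ge.2 this
  · simp only [VxH.cub, map_add, cub_zero v.inj (v.Hw R a6) al hal, add_zero]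

end PVxH

end Crest.Agent.N255.Tg

end
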