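import Crest.Agent.N255.Tg.OnO
import Crest.Agent.N255.Core.Move

/-!
# Row 255 (helper11): scaled Tougeron absorption (one shift ideal per variable), weight ideals
-/

set_option autoImplicit false
open Set Function

noncomputable section

namespace Crest.Agent.N255.Tg

open _root_.N255.Dr _root_.N255.Dr.O Cs

section Abs

variable {A : Type*} [CommRing A] {σ : Type*} [Fintype σ]

/-- `∑ i, Ls i * g i` -/
def jac (Ls : σ → Ideal A) (g : σ → A) : Ideal A where
  carrier := {P | ∃ δ : σ → A, (∀ i, δ i ∈ Ls i) ∧ P = ∑ i, δ i * g i}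
  add_mem' := by
    rintro _ _ ⟨δ, h1, rfl⟩ ⟨δ', h2, rfl⟩
    exact ⟨δ + δ', fun i => add_mem (h1 i) (h2 i), by
      simp only [Pi.add_apply, add_mul, Finset.sum_add_distrib]⟩
  zero_mem' := ⟨0, fun i => zero_mem _, by simp⟩
  smul_mem' := by
    rintro c _ ⟨δ, h, rfl⟩
    exact ⟨fun i => c * δ i, fun i => Ideal.mul_mem_left _ _ (h i), by
      simp only [smul_eq_mul, Finset.mul_sum, mul_assoc]⟩

theorem mem_jac {Ls : σ → Ideal A} {g : σ → A} {P : A} :
    P ∈ jac Ls g ↔ ∃ δ : σ → A, (∀ i, δ i ∈ Ls i) ∧ P = ∑ i, δ i * g i := Iff.rfl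

theorem mul_mem_jac {Ls : σ → Ideal A} (g : σ → A) {i : σ} {x : A} (hx : x ∈ Ls i) :
    x * g i ∈ jac Ls g := by
  classical
  refine ⟨Pi.single i x, fun j => ?_, ?_⟩
  · rcases eq_or_ne j i with rfl | h
    · simpa using hx
    · simp [h]
  · rw [Finset.sum_eq_single i]
    · simp
    · intro j _ h; simp [h]
    · simp

theorem jac_le {Ls : σ → Ideal A} {g : σ → A} {J : Ideal A}
    (h : ∀ i, ∀ x ∈ Ls i, x * g i ∈ J) : jac Ls g ≤ J := by
  rintro _ ⟨δ, h1, rfl⟩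
  exact sum_mem fun i _ => h i _ (h1 i)

theorem mul_jac_le (J : Ideal A) (Ls : σ → Ideal A) (g : σ → A) :
    J * jac Ls g ≤ jac (fun i => J * Ls i) g := by
  refine Ideal.mul_le.2 ?_
  rintro a ha _ ⟨δ, h, rfl⟩
  exact ⟨fun i => a * δ i, fun i => Ideal.mul_mem_mul ha (h i), by
    simp only [Finset.mul_sum, mul_assoc]⟩

theorem jac_mono {Ls Ls' : σ → Ideal A} (h : ∀ i, Ls i ≤ Ls' i) (g : σ → A) :
    jac Ls g ≤ jac Ls' g := jac_le fun i _ hx => mul_mem_jac g (h i hx)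

theorem jac_congr {Ls : σ → Ideal A} {L J : Ideal A} (hL : ∀ i, Ls i ≤ L) {g g' : σ → A}
    (h : ∀ i, g i - g' i ∈ J) : jac Ls g ≤ jac Ls g' ⊔ J * L := jac_le fun i x hx => by
  have : x * g i = x * g' i + (g i - g' i) * x := by ring
  rw [this]
  exact add_mem (Ideal.mem_sup_left (mul_mem_jac g' hx))
    (Ideal.mem_sup_right (Ideal.mul_mem_mul (h i) (hL i hx)))

/-- the detection hypothesis of the scaled Tougeron lemma -/
def Det (m L H : Ideal A) (Ls : σ → Ideal A) (g : σ → A) : Prop :=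
  L * L ≤ jac Ls g ⊔ m * (L * L) ⊔ H

theorem Det.congr {m L H : Ideal A} {Ls : σ → Ideal A} {g g' : σ → A} (h : Det m L H Ls g)
    (hL : ∀ i, Ls i ≤ L) (e : ∀ i, g i - g' i ∈ m * L) : Det m L H Ls g' :=
  le_trans h (sup_le_sup_right (sup_le ((jac_congr hL e).trans (by rw [mul_assoc]))
    le_sup_right) _)

/-- every product of two generators is absorbed in the direction detecting one factor, or is
negligible -/
theorem det_of_pairs {ι : Type*} {m L K H : Ideal A} {Ls : σ → Ideal A} {g : σ → A} (κ : ι → A)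
    (hL : L ≤ sp κ ⊔ K) (hκ : ∀ a, κ a ∈ L) (hK : K * L ≤ H)
    (hp : ∀ a a', (∃ i, κ a - g i ∈ m * L ⊔ K ∧ κ a' ∈ Ls i) ∨
      (∃ i, κ a' - g i ∈ m * L ⊔ K ∧ κ a ∈ Ls i) ∨ κ a * κ a' ∈ H) : Det m L H Ls g := by
  have key : ∀ a i x, κ a - g i ∈ m * L ⊔ K → x ∈ L → x ∈ Ls i →
      κ a * x ∈ jac Ls g ⊔ m * (L * L) ⊔ H := by
    intro a i x hd hx hx'
    obtain ⟨u, hu, v, hv, h⟩ := Submodule.mem_sup.1 hd
    have : κ a * x = x * g i + u * x + v * x := by linear_combination (-x) * h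
    rw [this]
    refine add_mem (Ideal.mem_sup_left (add_mem (Ideal.mem_sup_left (mul_mem_jac g hx'))
      (Ideal.mem_sup_right ?_))) (Ideal.mem_sup_right (hK (Ideal.mul_mem_mul hv hx)))
    rw [← mul_assoc]; exact Ideal.mul_mem_mul hu hx
  have h1 : sp κ * sp κ ≤ jac Ls g ⊔ m * (L * L) ⊔ H := by
    rw [sp, Ideal.span_mul_span', Ideal.span_le]
    rintro _ ⟨_, ⟨a, rfl⟩, _, ⟨a', rfl⟩, rfl⟩
    rcases hp a a' with ⟨i, h, h'⟩ | ⟨i, h, h'⟩ | h
    · exact key a i _ h (hκ a') h'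
    · have := key a' i _ h (hκ a) h'
      rwa [mul_comm (κ a')] at this
    · exact Ideal.mem_sup_right h
  have h2 : L * sp κ ≤ jac Ls g ⊔ m * (L * L) ⊔ H := by
    refine (Ideal.mul_mono_left hL).trans ?_
    rw [Ideal.sup_mul]
    exact sup_le h1 (le_sup_of_le_right ((Ideal.mul_mono_right (sp_le.2 hκ)).trans hK))
  refine (Ideal.mul_mono_right hL).trans ?_
  rw [Ideal.mul_sup]
  exact sup_le h2 (le_sup_of_le_right (by rwa [mul_comm]))

/-- generators with scales: shift in the direction of the factor of lower scale -/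
theorem det_of_scale {ι β : Type*} [LinearOrder β] {m L K H : Ideal A} {Ls : σ → Ideal A}
    {g : σ → A} (κ : ι → A) (e : ι → σ) (s : ι → β) (hL : L ≤ sp κ ⊔ K) (hκ : ∀ a, κ a ∈ L)
    (hK : K * L ≤ H) (hd : ∀ a, κ a - g (e a) ∈ m * L ⊔ K)
    (hs : ∀ a a', s a ≤ s a' → κ a' ∈ Ls (e a)) : Det m L H Ls g :=
  det_of_pairs κ hL hκ hK fun a a' => (le_total (s a) (s a')).imp
    (fun h => ⟨_, hd a, hs a a' h⟩) fun h => Or.inl ⟨_, hd a', hs a' a h⟩

/-- shifts can be projected into `U` -/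
def ProjS (U : Set (σ → A)) (T : AddSubgroup A) (m L H : Ideal A) (Ls : σ → Ideal A)
    (dF : (σ → A) → σ → A) : Prop :=
  ∀ z ∈ U, ∀ k, ∀ P ∈ T, ∀ δ : σ → A, (∀ i, δ i ∈ m ^ k * Ls i) →
    P - ∑ i, δ i * dF z i ∈ m ^ (k + 1) * (L * L) ⊔ H →
    ∃ δ' : σ → A, z + δ' ∈ U ∧ (∀ i, δ' i ∈ m ^ k * Ls i) ∧
      P - ∑ i, δ' i * dF z i ∈ m ^ (k + 1) * (L * L) ⊔ H

/-- **scaled Tougeron** -/
theorem toug_sc {U : Set (σ → A)} {F : (σ → A) → A} {dF : (σ → A) → σ → A} {m L H : Ideal A}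
    {Ls : σ → Ideal A} {T : AddSubgroup A} (h : TayM U m F dF) (hm : IsNilpotent m)
    (hLs : ∀ i, Ls i ≤ L) (hT : ∀ z ∈ U, F z ∈ T) (hp : ProjS U T m L H Ls dF) {z : σ → A}
    (hz : z ∈ U) (hD : Det m L H Ls (dF z)) {P : A} (hP : P ∈ T) {k : ℕ}
    (hI : P ∈ m ^ k * (L * L) ⊔ H) :
    ∃ z' ∈ U, (∀ i, z' i - z i ∈ m ^ k * Ls i) ∧ F z' - F z - P ∈ H := by
  obtain ⟨N, hN⟩ := id hm
  induction' hn : N - k with n ih generalizing k z P
  · have : m ^ k = 0 := pow_eq_zero_of_le (by omega) hN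
    rw [this, zero_mul] at hI
    exact ⟨z, hz, fun i => by simp, by simpa using hI⟩
  have h0 : m ^ k * (L * L) ⊔ H
      ≤ jac (fun i => m ^ k * Ls i) (dF z) ⊔ (m ^ (k + 1) * (L * L) ⊔ H) := by
    refine sup_le ((Ideal.mul_mono_right hD).trans ?_) (le_sup_of_le_right le_sup_right)
    rw [Ideal.mul_sup, Ideal.mul_sup, ← mul_assoc, ← pow_succ, sup_assoc]
    exact sup_le_sup (mul_jac_le _ _ _) (sup_le_sup_left Ideal.mul_le_right _)
  obtain ⟨P1, ⟨δ0, h1, rfl⟩, P2, h2, e⟩ := Submodule.mem_sup.1 (h0 hI)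
  obtain ⟨δ, hU, hδ, e'⟩ := hp z hz k P hP δ0 h1 (by rw [← e]; simpa using h2)
  have hδL : sp δ ≤ m ^ k * L := sp_le.2 fun i => Ideal.mul_mono_right (hLs i) (hδ i)
  have hD' : Det m L H Ls (dF (z + δ)) := hD.congr hLs fun i => by
    have := h.one z hz _ hU i
    rw [add_sub_cancel_left] at this
    simpa using neg_mem (Ideal.mul_mono_right (hδL.trans Ideal.mul_le_right) this)
  have h3 := h.two z hz _ hU
  simp only [add_sub_cancel_left, Pi.add_apply] at h3
  have h5 : m * sp δ ^ 2 ≤ m ^ (k + 1) * (L * L) ⊔ H := by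
    refine le_sup_of_le_left ((Ideal.mul_mono_right (Ideal.pow_right_mono hδL 2)).trans ?_)
    have : m * (m ^ k * L) ^ 2 = m ^ k * (m ^ (k + 1) * (L * L)) := by ring
    rw [this]
    exact Ideal.mul_le_right
  obtain ⟨z', hz', hd, e2⟩ := ih (k := k + 1) hU hD' (P := P - (F (z + δ) - F z))
    (sub_mem hP (sub_mem (hT _ hU) (hT _ hz)))
    (by convert sub_mem e' (h5 h3) using 1; ring) (by omega)
  refine ⟨z', hz', fun i => ?_, by convert e2 using 1; ring⟩
  convert add_mem (Ideal.mul_mono_left (Ideal.pow_le_pow_right k.le_succ) (hd i)) (hδ i) using 1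
  simp only [Pi.add_apply]; ring

theorem projS_Gr {Γ K : Type*} [AddCommGroup Γ] [Fintype Γ] [DecidableEq Γ] [CommRing K]
    [Algebra K A] {G : Gr Γ K A} {d : σ → Γ} {D : Γ} {m L H J : Ideal A} {Ls : σ → Ideal A}
    {dF : (σ → A) → σ → A} (hm : G.Id m) (hL : G.Id L) (hH : G.Id H) (hLs : ∀ i, G.Id (Ls i))
    (hJ : ∀ i, Ls i ≤ J) (hd : ∀ z ∈ HP G d J, ∀ i, G.Hg (D - d i) (dF z i)) :
    ProjS (HP G d J) (HT G D) m L H Ls dF := by
  intro z hz k P hP δ h h'
  have h1 : ∀ i, G.pr (d i) (δ i) ∈ m ^ k * Ls i := fun i => (hm.pow k).mul (hLs i) _ _ (h i)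
  refine ⟨fun i => G.pr (d i) (δ i), fun i => ⟨(hz i).1.add (G.hg_pr _ _),
    J.add_mem (hz i).2 (hJ i (Ideal.mul_le_right (h1 i)))⟩, h1, ?_⟩
  have h2 := (((hm.pow (k + 1)).mul (hL.mul hL)).sup hH) D _ h'
  rwa [map_sub, pr_sum (hd z hz), show G.pr D P = P from hP] at h2

end Abs

section OnO

variable {p : ℕ} {K : Type} [CommRing K] {σ τ : Type} {A : Type*} [CommRing A] [Algebra K A]
  {m : Ideal A} [Fact ((p : K) = 0)] [Fintype τ] {Γ : Type*} [AddCommGroup Γ] [Fintype Γ]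
  [DecidableEq Γ] [Fintype σ] {GO : Gr Γ K (O p K σ)} {G : Gr Γ K A} {d : σ → Γ}

/-- **scaled Tougeron for substitutions**: the variable `e i` is moved inside `Ls i` -/
theorem toug_sc_O (h2 : IsUnit (2 : A)) (hm : IsNilpotent m) (hp : ∀ x ∈ m, x ^ p = 0)
    (hGm : G.Id m) (hO : ∀ i, GO.Hg (d i) (z i)) {e : τ → σ} (he : Injective e) {D : Γ}
    {W : O p K σ} (hW : GO.Hg D W) (hH : ∀ k i, pd (e k) (pd (e i) W) ∈ mx)
    {φ : O p K σ →ₐ[K] A} (hφ : ∀ u, G.Hg (d u) (φ (z u)) ∧ φ (z u) ∈ m) {L H : Ideal A}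
    {Ls : τ → Ideal A} (gL : G.Id L) (gH : G.Id H) (gLs : ∀ i, G.Id (Ls i)) (hLm : L ≤ m)
    (hLs : ∀ i, Ls i ≤ L) (hD : Det m L H Ls fun i => φ (pd (e i) W))
    {P : A} (hP : G.Hg D P) (hI : P ∈ L ^ 2 ⊔ H) :
    ∃ ψ : O p K σ →ₐ[K] A, (∀ u, G.Hg (d u) (ψ (z u)) ∧ ψ (z u) ∈ m) ∧
      (∀ u, u ∉ range e → ψ (z u) = φ (z u)) ∧ (∀ i, ψ (z (e i)) - φ (z (e i)) ∈ Ls i) ∧
      ψ W - φ W - P ∈ H := by
  obtain ⟨Φ, hΦ⟩ := exists_poly he φ W
  have hu : ∀ (b : τ → A) (hb : b ∈ HP G (d ∘ e) m) u,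
      G.Hg (d u) (upd hp e φ b (fun i => (hb i).2) (z u)) ∧
        upd hp e φ b (fun i => (hb i).2) (z u) ∈ m := fun b hb u => by
    by_cases h : u ∈ range e
    · obtain ⟨i, rfl⟩ := h
      rw [upd_e hp he]; exact hb i
    · rw [upd_not hp e φ b _ h]; exact hφ u
  have hv := fun (b : τ → A) (hb : b ∈ HP G (d ∘ e) m) => by
    have := hΦ (upd hp e φ b fun i => (hb i).2) fun u => upd_not hp e φ b _
    rw [upd_pt hp he] at this
    exact this
  have h0 := hΦ φ fun _ _ => rfl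
  obtain ⟨b, hb, h3, h4⟩ := toug_sc (T := HT G D) (z := fun i => φ (z (e i))) (k := 0)
    (tayM_poly (U := HP G (d ∘ e) m) h2 Φ (fun b hb b' hb' i => m.sub_mem (hb' i).2 (hb i).2)
      fun b hb k i => by
        rw [(hv b hb).2.2]; exact map_mx _ (fun u => (hu b hb u).2) (hH k i))
    hm hLs (fun b hb => by
      rw [(hv b hb).1]; exact (hom_of_z hO fun u => (hu b hb u).1).hg hW)
    (projS_Gr hGm gL gH gLs (fun i => (hLs i).trans hLm) fun b hb i => by
      rw [(hv b hb).2.1]; exact (hom_of_z hO fun u => (hu b hb u).1).hg (hg_pd hO hW (e i)))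
    (fun i => hφ (e i)) (by simpa only [h0.2.1] using hD) hP (by simpa [sq] using hI)
  refine ⟨upd hp e φ b fun i => (hb i).2, hu b hb, fun u => upd_not hp e φ b _, fun i => ?_, by
    rwa [(hv b hb).1, h0.1] at h4⟩
  rw [upd_e hp he]; simpa using h3 i

end OnO

/-! ### weight ideals -/

section WI

variable {p : ℕ} {K : Type} [CommRing K] {V V' : Type} [Fintype V] [Fintype V']

theorem cf_mul_ne {f g : O p K V} {a : V → ℕ} (h : cf a (f * g) ≠ 0) :
    ∃ b c, a = b + c ∧ cf b f ≠ 0 ∧ cf c g ≠ 0 := by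
  classical
  rw [← sum_cf f, ← sum_cf g, Finset.sum_mul_sum, map_sum] at h
  obtain ⟨b, -, h⟩ := Finset.exists_ne_zero_of_sum_ne_zero h
  rw [map_sum] at h
  obtain ⟨c, -, h⟩ := Finset.exists_ne_zero_of_sum_ne_zero h
  rw [smul_mul_smul_comm, ← zm_add, map_smul, cf_zm] at h
  split_ifs at h with h1
  · refine ⟨b, c, h1.1, fun h2 => h ?_, fun h2 => h ?_⟩ <;> simp [h2]
  · simp at h

/-- weight of a monomial -/
def wg (FV : V → ℕ) (a : V → ℕ) : ℕ := ∑ v, a v * FV v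

theorem wg_add (FV a b : V → ℕ) : wg FV (a + b) = wg FV a + wg FV b := by
  simp [wg, add_mul, Finset.sum_add_distrib]

theorem wg_single [DecidableEq V] (FV : V → ℕ) (v : V) (n : ℕ) :
    wg FV (Pi.single v n) = n * FV v := by
  rw [wg, Finset.sum_eq_single v]
  · simp
  · intro j _ h; simp [h]
  · simp

variable (p K) in
/-- the ideal of the functions all of whose monomials have weight `≥ n` -/
def WI (FV : V → ℕ) (n : ℕ) : Ideal (O p K V) where
  carrier := {f | ∀ a, cf a f ≠ 0 → n ≤ wg FV a}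
  add_mem' := fun {f g} hf hg a ha => by
    by_cases h : cf a f = 0
    · exact hg a (by simpa [h] using ha)
    · exact hf a h
  zero_mem' := fun a ha => by simp at ha
  smul_mem' := fun c f hf a ha => by
    obtain ⟨b, b', rfl, -, h⟩ := cf_mul_ne ha
    have := hf b' h
    rw [wg_add]; omega

variable {FV : V → ℕ} {n n' : ℕ}

theorem mem_WI {f : O p K V} : f ∈ WI p K FV n ↔ ∀ a, cf a f ≠ 0 → n ≤ wg FV a := Iff.rfl

theorem hi_iff [Fact p.Prime] {f : O p (ZMod p) V} :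
    _root_.N255.Core.Hi FV n f ↔ f ∈ WI p (ZMod p) FV (n + 1) := Iff.rfl

theorem WI_anti (h : n ≤ n') : WI p K FV n' ≤ WI p K FV n := fun _ hf a ha => h.trans (hf a ha)

theorem WI_mono {FV' : V → ℕ} (h : ∀ v, FV v ≤ FV' v) : WI p K FV n ≤ WI p K FV' n :=
  fun _ hf a ha => (hf a ha).trans (Finset.sum_le_sum fun v _ => Nat.mul_le_mul_left _ (h v))

@[simp] theorem WI_zero : WI p K FV 0 = ⊤ := eq_top_iff.2 fun _ _ _ _ => Nat.zero_le _

theorem WI_mul : WI p K FV n * WI p K FV n' ≤ WI p K FV (n + n') :=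
  Ideal.mul_le.2 fun f hf g hg a ha => by
    obtain ⟨b, c, rfl, h1, h2⟩ := cf_mul_ne ha
    rw [wg_add]; exact add_le_add (hf b h1) (hg c h2)

theorem mul_mem_WI {f g : O p K V} (hf : f ∈ WI p K FV n) (hg : g ∈ WI p K FV n') :
    f * g ∈ WI p K FV (n + n') := WI_mul (Ideal.mul_mem_mul hf hg)

theorem WI_pow (k : ℕ) : WI p K FV n ^ k ≤ WI p K FV (k * n) := by
  induction k with
  | zero => simp
  | succ k ih =>
    rw [pow_succ, add_mul, one_mul]
    exact (Ideal.mul_mono_left ih).trans WI_mul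

theorem zm_mem_WI {a : V → ℕ} (h : n ≤ wg FV a) : (zm a : O p K V) ∈ WI p K FV n := by
  classical
  intro b hb
  rw [cf_zm] at hb
  split_ifs at hb with h1
  · rw [h1.1]; exact h
  · simp at hb

theorem z_mem_WI {v : V} (h : n ≤ FV v) : (z v : O p K V) ∈ WI p K FV n := by
  classical
  rw [← pow_one (z v), ← zm_single]
  exact zm_mem_WI (by rwa [wg_single, one_mul])

theorem mx_le_WI (h : ∀ v, n ≤ FV v) : (mx : Ideal (O p K V)) ≤ WI p K FV n :=
  Ideal.span_le.2 (by rintro _ ⟨v, rfl⟩; exact z_mem_WI (h v))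

theorem WI_le_mx [Fact p.Prime] (h : 0 < n) : WI p K FV n ≤ mx := fun f hf => by
  rw [mem_mx, ← cf_zero]
  by_contra hne
  have := hf 0 hne
  simp [wg] at this
  omega

theorem WI_le {J : Ideal (O p K V)} (h : ∀ a, n ≤ wg FV a → zm a ∈ J) : WI p K FV n ≤ J := by
  classical
  intro f hf
  rw [← sum_cf f]
  refine sum_mem fun a _ => ?_
  by_cases h0 : cf a f = 0
  · simp [h0]
  · rw [Algebra.smul_def]; exact J.mul_mem_left _ (h a (hf a h0))

/-- substitutions which do not decrease the weight of the variables -/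
theorem map_WI {K' F : Type} [CommRing K'] [FunLike F (O p K V) (O p K' V')]
    [RingHomClass F (O p K V) (O p K' V')] (φ : F) {FV' : V' → ℕ}
    (h : ∀ v, φ (z v) ∈ WI p K' FV' (FV v)) {f : O p K V} (hf : f ∈ WI p K FV n) :
    φ f ∈ WI p K' FV' n := by
  refine WI_le (J := (WI p K' FV' n).comap φ) (fun a ha => ?_) hf
  rw [Ideal.mem_comap, map_zm]
  refine WI_anti ha ?_
  unfold wg
  induction (Finset.univ : Finset V) using Finset.cons_induction with
  | empty => simp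
  | cons v s hv ih =>
    rw [Finset.prod_cons, Finset.sum_cons]
    exact mul_mem_WI (WI_pow _ (Ideal.pow_mem_pow (h v) _)) ih

/-- two substitutions with the same leading parts -/
theorem sub_WI (φ ψ : O p K V →ₐ[K] O p K V') {FV' : V' → ℕ} {c : ℕ}
    (h : ∀ v, ψ (z v) ∈ WI p K FV' (FV v))
    (h' : ∀ v, φ (z v) - ψ (z v) ∈ WI p K FV' (FV v + c)) {f : O p K V}
    (hf : f ∈ WI p K FV n) : φ f - ψ f ∈ WI p K FV' (n + c) := by
  classical
  have h1 : ∀ v, φ (z v) ∈ WI p K FV' (FV v) := fun v => by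
    simpa using add_mem (WI_anti (Nat.le_add_right _ _) (h' v)) (h v)
  have key : ∀ a : V → ℕ, φ (zm a) - ψ (zm a) ∈ WI p K FV' (wg FV a + c) := by
    intro a
    induction' ha : ∑ v, a v with k ih generalizing a
    · have : a = 0 := funext fun v => Finset.sum_eq_zero_iff.1 ha v (Finset.mem_univ v)
      simp [this]
    · obtain ⟨v, -, hv⟩ := Finset.exists_ne_zero_of_sum_ne_zero (s := Finset.univ) (f := a)
        (by omega)
      have e := sub_single_add (Nat.pos_of_ne_zero hv)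
      have h2 := ih (a - Pi.single v 1) (by
        have := congrArg (fun b : V → ℕ => ∑ j, b j) e
        simp only [Pi.add_apply, Finset.sum_add_distrib] at this
        rw [Finset.sum_pi_single', if_pos (Finset.mem_univ v)] at this
        omega)
      rw [← e, zm_add, zm_single, pow_one, wg_add, wg_single, one_mul, map_mul, map_mul]
      have : ∀ x y x' y' : O p K V', x * y - x' * y' = (x - x') * y + x' * (y - y') :=
        fun _ _ _ _ => by ring
      rw [this]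
      exact add_mem (WI_anti (by omega) (mul_mem_WI h2 (h1 v)))
        (WI_anti (by omega) (mul_mem_WI (map_WI ψ h (zm_mem_WI le_rfl)) (h' v)))
  rw [← sum_cf f, map_sum, map_sum, ← Finset.sum_sub_distrib]
  refine sum_mem fun a _ => ?_
  by_cases h0 : cf a f = 0
  · simp [h0]
  · rw [map_smul, map_smul, ← smul_sub, Algebra.smul_def]
    exact Ideal.mul_mem_left _ _ (WI_anti (Nat.add_le_add_right (hf a h0) _) (key a))

theorem pd_mem_WI [Fact ((p : K) = 0)] (v : V) {f : O p K V} (hf : f ∈ WI p K FV n) :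
    pd v f ∈ WI p K FV (n - FV v) := by
  classical
  intro a ha
  rw [cf_pd] at ha
  have := hf (a + Pi.single v 1) fun h => ha (by rw [h, smul_zero])
  rw [wg_add, wg_single] at this
  omega

theorem WI_eq_bot (h : (p - 1) * ∑ v, FV v < n) : WI p K FV n = ⊥ := by
  refine eq_bot_iff.2 (WI_le fun a ha => ?_)
  rw [zm_eq_zero]
  · exact zero_mem _
  · intro h1
    have : wg FV a ≤ (p - 1) * ∑ v, FV v := by
      rw [Finset.mul_sum]
      exact Finset.sum_le_sum fun v _ => Nat.mul_le_mul_right _ (by have := h1 v; omega)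
    omega

/-- weight ideals are graded -/
theorem id_WI {Γ : Type*} [AddCommGroup Γ] [Fintype Γ] [DecidableEq Γ] {G : Gr Γ K (O p K V)}
    {d : V → Γ} (hO : ∀ v, G.Hg (d v) (z v)) : G.Id (WI p K FV n) := by
  have : WI p K FV n = Ideal.span {x | ∃ a, n ≤ wg FV a ∧ x = zm a} :=
    le_antisymm (WI_le fun a ha => Ideal.subset_span ⟨a, ha, rfl⟩)
      (Ideal.span_le.2 (by rintro _ ⟨a, ha, rfl⟩; exact zm_mem_WI ha))
  rw [this]
  exact G.id_span_hg (by rintro _ ⟨a, -, rfl⟩; exact ⟨_, hg_zm (AlgHom.id K _) hO a⟩)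

end WI

end Crest.Agent.N255.Tg

end
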