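import Crest.Agent.N255.Tg.OnO

/-!
# Row 255 (helper23): weighted Taylor formulas, weighted Tougeron absorption, weighted fixed points
-/

set_option autoImplicit false
open Set Function

noncomputable section

namespace Crest.Agent.N255.Tg

open _root_.N255.Dr _root_.N255.Dr.O Cs

variable {p : ℕ} {K : Type} [CommRing K] {σ τ : Type} [Fintype σ] {A : Type*} [CommRing A]
  [Algebra K A]

theorem pi_ind [DecidableEq σ] {P : (σ → ℕ) → Prop} (h0 : P 0)
    (h : ∀ a j, P a → P (a + Pi.single j 1)) (a : σ → ℕ) : P a := by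
  induction' hn : ∑ i, a i with n ih generalizing a
  · rwa [show a = 0 from funext fun i => Finset.sum_eq_zero_iff.1 hn i (Finset.mem_univ i)]
  obtain ⟨j, -, hj⟩ := Finset.exists_ne_zero_of_sum_ne_zero (show ∑ i, a i ≠ 0 by omega)
  have e : a = (a - Pi.single j 1) + Pi.single j 1 := funext fun i => by
    rcases eq_or_ne i j with rfl | hi
    · simp; omega
    · simp [hi]
  rw [e]
  refine h _ _ (ih _ ?_)
  rw [e] at hn
  simp only [Pi.add_apply, Finset.sum_add_distrib, Finset.sum_pi_single', Finset.mem_univ,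
    if_true] at hn
  omega

/-- the product ideal of a multi-index -/
def PI (I : σ → Ideal A) (b : σ → ℕ) : Ideal A := ∏ i, I i ^ b i

theorem PI_zero (I : σ → Ideal A) : PI I 0 = ⊤ := by simp [PI]

theorem PI_succ [DecidableEq σ] (I : σ → Ideal A) (b : σ → ℕ) (j : σ) :
    PI I (b + Pi.single j 1) = PI I b * I j := by
  simp only [PI, Pi.add_apply, pow_add, Finset.prod_mul_distrib]
  rw [Finset.prod_eq_single j (f := fun i => I i ^ Pi.single (M := fun _ => ℕ) j 1 i)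
    (fun i _ hi => by simp [hi]) (by simp)]
  simp

theorem zm_succ [DecidableEq σ] (a : σ → ℕ) (j : σ) :
    (zm (a + Pi.single j 1) : O p K σ) = zm a * z j := by rw [zm_add, zm_single, pow_one]

theorem zm_zero' : (zm (0 : σ → ℕ) : O p K σ) = 1 := by simp [zm]

theorem map_zm_mem {I : σ → Ideal A} {ψ : O p K σ →ₐ[K] A} (h : ∀ i, ψ (z i) ∈ I i) (a : σ → ℕ) :
    ψ (zm a) ∈ PI I a := by
  classical
  induction a using pi_ind with
  | h0 => simp [PI_zero]
  | h a j ih => rw [zm_succ, map_mul, PI_succ]; exact Ideal.mul_mem_mul ih (h j)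

/-- the carrier of `g`: it contains `ψ g` whenever `ψ (z i) ∈ I i` -/
def Car (I : σ → Ideal A) (g : O p K σ) : Ideal A := ⨆ b, ⨆ _ : cf b g ≠ 0, PI I b

omit [Algebra K A] in
theorem Car_le {I : σ → Ideal A} {g : O p K σ} {E : Ideal A} :
    Car I g ≤ E ↔ ∀ b, cf b g ≠ 0 → PI I b ≤ E := iSup₂_le_iff

omit [Algebra K A] in
theorem le_Car {I : σ → Ideal A} {g : O p K σ} {b : σ → ℕ} (h : cf b g ≠ 0) : PI I b ≤ Car I g :=
  Car_le.1 le_rfl b h

omit [Algebra K A] in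
theorem Car_zero (I : σ → Ideal A) : Car I (0 : O p K σ) = ⊥ :=
  le_bot_iff.1 (Car_le.2 fun _ h => absurd (map_zero _) h)

/-- membership can be tested on the monomials that occur -/
theorem mem_of_cf {M : Type*} [AddCommGroup M] [Module K M] (L : O p K σ →ₗ[K] M)
    {E : Submodule K M} {g : O p K σ} (h : ∀ a, cf a g ≠ 0 → L (zm a) ∈ E) : L g ∈ E := by
  classical
  rw [← sum_cf g, map_sum]
  refine sum_mem fun a _ => ?_
  by_cases ha : cf a g = 0
  · simp [ha]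
  · rw [map_smul]; exact E.smul_mem _ (h a ha)

theorem map_mem_Car {I : σ → Ideal A} {ψ : O p K σ →ₐ[K] A} (h : ∀ i, ψ (z i) ∈ I i)
    (g : O p K σ) : ψ g ∈ Car I g :=
  mem_of_cf ψ.toLinearMap (E := (Car I g).restrictScalars K) fun a ha => le_Car ha (map_zm_mem h a)

omit [Algebra K A] in
theorem Car_mx [Fact p.Prime] {I : σ → Ideal A} {m : Ideal A} (h : ∀ i, I i ≤ m) {g : O p K σ}
    (hg : g ∈ mx) : Car I g ≤ m := by
  classical
  refine Car_le.2 fun b hb => ?_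
  induction b using pi_ind with
  | h0 => exact absurd ((cf_zero g).trans (mem_mx.1 hg)) hb
  | h a j _ => rw [PI_succ]; exact Ideal.mul_le_right.trans (h j)

section Tay

variable [Fact p.Prime] [Fact ((p : K) = 0)]

theorem cf_pd_ne [DecidableEq σ] {b : σ → ℕ} {x : σ} {g : O p K σ} :
    cf b (pd x g) ≠ 0 ↔ cf (b + Pi.single x 1) g ≠ 0 := by
  rw [cf_pd]
  refine ⟨fun h h' => h (by rw [h', smul_zero]), fun h h' => h ?_⟩
  have h1 : b x + 1 < p := by
    by_contra h1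
    exact h (cf_of_not (fun h2 => h1 (by simpa using h2 x)) g)
  rw [nsmul_eq_mul] at h'
  exact (natCast_unit (Fact.out : (p : K) = 0) (Nat.succ_ne_zero _) h1).mul_right_eq_zero.1 h'

variable {I : σ → Ideal A} {ψ ψ' : O p K σ →ₐ[K] A}

omit [Fact p.Prime] in
theorem tay_zm [DecidableEq σ] (h : ∀ i, ψ (z i) ∈ I i) (h' : ∀ i, ψ' (z i) ∈ I i) (a : σ → ℕ) :
    (ψ' (zm a) - ψ (zm a) ∈ ⨆ x, ⨆ b, ⨆ _ : b + Pi.single x 1 = a,
      Ideal.span {ψ' (z x) - ψ (z x)} * PI I b) ∧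
    ψ' (zm a) - ψ (zm a) - ∑ x, (ψ' (z x) - ψ (z x)) * ψ (pd x (zm a)) ∈
      ⨆ x, ⨆ y, ⨆ b, ⨆ _ : b + Pi.single x 1 + Pi.single y 1 = a,
        Ideal.span {ψ' (z x) - ψ (z x)} * Ideal.span {ψ' (z y) - ψ (z y)} * PI I b := by
  induction a using pi_ind with
  | h0 => simp
  | h a j ih =>
    have s1 := Ideal.mem_span_singleton_self (ψ' (z j) - ψ (z j))
    refine ⟨?_, ?_⟩
    · have e : ψ' (zm (a + Pi.single j 1)) - ψ (zm (a + Pi.single j 1)) =
          (ψ' (zm a) - ψ (zm a)) * ψ (z j) + (ψ' (z j) - ψ (z j)) * ψ' (zm a) := by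
        simp only [zm_succ, map_mul]; ring
      rw [e]
      refine add_mem ((?_ : _ * I j ≤ _) (Ideal.mul_mem_mul ih.1 (h j)))
        (Ideal.mem_iSup_of_mem j (Ideal.mem_iSup_of_mem a (Ideal.mem_iSup_of_mem rfl
          (Ideal.mul_mem_mul s1 (map_zm_mem h' a)))))
      simp only [Submodule.iSup_mul, iSup_le_iff]
      rintro x b rfl
      rw [mul_assoc, ← PI_succ]
      exact le_iSup_of_le x (le_iSup₂_of_le _ (add_right_comm _ _ _) le_rfl)
    · have e : ψ' (zm (a + Pi.single j 1)) - ψ (zm (a + Pi.single j 1)) -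
          ∑ x, (ψ' (z x) - ψ (z x)) * ψ (pd x (zm (a + Pi.single j 1))) =
          (ψ' (zm a) - ψ (zm a) - ∑ x, (ψ' (z x) - ψ (z x)) * ψ (pd x (zm a))) * ψ (z j) +
            (ψ' (zm a) - ψ (zm a)) * (ψ' (z j) - ψ (z j)) := by
        simp only [zm_succ, map_mul, Derivation.leibniz, smul_eq_mul, map_add, pd_z, apply_ite ψ,
          map_zero, mul_ite, mul_one, mul_zero, mul_add, Finset.sum_add_distrib,
          Finset.sum_ite_eq', Finset.mem_univ, if_true, sub_mul, Finset.sum_mul]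
        simp only [mul_comm (ψ (z j)), ← mul_assoc]
        ring
      rw [e]
      refine add_mem ((?_ : _ * I j ≤ _) (Ideal.mul_mem_mul ih.2 (h j)))
        ((?_ : _ * Ideal.span {ψ' (z j) - ψ (z j)} ≤ _) (Ideal.mul_mem_mul ih.1 s1))
      · simp only [Submodule.iSup_mul, iSup_le_iff]
        rintro x y b rfl
        rw [mul_assoc, ← PI_succ]
        exact le_iSup_of_le x (le_iSup_of_le y (le_iSup₂_of_le _ (by ac_rfl) le_rfl))
      · simp only [Submodule.iSup_mul, iSup_le_iff]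
        rintro x b rfl
        rw [mul_right_comm]
        exact le_iSup_of_le x (le_iSup_of_le j (le_iSup₂_of_le b rfl le_rfl))

/-- first order Taylor formula with carriers -/
theorem tay1 (h : ∀ i, ψ (z i) ∈ I i) (h' : ∀ i, ψ' (z i) ∈ I i) (g : O p K σ) {E : Ideal A}
    (hE : ∀ x, Ideal.span {ψ' (z x) - ψ (z x)} * Car I (pd x g) ≤ E) : ψ' g - ψ g ∈ E := by
  classical
  refine mem_of_cf (ψ'.toLinearMap - ψ.toLinearMap) (E := E.restrictScalars K) fun a ha =>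
    (?_ : _ ≤ E) (tay_zm h h' a).1
  simp only [iSup_le_iff]
  rintro x b rfl
  exact (Ideal.mul_mono_right (le_Car (cf_pd_ne.2 ha))).trans (hE x)

/-- second order Taylor formula with carriers -/
theorem tay2 (h : ∀ i, ψ (z i) ∈ I i) (h' : ∀ i, ψ' (z i) ∈ I i) (g : O p K σ) {E : Ideal A}
    (hE : ∀ x y, Ideal.span {ψ' (z x) - ψ (z x)} * Ideal.span {ψ' (z y) - ψ (z y)} *
      Car I (pd x (pd y g)) ≤ E) :
    ψ' g - ψ g - ∑ x, (ψ' (z x) - ψ (z x)) * ψ (pd x g) ∈ E := by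
  classical
  have := mem_of_cf (ψ'.toLinearMap - ψ.toLinearMap - ∑ x, LinearMap.mulLeft K (ψ' (z x) - ψ (z x))
    ∘ₗ ψ.toLinearMap ∘ₗ (pd x : Derivation K (O p K σ) _).toLinearMap) (g := g)
    (E := E.restrictScalars K) fun a ha => by
      have : _ ∈ E := (?_ : _ ≤ E) (tay_zm h h' a).2
      · simpa using this
      simp only [iSup_le_iff]
      rintro x y b rfl
      exact (Ideal.mul_mono_right (le_Car (cf_pd_ne.2 (cf_pd_ne.2 ha)))).trans (hE x y)
  simpa using this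

end Tay

/-- what can be absorbed by shifts in `J`, up to `H` -/
def EE (J : σ → Ideal A) (d : σ → A) (H : Ideal A) : Ideal A :=
  (⨆ x, J x * Ideal.span {d x}) ⊔ H

omit [Fintype σ] in
theorem le_EE (J : σ → Ideal A) (d : σ → A) (H : Ideal A) (x : σ) :
    J x * Ideal.span {d x} ≤ EE J d H := le_sup_of_le_left (le_iSup (fun x => J x * Ideal.span {d x}) x)

omit [Fintype σ] in
theorem H_le_EE (J : σ → Ideal A) (d : σ → A) (H : Ideal A) : H ≤ EE J d H := le_sup_right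

omit [Fintype σ] in
theorem mul_mem_EE {J : σ → Ideal A} (d : σ → A) (H : Ideal A) {x : σ} {a : A} (h : a ∈ J x) :
    a * d x ∈ EE J d H := le_EE J d H x (Ideal.mul_mem_mul h (Ideal.mem_span_singleton_self _))

theorem mem_EE {J : σ → Ideal A} {d : σ → A} {H : Ideal A} {P : A} :
    P ∈ EE J d H ↔ ∃ a : σ → A, (∀ x, a x ∈ J x) ∧ P - ∑ x, a x * d x ∈ H := by
  classical
  refine ⟨fun h => ?_, fun ⟨a, ha, h⟩ => by
    simpa using add_mem (H_le_EE J d H h) (sum_mem fun x (_ : x ∈ Finset.univ) => mul_mem_EE d H (ha x))⟩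
  obtain ⟨P1, h1, P2, h2, rfl⟩ := Submodule.mem_sup.1 h
  suffices ∃ a : σ → A, (∀ x, a x ∈ J x) ∧ P1 = ∑ x, a x * d x by
    obtain ⟨a, ha, rfl⟩ := this
    exact ⟨a, ha, by simpa using h2⟩
  clear h
  induction h1 using Submodule.iSup_induction' with
  | mem x P hP =>
    obtain ⟨a, ha, rfl⟩ := Ideal.mem_mul_span_singleton.1 hP
    refine ⟨Pi.single x a, fun y => ?_, by simp [Pi.single_apply]⟩
    rcases eq_or_ne y x with rfl | hy
    · simpa using ha
    · simp [hy]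
  | zero => exact ⟨0, fun _ => zero_mem _, by simp⟩
  | add P Q _ _ h1 h2 =>
    obtain ⟨a, ha, rfl⟩ := h1
    obtain ⟨b, hb, rfl⟩ := h2
    exact ⟨a + b, fun x => add_mem (ha x) (hb x), by simp [add_mul, Finset.sum_add_distrib]⟩

section Toug

variable [Fact p.Prime] [Fact ((p : K) = 0)] {Γ : Type*} [AddCommGroup Γ] [Fintype Γ]
  [DecidableEq Γ] {GO : Gr Γ K (O p K σ)} {G : Gr Γ K A} {d : σ → Γ}

/-- **Weighted Tougeron**: shift ideals `J k x` for every variable `x` and level `k` -/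
theorem toug_w (hO : ∀ i, GO.Hg (d i) (z i)) {D : Γ} {W : O p K σ} (hW : GO.Hg D W)
    {I : σ → Ideal A} (hp : ∀ i, ∀ x ∈ I i, x ^ p = 0) {J : ℕ → σ → Ideal A} {H : Ideal A}
    (gJ : ∀ k x, G.Id (J k x)) (gH : G.Id H) (h0 : ∀ k x, J k x ≤ J 0 x) (hI : ∀ x, J 0 x ≤ I x)
    {φ : O p K σ →ₐ[K] A} (hφ : ∀ u, G.Hg (d u) (φ (z u)) ∧ φ (z u) ∈ I u)
    (hJ : ∀ k x y, J k x * J 0 y * Car I (pd x (pd y W)) ≤ EE (J (k + 1)) (fun x => φ (pd x W)) H)
    {P : A} (hP : G.Hg D P) (hE : P ∈ EE (J 0) (fun x => φ (pd x W)) H) (n : ℕ) :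
    ∃ ψ : O p K σ →ₐ[K] A, (∀ u, G.Hg (d u) (ψ (z u)) ∧ ψ (z u) - φ (z u) ∈ J 0 u) ∧
      ψ W - φ W - P ∈ EE (J n) (fun x => φ (pd x W)) H := by
  induction n with
  | zero => exact ⟨φ, fun u => ⟨(hφ u).1, by simp⟩, by simpa using hE⟩
  | succ n ih =>
    obtain ⟨ψ, h1, h2⟩ := ih
    obtain ⟨a0, ha0, e0⟩ := mem_EE.1 h2
    have g0 := hom_of_z hO fun u => (hφ u).1
    have g1 := hom_of_z hO fun u => (h1 u).1
    have e1 := gH D _ e0
    rw [map_sub, pr_sum fun x => g0.hg (hg_pd hO hW x),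
      show G.pr D _ = _ from ((g1.hg hW).sub (g0.hg hW)).sub hP] at e1
    set a := fun x => G.pr (d x) (a0 x)
    have ha : ∀ x, a x ∈ J n x := fun x => gJ n x _ _ (ha0 x)
    have m1 : ∀ u, ψ (z u) ∈ I u := fun u => by simpa using add_mem (hI u (h1 u).2) (hφ u).2
    have m2 : ∀ u, ψ (z u) - a u ∈ I u := fun u => sub_mem (m1 u) (hI u (h0 n u (ha u)))
    let ψ' : O p K σ →ₐ[K] A := lift (fun u => ψ (z u) - a u) fun u => hp u _ (m2 u)
    have z' : ∀ u, ψ' (z u) = ψ (z u) - a u := fun u => lift_z _ _ _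
    have s' : ∀ u, Ideal.span {ψ' (z u) - ψ (z u)} ≤ J n u := fun u =>
      (Ideal.span_singleton_le_iff_mem _).2 (by simpa [z'] using ha u)
    refine ⟨ψ', fun u => ⟨z' u ▸ (h1 u).1.sub (G.hg_pr _ _), ?_⟩, ?_⟩
    · rw [z', sub_right_comm]; exact sub_mem (h1 u).2 (h0 n u (ha u))
    have t2 := tay2 m1 (fun u => z' u ▸ m2 u) W fun x y =>
      (Ideal.mul_mono_left (Ideal.mul_mono (s' x) ((s' y).trans (h0 n y)))).trans (hJ n x y)
    have t1 : ∀ x, a x * (ψ (pd x W) - φ (pd x W)) ∈ EE (J (n + 1)) (fun x => φ (pd x W)) H :=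
      fun x => by
      have := tay1 (fun u => (hφ u).2) m1 (pd x W)
        (E := Submodule.comap (LinearMap.mulLeft A (a x)) (EE (J (n + 1)) (fun x => φ (pd x W)) H))
        fun y f hf => hJ n x y (by
          rw [mul_assoc, pd_comm]
          exact Ideal.mul_mem_mul (ha x) (Ideal.mul_mono_left
            ((Ideal.span_singleton_le_iff_mem _).2 (h1 y).2) hf))
      exact this
    convert add_mem (sub_mem t2 (sum_mem fun x (_ : x ∈ Finset.univ) => t1 x)) (H_le_EE _ _ _ e1)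
      using 1
    simp only [z', sub_sub_cancel_left, neg_mul, mul_sub, Finset.sum_sub_distrib,
      Finset.sum_neg_distrib]
    ring

end Toug

/-! ### weights -/

/-- a multiplicative filtration -/
structure Flt (Fl : ℤ → Ideal A) : Prop where
  zero : Fl 0 = ⊤
  anti : Antitone Fl
  mul : ∀ n m, Fl n * Fl m ≤ Fl (n + m)

theorem Flt.mul_le {Fl : ℤ → Ideal A} (h : Flt Fl) {n m k : ℤ} {I J : Ideal A} (hI : I ≤ Fl n)
    (hJ : J ≤ Fl m) (hk : k ≤ n + m) : I * J ≤ Fl k :=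
  (Ideal.mul_mono hI hJ).trans ((h.mul n m).trans (h.anti hk))

/-- the weight of a multi-index -/
def wt (F : σ → ℕ) (a : σ → ℕ) : ℕ := ∑ v, a v * F v

theorem wt_add (F a b : σ → ℕ) : wt F (a + b) = wt F a + wt F b := by
  simp [wt, add_mul, Finset.sum_add_distrib]

theorem wt_single [DecidableEq σ] (F : σ → ℕ) (j : σ) : wt F (Pi.single j 1) = F j := by
  simp [wt, Pi.single_apply]

theorem PI_le {Fl : ℤ → Ideal A} (h : Flt Fl) {F : σ → ℕ} {I : σ → Ideal A}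
    (hI : ∀ i, I i ≤ Fl (F i)) (b : σ → ℕ) : PI I b ≤ Fl (wt F b) := by
  classical
  induction b using pi_ind with
  | h0 => simp [wt, h.zero]
  | h a j ih => rw [PI_succ, wt_add, wt_single]; exact h.mul_le ih (hI j) (by simp)

/-- the ideal spanned by the monomials of weight `≥ n` -/
def Ge (p : ℕ) (K : Type) [CommRing K] (F : σ → ℕ) (n : ℤ) : Ideal (O p K σ) :=
  Ideal.span {f | ∃ a, n ≤ wt F a ∧ f = zm a}

variable {F : σ → ℕ} {n : ℤ}

theorem zm_mem_Ge {a : σ → ℕ} (h : n ≤ wt F a) : (zm a : O p K σ) ∈ Ge p K F n :=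
  Ideal.subset_span ⟨a, h, rfl⟩

theorem mem_Ge {f : O p K σ} : f ∈ Ge p K F n ↔ ∀ a, cf a f ≠ 0 → n ≤ wt F a := by
  classical
  refine ⟨fun h => ?_, fun h => mem_of_cf LinearMap.id (E := (Ge p K F n).restrictScalars K)
    fun a ha => zm_mem_Ge (h a ha)⟩
  suffices ∀ g a, ¬ n ≤ wt F a → cf a (g * f) = 0 from fun a ha => by
    by_contra h'
    exact ha (by simpa using this 1 a h')
  induction h using Submodule.span_induction with
  | mem x hx =>
    obtain ⟨b, hb, rfl⟩ := hx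
    intro g a ha
    induction g using induction_zm with
    | h0 => simp
    | hm c a' _ =>
      rw [smul_mul_assoc, ← zm_add, map_smul, cf_zm, if_neg, smul_zero]
      rintro ⟨rfl, -⟩
      exact ha (by rw [wt_add]; omega)
    | hadd f g h1 h2 => rw [add_mul, map_add, h1, h2, add_zero]
  | zero => simp
  | add x y _ _ h1 h2 => intro g a ha; rw [mul_add, map_add, h1 g a ha, h2 g a ha, add_zero]
  | smul c x _ h1 => intro g a ha; rw [smul_eq_mul, ← mul_assoc, h1 _ a ha]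

theorem flt_Ge (F : σ → ℕ) : Flt (Ge p K F) where
  zero := (Ideal.eq_top_iff_one _).2 (zm_zero' (p := p) (K := K) (σ := σ) ▸ zm_mem_Ge (by simp))
  anti _ _ h := Ideal.span_mono fun _ ⟨a, ha, e⟩ => ⟨a, h.trans ha, e⟩
  mul n m := by
    rw [Ge, Ge, Ideal.span_mul_span', Ideal.span_le]
    rintro _ ⟨_, ⟨a, ha, rfl⟩, _, ⟨b, hb, rfl⟩, rfl⟩
    simp only [← zm_add]
    exact zm_mem_Ge (by rw [wt_add]; omega)

theorem z_mem_Ge (F : σ → ℕ) (i : σ) : (z i : O p K σ) ∈ Ge p K F (F i) := by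
  classical
  rw [← pow_one (z i), ← zm_single]
  exact zm_mem_Ge (by rw [wt_single])

theorem Ge_bot (F : σ → ℕ) : ∃ N : ℕ, ∀ n : ℤ, N ≤ n → Ge p K F n = ⊥ := by
  refine ⟨wt F (fun _ => p) + 1, fun n hn => le_bot_iff.1 (Ideal.span_le.2 ?_)⟩
  rintro _ ⟨a, ha, rfl⟩
  refine zm_eq_zero fun h => ?_
  have : wt F a ≤ wt F fun _ => p := Finset.sum_le_sum fun i _ => Nat.mul_le_mul_right _ (h i).le
  omega

theorem Ge_le_mx [Fact p.Prime] (hn : 1 ≤ n) : Ge p K F n ≤ mx := fun f hf => by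
  rw [mem_mx, ← cf_zero]
  by_contra h
  have := mem_Ge.1 hf 0 h
  simp [wt] at this
  omega

theorem mx_le_Ge (h : ∀ i, 0 < F i) : mx ≤ Ge p K F 1 :=
  Ideal.span_le.2 (by
    rintro _ ⟨i, rfl⟩
    exact (flt_Ge F).anti (by have := h i; omega) (z_mem_Ge F i))

omit [Algebra K A] in
theorem Car_Ge {Fl : ℤ → Ideal A} (h : Flt Fl) {I : σ → Ideal A} (hI : ∀ i, I i ≤ Fl (F i))
    {g : O p K σ} (hg : g ∈ Ge p K F n) : Car I g ≤ Fl n :=
  Car_le.2 fun b hb => (PI_le h hI b).trans (h.anti (mem_Ge.1 hg b hb))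

theorem map_Ge {Fl : ℤ → Ideal A} (h : Flt Fl) {ψ : O p K σ →ₐ[K] A} (hψ : ∀ i, ψ (z i) ∈ Fl (F i))
    {g : O p K σ} (hg : g ∈ Ge p K F n) : ψ g ∈ Fl n :=
  Car_Ge h (fun _ => le_rfl) hg (map_mem_Car hψ g)

variable [Fact p.Prime] [Fact ((p : K) = 0)]

theorem pd_Ge {g : O p K σ} (hg : g ∈ Ge p K F n) (x : σ) : pd x g ∈ Ge p K F (n - F x) := by
  classical
  refine mem_Ge.2 fun a ha => ?_
  have := mem_Ge.1 hg _ (cf_pd_ne.1 ha)
  rw [wt_add, wt_single] at this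
  omega

theorem sub_Ge {Fl : ℤ → Ideal A} (h : Flt Fl) {ψ ψ' : O p K σ →ₐ[K] A}
    (hψ : ∀ i, ψ (z i) ∈ Fl (F i)) (hψ' : ∀ i, ψ' (z i) ∈ Fl (F i)) {k : ℤ}
    (hd : ∀ i, ψ' (z i) - ψ (z i) ∈ Fl (F i + k)) {g : O p K σ} (hg : g ∈ Ge p K F n) :
    ψ' g - ψ g ∈ Fl (n + k) :=
  tay1 hψ hψ' g fun x => h.mul_le ((Ideal.span_singleton_le_iff_mem _).2 (hd x))
    (Car_Ge h (fun _ => le_rfl) (pd_Ge hg x)) (by omega)

/-- **weighted fixed points**: the equations `z (e i) = η i` with `η i` of higher weight -/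
theorem solve_w {Γ : Type*} [AddCommGroup Γ] [Fintype Γ] [DecidableEq Γ] {GO : Gr Γ K (O p K σ)}
    {G : Gr Γ K A} {d : σ → Γ} (hO : ∀ i, GO.Hg (d i) (z i)) {Fl : ℤ → Ideal A} (h : Flt Fl)
    (hp : ∀ x ∈ Fl 1, x ^ p = 0) {N : ℕ} (hN : Fl N = ⊥) {e : τ → σ} (he : Injective e)
    {η : τ → O p K σ} (hη : ∀ i, GO.Hg (d (e i)) (η i) ∧ η i ∈ Ge p K F (F (e i) + 1))
    {φ : O p K σ →ₐ[K] A} (hφ : ∀ u, u ∉ range e → G.Hg (d u) (φ (z u)) ∧ φ (z u) ∈ Fl (F u)) :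
    ∃ ψ : O p K σ →ₐ[K] A, (∀ u, G.Hg (d u) (ψ (z u)) ∧ ψ (z u) ∈ Fl (F u)) ∧
      (∀ u, u ∉ range e → ψ (z u) = φ (z u)) ∧
      ∀ i, ψ (z (e i)) = ψ (η i) ∧ ψ (z (e i)) ∈ Fl (F (e i) + 1) := by
  have key : ∀ (b : τ → A) (hb : ∀ i, b i ∈ Fl 1), (∀ i, G.Hg (d (e i)) (b i) ∧
      b i ∈ Fl (F (e i) + 1)) → ∀ u, G.Hg (d u) (upd hp e φ b hb (z u)) ∧
        upd hp e φ b hb (z u) ∈ Fl (F u) := fun b hb h1 u => by
    by_cases hu : u ∈ range e
    · obtain ⟨i, rfl⟩ := hu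
      rw [upd_e hp he]
      exact ⟨(h1 i).1, h.anti (by omega) (h1 i).2⟩
    · rw [upd_not _ _ _ _ _ hu]; exact hφ u hu
  have : ∀ k : ℕ, ∃ (b : τ → A) (hb : ∀ i, b i ∈ Fl 1), (∀ i, G.Hg (d (e i)) (b i) ∧
      b i ∈ Fl (F (e i) + 1)) ∧ ∀ i, upd hp e φ b hb (η i) - b i ∈ Fl (F (e i) + 1 + k) := by
    intro k
    induction k with
    | zero =>
      have h0 : ∀ i, G.Hg (d (e i)) (0 : A) ∧ (0 : A) ∈ Fl (F (e i) + 1) :=
        fun i => ⟨G.hg_zero _, zero_mem _⟩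
      exact ⟨fun _ => 0, fun _ => zero_mem _, h0, fun i => by
        simpa using map_Ge h (fun u => (key _ _ h0 u).2) (hη i).2⟩
    | succ k ih =>
      obtain ⟨b, hb, h1, h2⟩ := ih
      have h3 : ∀ i, G.Hg (d (e i)) (upd hp e φ b hb (η i)) ∧
          upd hp e φ b hb (η i) ∈ Fl (F (e i) + 1) := fun i =>
        ⟨(hom_of_z hO fun u => (key b hb h1 u).1).hg (hη i).1,
          map_Ge h (fun u => (key b hb h1 u).2) (hη i).2⟩
      refine ⟨fun i => upd hp e φ b hb (η i), fun i => h.anti (by omega) (h3 i).2, h3, fun i => ?_⟩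
      refine sub_Ge h (fun u => (key b hb h1 u).2) (fun u => (key _ _ h3 u).2) (fun u => ?_) (hη i).2
      by_cases hu : u ∈ range e
      · obtain ⟨j, rfl⟩ := hu
        rw [upd_e hp he, upd_e hp he]
        exact h.anti (by push_cast; omega) (h2 j)
      · rw [upd_not _ _ _ _ _ hu, upd_not _ _ _ _ _ hu, sub_self]; exact zero_mem _
  obtain ⟨b, hb, h1, h2⟩ := this N
  refine ⟨upd hp e φ b hb, key b hb h1, fun u => upd_not _ _ _ _ _, fun i => ?_⟩
  rw [upd_e hp he]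
  have := h.anti (show (N : ℤ) ≤ _ by omega) (h2 i)
  rw [hN, Ideal.mem_bot, sub_eq_zero] at this
  exact ⟨this.symm, (h1 i).2⟩

end Crest.Agent.N255.Tg

end
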